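import Vale.Agent.P347.Heat

open MeasureTheory ProbabilityTheory Filter Set
open scoped ENNReal ContDiff RealInnerProductSpace

namespace Vale.Agent.P347

variable {d : ℕ}

namespace ConvAux

theorem integrable_shift {Ω : Type} [MeasurableSpace Ω] (μ : Measure Ω) [IsProbabilityMeasure μ]
    {φ : Ω → E d} (hφ : Measurable φ) {g : E d → ℝ} (hg : Measurable g)
    (hi : Integrable g volume) :
    Integrable (fun p : E d × Ω => g (p.1 + φ p.2)) ((volume : Measure (E d)).prod μ) := by
  have hm : Measurable fun p : E d × Ω => g (p.1 + φ p.2) :=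
    hg.comp (measurable_fst.add (hφ.comp measurable_snd))
  rw [integrable_prod_iff' hm.aestronglyMeasurable]
  refine ⟨Eventually.of_forall fun w => hi.comp_add_right (φ w), ?_⟩
  have : (fun w => ∫ x, ‖g (x + φ w)‖) = fun _ => ∫ x, ‖g x‖ :=
    funext fun w => integral_add_right_eq_self (fun x => ‖g x‖) (φ w)
  simp only [this]
  exact integrable_const _

theorem integral_shift {Ω : Type} [MeasurableSpace Ω] (μ : Measure Ω) [IsProbabilityMeasure μ]
    {φ : Ω → E d} (hφ : Measurable φ) {g : E d → ℝ} (hg : Measurable g)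
    (hi : Integrable g volume) : ∫ x, ∫ w, g (x + φ w) ∂μ = ∫ x, g x := by
  rw [integral_integral_swap (f := fun x w => g (x + φ w)) (integrable_shift μ hφ hg hi)]
  have : (fun w => ∫ x, g (x + φ w)) = fun _ => ∫ x, g x :=
    funext fun w => integral_add_right_eq_self g (φ w)
  rw [this]
  simp

theorem integrable_of_bdd {α : Type} [MeasurableSpace α] (μ : Measure α) [IsFiniteMeasure μ]
    {f : α → ℝ} (hf : Measurable f) {M : ℝ} (hM : ∀ x, |f x| ≤ M) : Integrable f μ :=
  Integrable.of_bound hf.aestronglyMeasurable M (Eventually.of_forall hM)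

theorem abs_integral_le {α : Type} [MeasurableSpace α] (μ : Measure α) [IsProbabilityMeasure μ]
    {f : α → ℝ} {M : ℝ} (hM : ∀ x, |f x| ≤ M) : |∫ x, f x ∂μ| ≤ M := by
  have := norm_integral_le_of_norm_le_const (μ := μ) (f := f) (C := M) (Eventually.of_forall hM)
  simpa using this

variable {V : E d → ℝ}

theorem cont (hV : IsPotential V) : Continuous V := hV.1.continuous

theorem cont_exp (hV : IsPotential V) : Continuous fun x => Real.exp (-V x) :=
  Real.continuous_exp.comp (cont hV).neg

theorem lower (hV : IsPotential V) (x : E d) : ‖x‖ ^ 2 / 2 ≤ V x := by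
  have := hV.sconv.lower 0 x
  rw [hV.2.1, hV.2.2.1] at this
  simp at this
  linarith

theorem exp_le_one (hV : IsPotential V) (x : E d) : |Real.exp (-V x)| ≤ 1 := by
  rw [abs_of_pos (Real.exp_pos _), Real.exp_le_one_iff]
  have := lower hV x
  have := sq_nonneg ‖x‖
  linarith

theorem integrable_exp (hV : IsPotential V) : Integrable (fun x => Real.exp (-V x)) volume := by
  have := hV.sconv.integrable_exp one_pos (f := fun _ => (1 : ℝ)) aestronglyMeasurable_const
    (A := 1) (B := 0) (fun x => by simp)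
  simpa using this

theorem exp_neg_Wt (hV : IsPotential V) (t : ℝ) (z : E d) :
    Real.exp (-Wt V t z) = ∫ ξ, Real.exp (-V (z + √t • ξ)) ∂(gam d) := by
  rw [Wt, neg_neg, Real.exp_log]
  refine integral_exp_pos (f := fun ξ => -V (z + √t • ξ)) ?_
  exact integrable_of_bdd _ ((cont_exp hV).comp (by fun_prop)).measurable
    fun ξ => exp_le_one hV _

theorem measurable_Wt (hV : IsPotential V) (t : ℝ) : Measurable (Wt V t) := by
  have h : Continuous fun p : E d × E d => Real.exp (-V (p.1 + √t • p.2)) :=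
    (cont_exp hV).comp (by fun_prop)
  exact (h.stronglyMeasurable.integral_prod_right' (ν := gam d)).measurable.log.neg

theorem integrable_exp_Wt (hV : IsPotential V) (t : ℝ) :
    Integrable (fun z => Real.exp (-Wt V t z)) volume := by
  simp only [exp_neg_Wt hV]
  exact (integrable_shift (gam d) (φ := fun ξ => √t • ξ) (by fun_prop) (cont_exp hV).measurable
    (integrable_exp hV)).integral_prod_left

theorem integral_gam_neg (g : E d → ℝ) : ∫ ξ, g (-ξ) ∂(gam d) = ∫ ξ, g ξ ∂(gam d) := by
  have h : (gam d).map (LinearIsometryEquiv.neg ℝ (E := E d)) = gam d := stdGaussian_map _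
  conv_rhs => rw [← h]
  exact ((LinearIsometryEquiv.neg ℝ (E := E d)).toHomeomorph.measurableEmbedding.integral_map
    g).symm

theorem integral_piT (hV : IsPotential V) (τ : ℝ) {f : E d → ℝ} (hf : Measurable f) {M : ℝ}
    (hM : ∀ x, |f x| ≤ M) :
    ∫ x, f x ∂(piT V τ) = ∫ x, ∫ ξ, f (x + √τ • ξ) ∂(gam d) ∂(gibbs V) := by
  have := hV.sconv.gibbs_prob one_pos
  have hm : Measurable fun p : E d × E d => p.1 + √τ • p.2 := by fun_prop
  rw [piT, integral_map hm.aemeasurable hf.aestronglyMeasurable, integral_prod]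
  exact integrable_of_bdd _ (hf.comp hm) fun p => hM _

theorem integral_piT_density (hV : IsPotential V) (τ : ℝ) {f : E d → ℝ} (hf : Measurable f)
    {M : ℝ} (hM : ∀ x, |f x| ≤ M) :
    ∫ x, f x ∂(piT V τ) = (∫ x, Real.exp (-V x))⁻¹ * ∫ c, Real.exp (-Wt V τ c) * f c := by
  rw [integral_piT hV τ hf hM, hV.sconv.integral_gibbs one_pos, smul_eq_mul]
  congr 1
  have hm : Measurable fun p : E d × E d => p.1 + √τ • p.2 := by fun_prop
  have i1 : Integrable (fun p : E d × E d => Real.exp (-V p.1) * f (p.1 + √τ • p.2))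
      ((volume : Measure (E d)).prod (gam d)) :=
    ((integrable_exp hV).comp_fst (gam d)).mul_bdd (hf.comp hm).aestronglyMeasurable
      (Eventually.of_forall fun p => hM _)
  have i2 : Integrable (fun p : E d × E d => Real.exp (-V (p.1 + √τ • (-p.2))) * f p.1)
      ((volume : Measure (E d)).prod (gam d)) :=
    (integrable_shift (gam d) (φ := fun ξ => √τ • (-ξ)) (by fun_prop) (cont_exp hV).measurable
      (integrable_exp hV)).mul_bdd (hf.comp measurable_fst).aestronglyMeasurable
      (Eventually.of_forall fun p => hM _)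
  calc ∫ x, Real.exp (-V x) • ∫ ξ, f (x + √τ • ξ) ∂(gam d)
      = ∫ x, ∫ ξ, Real.exp (-V x) * f (x + √τ • ξ) ∂(gam d) := by
        simp only [smul_eq_mul, integral_const_mul]
    _ = ∫ ξ, (∫ x, Real.exp (-V x) * f (x + √τ • ξ)) ∂(gam d) :=
        integral_integral_swap (f := fun x ξ => Real.exp (-V x) * f (x + √τ • ξ)) i1
    _ = ∫ ξ, (∫ c, Real.exp (-V (c + √τ • (-ξ))) * f c) ∂(gam d) := by
        refine integral_congr_ae (Eventually.of_forall fun ξ => ?_)
        simp only
        rw [← integral_add_right_eq_self (fun c => Real.exp (-V (c + √τ • (-ξ))) * f c) (√τ • ξ)]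
        simp
    _ = ∫ c, ∫ ξ, Real.exp (-V (c + √τ • (-ξ))) * f c ∂(gam d) :=
        (integral_integral_swap (f := fun c ξ => Real.exp (-V (c + √τ • (-ξ))) * f c) i2).symm
    _ = ∫ c, Real.exp (-Wt V τ c) * f c := by
        refine integral_congr_ae (Eventually.of_forall fun c => ?_)
        simp only
        rw [integral_mul_const, exp_neg_Wt hV,
          integral_gam_neg fun ξ => Real.exp (-V (c + √τ • ξ))]

theorem integral_Nm (c : E d) (s : ℝ) {f : E d → ℝ} (hf : Measurable f) :
    ∫ x, f x ∂(Nm c s) = ∫ ξ, f (c + s • ξ) ∂(gam d) := by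
  rw [Nm, integral_map (by fun_prop) hf.aestronglyMeasurable]

theorem norm_gradient_le (hV : IsPotential V) (x : E d) : ‖gradient V x‖ ≤ 2 * ‖x‖ := by
  have := hV.conv.norm_gradient_sub_le (by norm_num) x 0
  rwa [hV.2.2.1, sub_zero, sub_zero] at this

theorem sq_le_inner (hV : IsPotential V) (x : E d) : ‖x‖ ^ 2 ≤ ⟪gradient V x, x⟫ := by
  have h := hV.sconv.lower x 0
  rw [hV.2.1, zero_sub, inner_neg_right, norm_neg] at h
  have := lower hV x
  linarith

theorem hasFDerivAt_exp (hV : IsPotential V) (x : E d) :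
    HasFDerivAt (fun x => Real.exp (-V x)) (Real.exp (-V x) • -fderiv ℝ V x) x :=
  ((hV.1.differentiable (by norm_num) x).hasFDerivAt.neg).exp

theorem fderiv_eq_inner (x v : E d) : fderiv ℝ V x v = ⟪gradient V x, v⟫ := by
  rw [gradient, InnerProductSpace.toDual_symm_apply]

theorem cont_gradient (hV : IsPotential V) : Continuous (gradient V) :=
  (InnerProductSpace.toDual ℝ (E d)).symm.continuous.comp
    (hV.1.continuous_fderiv (by norm_num))

theorem le_exp (r : ℝ) (hr : 0 ≤ r) : r ≤ Real.exp r ∧ r ^ 2 ≤ 2 * Real.exp r := by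
  have := Real.quadratic_le_exp_of_nonneg hr
  constructor <;> nlinarith [sq_nonneg r]

theorem integrable_poly (hV : IsPotential V) {f : E d → ℝ} (hf : Continuous f) {A : ℝ}
    (hb : ∀ x, |f x| ≤ A * Real.exp ‖x‖) :
    Integrable (fun x => Real.exp (-V x) * f x) volume :=
  hV.sconv.integrable_exp one_pos hf.aestronglyMeasurable (A := A) (B := 1)
    (fun x => by simpa using hb x)

theorem ibp_coord (hV : IsPotential V) (i : Fin d) :
    Integrable (fun x : E d => Real.exp (-V x) * (x i * gradient V x i)) volume ∧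
    ∫ x : E d, Real.exp (-V x) * (x i * gradient V x i) = ∫ x, Real.exp (-V x) := by
  have hc : Continuous fun x : E d => x i := by fun_prop
  have hb : ∀ x : E d, |x i| ≤ ‖x‖ := fun x => PiLp.norm_apply_le x i
  have i1 : Integrable (fun x : E d => Real.exp (-V x) * (x i * gradient V x i)) volume := by
    refine integrable_poly hV (hc.mul (hc.comp (cont_gradient hV))) (A := 4) fun x => ?_
    have h1 := (hb (gradient V x)).trans (norm_gradient_le hV x)
    have h2 := (le_exp _ (norm_nonneg x)).2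
    rw [abs_mul]
    calc |x i| * |gradient V x i| ≤ ‖x‖ * (2 * ‖x‖) :=
          mul_le_mul (hb x) h1 (abs_nonneg _) (norm_nonneg _)
      _ ≤ _ := by nlinarith
  have i2 : Integrable (fun x : E d => Real.exp (-V x) * x i) volume :=
    integrable_poly hV hc (A := 1) fun x => by
      rw [one_mul]; exact (hb x).trans (le_exp _ (norm_nonneg x)).1
  refine ⟨i1, ?_⟩
  have e1 : ∀ x : E d, fderiv ℝ (fun x : E d => x i) x (ee i) = 1 := by
    intro x
    have : HasFDerivAt (fun x : E d => x i) (EuclideanSpace.proj i : E d →L[ℝ] ℝ) x :=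
      (EuclideanSpace.proj i : E d →L[ℝ] ℝ).hasFDerivAt
    rw [this.fderiv]; simp
  have e2 : ∀ x : E d, x i * fderiv ℝ (fun x => Real.exp (-V x)) x (ee i) =
      -(Real.exp (-V x) * (x i * gradient V x i)) := by
    intro x
    rw [(hasFDerivAt_exp hV x).fderiv]
    simp only [_root_.smul_apply, _root_.neg_apply, fderiv_eq_inner,
      smul_eq_mul, EuclideanSpace.inner_single_right]
    simp; ring
  have := integral_mul_fderiv_eq_neg_fderiv_mul_of_integrable (μ := (volume : Measure (E d)))
    (f := fun x : E d => x i) (g := fun x => Real.exp (-V x)) (v := ee i)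
    (by simpa only [e1, one_mul] using integrable_exp hV)
    (by simp only [e2]; exact i1.neg)
    (by simpa only [mul_comm] using i2)
    (fun x _ => (EuclideanSpace.proj i : E d →L[ℝ] ℝ).differentiableAt)
    (fun x _ => (hasFDerivAt_exp hV x).differentiableAt)
  simp only [e1, e2, one_mul, integral_neg] at this
  linarith

theorem integrable_norm (hV : IsPotential V) :
    Integrable (fun x : E d => Real.exp (-V x) * ‖x‖) volume :=
  integrable_poly hV continuous_norm (A := 1) fun x => by
    rw [one_mul, abs_norm]; exact (le_exp _ (norm_nonneg x)).1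

theorem integrable_norm_sq (hV : IsPotential V) :
    Integrable (fun x : E d => Real.exp (-V x) * ‖x‖ ^ 2) volume :=
  integrable_poly hV (continuous_norm.pow 2) (A := 2) fun x => by
    rw [abs_of_nonneg (sq_nonneg _)]; exact (le_exp _ (norm_nonneg x)).2

theorem second_moment (hV : IsPotential V) :
    ∫ x : E d, Real.exp (-V x) * ‖x‖ ^ 2 ≤ d * ∫ x, Real.exp (-V x) := by
  have e : ∑ i : Fin d, ∫ x : E d, Real.exp (-V x) * (x i * gradient V x i) =
      d * ∫ x, Real.exp (-V x) := by
    simp [(ibp_coord hV _).2]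
  rw [← e, ← integral_finsetSum _ fun i _ => (ibp_coord hV i).1]
  refine integral_mono (integrable_norm_sq hV)
    (integrable_finsetSum _ fun i _ => (ibp_coord hV i).1) fun x => ?_
  simp only
  rw [← Finset.mul_sum]
  refine mul_le_mul_of_nonneg_left ((sq_le_inner hV x).trans_eq ?_) (Real.exp_pos _).le
  rw [PiLp.inner_apply]
  simp

theorem first_moment (hV : IsPotential V) :
    ∫ x : E d, Real.exp (-V x) * ‖x‖ ≤ √(d : ℝ) * ∫ x, Real.exp (-V x) := by
  rcases Nat.eq_zero_or_pos d with h | h
  · subst h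
    have : ∀ x : E 0, ‖x‖ = 0 := fun x => by rw [Subsingleton.elim x 0, norm_zero]
    simp [this]
  have hs : 0 < √(d : ℝ) := Real.sqrt_pos.2 (by exact_mod_cast h)
  have hsq : √(d : ℝ) * √(d : ℝ) = d := Real.mul_self_sqrt (Nat.cast_nonneg d)
  have key : ∫ x : E d, 2 * √(d : ℝ) * (Real.exp (-V x) * ‖x‖) ≤
      ∫ x : E d, (Real.exp (-V x) * ‖x‖ ^ 2 + d * Real.exp (-V x)) := by
    refine integral_mono ((integrable_norm hV).const_mul _)
      ((integrable_norm_sq hV).add ((integrable_exp hV).const_mul _)) fun x => ?_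
    have := mul_nonneg (Real.exp_pos (-V x)).le (sq_nonneg (‖x‖ - √(d : ℝ)))
    have e : Real.exp (-V x) * (‖x‖ - √(d : ℝ)) ^ 2 = Real.exp (-V x) * ‖x‖ ^ 2 +
        (√(d : ℝ) * √(d : ℝ)) * Real.exp (-V x) - 2 * √(d : ℝ) * (Real.exp (-V x) * ‖x‖) := by
      ring
    rw [e, hsq] at this
    simp only
    linarith
  rw [integral_const_mul, integral_add (integrable_norm_sq hV) ((integrable_exp hV).const_mul _),
    integral_const_mul] at key
  have := second_moment hV
  refine le_of_mul_le_mul_left ?_ (mul_pos two_pos hs)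
  calc _ ≤ 2 * (d * ∫ x, Real.exp (-V x)) := by linarith
    _ = 2 * ((√(d : ℝ) * √(d : ℝ)) * ∫ x, Real.exp (-V x)) := by rw [hsq]
    _ = _ := by ring

theorem first_moment_gibbs (hV : IsPotential V) : ∫ x, ‖x‖ ∂(gibbs V) ≤ √(d : ℝ) := by
  have hZ := hV.sconv.integral_exp_pos one_pos
  rw [hV.sconv.integral_gibbs one_pos, smul_eq_mul, inv_mul_le_iff₀ hZ, mul_comm]
  exact first_moment hV

theorem integrable_norm_gibbs (hV : IsPotential V) : Integrable (fun x : E d => ‖x‖) (gibbs V) :=
  hV.sconv.integrable_gibbs one_pos continuous_norm.aestronglyMeasurable (A := 1) (B := 1)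
    fun x => by simpa using (le_exp _ (norm_nonneg x)).1

theorem integrable_norm_gam : Integrable (fun x : E d => ‖x‖) (gam d) :=
  (IsGaussian.integrable_id (μ := gam d)).norm

theorem first_moment_gam : ∫ x, ‖x‖ ∂(gam d) ≤ √(d : ℝ) := by
  have h := lintegral_enorm_gam d
  have hi : Integrable (fun x : E d => x) (gam d) := IsGaussian.integrable_id
  rw [← ofReal_integral_norm_eq_lintegral_enorm hi] at h
  exact (ENNReal.ofReal_le_ofReal_iff (Real.sqrt_nonneg _)).1 h

theorem exp_sub_le (hV : IsPotential V) (x v : E d) :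
    |Real.exp (-V (x + -v)) - Real.exp (-V x)| ≤
      ∫ t in Ioc (0 : ℝ) 1, 2 * ‖v‖ * (Real.exp (-V (x + t • -v)) * ‖x + t • -v‖) := by
  have hd : ∀ t : ℝ, HasDerivAt (fun t : ℝ => Real.exp (-V (x + t • -v)))
      (Real.exp (-V (x + t • -v)) * ⟪gradient V (x + t • -v), v⟫) t := by
    intro t
    have h1 : HasDerivAt (fun t : ℝ => x + t • -v) (-v) t := by
      simpa using ((hasDerivAt_id t).smul_const (-v)).const_add x
    have h2 := (hasFDerivAt_exp hV (x + t • -v)).comp_hasDerivAt t h1
    refine h2.congr_deriv ?_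
    simp only [_root_.smul_apply, _root_.neg_apply, fderiv_eq_inner, smul_eq_mul, inner_neg_right,
      neg_neg]
  have hl : Continuous fun t : ℝ => x + t • -v := by fun_prop
  have hc : Continuous fun t : ℝ => Real.exp (-V (x + t • -v)) * ⟪gradient V (x + t • -v), v⟫ :=
    ((cont_exp hV).comp hl).mul (((cont_gradient hV).comp hl).inner continuous_const)
  have e := intervalIntegral.integral_eq_sub_of_hasDerivAt (a := 0) (b := 1) (fun t _ => hd t)
    (hc.intervalIntegrable _ _)
  simp only [one_smul, zero_smul, add_zero] at e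
  rw [← e, intervalIntegral.integral_of_le zero_le_one, ← Real.norm_eq_abs]
  refine norm_integral_le_of_norm_le ?_ (Eventually.of_forall fun t => ?_)
  · exact ((continuous_const.mul (((cont_exp hV).comp hl).mul hl.norm)).integrableOn_Icc).mono_set
      Ioc_subset_Icc_self
  · rw [norm_mul, Real.norm_eq_abs, abs_of_pos (Real.exp_pos _)]
    have h1 := norm_inner_le_norm (𝕜 := ℝ) (gradient V (x + t • -v)) v
    have h2 := mul_le_mul_of_nonneg_right (norm_gradient_le hV (x + t • -v)) (norm_nonneg v)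
    have h3 := mul_le_mul_of_nonneg_left (h1.trans h2) (Real.exp_pos (-V (x + t • -v))).le
    linarith

theorem gibbs_shift_le (hV : IsPotential V) (v : E d) {f : E d → ℝ} (hf : Measurable f)
    (hM : ∀ x, |f x| ≤ 1) :
    |∫ x, f (x + v) ∂(gibbs V) - ∫ x, f x ∂(gibbs V)| ≤ 2 * ‖v‖ * √(d : ℝ) := by
  have hZ := hV.sconv.integral_exp_pos one_pos
  have : IsProbabilityMeasure ((volume : Measure ℝ).restrict (Ioc (0 : ℝ) 1)) := ⟨by simp⟩
  have hg : Measurable fun x : E d => 2 * ‖v‖ * (Real.exp (-V x) * ‖x‖) :=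
    (continuous_const.mul ((cont_exp hV).mul continuous_norm)).measurable
  have hφ : Measurable fun t : ℝ => t • -v := by fun_prop
  have hi := (integrable_norm hV).const_mul (2 * ‖v‖)
  rw [hV.sconv.integral_gibbs one_pos, hV.sconv.integral_gibbs one_pos, smul_eq_mul, smul_eq_mul,
    ← mul_sub, abs_mul, abs_of_pos (inv_pos.2 hZ), inv_mul_le_iff₀ hZ]
  simp only [smul_eq_mul]
  have e : ∫ x, Real.exp (-V x) * f (x + v) = ∫ x, Real.exp (-V (x + -v)) * f x := by
    rw [← integral_add_right_eq_self (fun x => Real.exp (-V (x + -v)) * f x) v]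
    simp
  rw [e, ← integral_sub
    (((integrable_exp hV).comp_add_right (-v)).mul_bdd hf.aestronglyMeasurable
      (Eventually.of_forall hM))
    ((integrable_exp hV).mul_bdd hf.aestronglyMeasurable (Eventually.of_forall hM)),
    ← Real.norm_eq_abs]
  refine (norm_integral_le_of_norm_le
    (integrable_shift (volume.restrict (Ioc (0 : ℝ) 1)) hφ hg hi).integral_prod_left
    (Eventually.of_forall fun x => ?_)).trans ?_
  · rw [← sub_mul, Real.norm_eq_abs, abs_mul]
    exact (mul_le_of_le_one_right (abs_nonneg _) (hM x)).trans (exp_sub_le hV x v)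
  · rw [integral_shift (volume.restrict (Ioc (0 : ℝ) 1)) hφ hg (g := fun x : E d =>
      2 * ‖v‖ * (Real.exp (-V x) * ‖x‖)) hi, integral_const_mul]
    have := mul_le_mul_of_nonneg_left (first_moment hV) (by positivity : 0 ≤ 2 * ‖v‖)
    linarith

end ConvAux

open ConvAux

theorem piT_prob {V : E d → ℝ} (hV : IsPotential V) (τ : ℝ) :
    IsProbabilityMeasure (piT V τ) := by
  have := hV.sconv.gibbs_prob one_pos
  exact Measure.isProbabilityMeasure_map (by fun_prop)

/-- partial denoising -/
theorem integral_rho_piT {V : E d → ℝ} (hV : IsPotential V) {τ u : ℝ} (hτ : 0 < τ)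
    (hu : |u| < 1) {f : E d → ℝ} (hf : Measurable f) {M : ℝ} (hM : ∀ x, |f x| ≤ M) :
    ∫ c, (∫ w, f (c + (√τ * u) • w) ∂(rho V c τ u)) ∂(piT V τ)
      = ∫ x, f x ∂(piT V (τ * (1 - u ^ 2))) := by
  set τ' := τ * (1 - u ^ 2) with hτ'
  set g : E d → ℝ := fun x => Real.exp (-Wt V τ' x) * f x with hg
  have mW := measurable_Wt hV
  have gm : Measurable g := (mW τ').neg.exp.mul hf
  have gi : Integrable g volume :=
    (integrable_exp_Wt hV τ').mul_bdd hf.aestronglyMeasurable (Eventually.of_forall hM)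
  have hφ : Measurable fun w : E d => (√τ * u) • w := by fun_prop
  have e1 : ∀ c, ∫ w, f (c + (√τ * u) • w) ∂(rho V c τ u) =
      Real.exp (Wt V τ c) * ∫ w, g (c + (√τ * u) • w) ∂(gam d) := by
    intro c
    have hm : Measurable fun w : E d =>
        ENNReal.ofReal (Real.exp (Wt V τ c - Wt V τ' (c + (√τ * u) • w))) :=
      ((measurable_const.sub ((mW τ').comp (measurable_const.add hφ))).exp).ennreal_ofReal
    rw [rho, integral_withDensity_eq_integral_toReal_smul hm
      (Eventually.of_forall fun _ => ENNReal.ofReal_lt_top), ← integral_const_mul]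
    refine integral_congr_ae (Eventually.of_forall fun w => ?_)
    simp only [hg, smul_eq_mul]
    rw [ENNReal.toReal_ofReal (Real.exp_pos _).le, sub_eq_add_neg, Real.exp_add, mul_assoc]
  have Gm : Measurable fun c => ∫ w, g (c + (√τ * u) • w) ∂(gam d) :=
    ((gm.comp (measurable_fst.add (hφ.comp measurable_snd))).stronglyMeasurable.integral_prod_right'
      (ν := gam d)).measurable
  have hsemi : ∀ c, ∫ w, Real.exp (-Wt V τ' (c + (√τ * u) • w)) ∂(gam d) =
      Real.exp (-Wt V τ c) := by
    intro c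
    have hpos : 0 ≤ τ' := mul_nonneg hτ.le (by nlinarith [abs_nonneg u, sq_abs u])
    have hN := map_add_Nm c (√τ * u) (√τ') (√τ) (by
      rw [mul_pow, Real.sq_sqrt hτ.le, Real.sq_sqrt hpos, hτ']; ring)
    have hm : Measurable fun p : E d × E d => p.1 + √τ' • p.2 := by fun_prop
    rw [← integral_Nm c (√τ * u) (f := fun x => Real.exp (-Wt V τ' x)) (mW τ').neg.exp,
      exp_neg_Wt hV τ c,
      ← integral_Nm c (√τ) (cont_exp hV).measurable, ← hN,
      integral_map hm.aemeasurable (cont_exp hV).aestronglyMeasurable,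
      integral_prod (fun p : E d × E d => Real.exp (-V (p.1 + √τ' • p.2)))
        (integrable_of_bdd _ ((cont_exp hV).measurable.comp hm) fun p => exp_le_one hV _)]
    simp only [exp_neg_Wt hV]
  have hb : ∀ c, |Real.exp (Wt V τ c) * ∫ w, g (c + (√τ * u) • w) ∂(gam d)| ≤ M := by
    intro c
    have b1 : ∀ x, |Real.exp (-Wt V τ' x)| ≤ 1 := fun x => by
      rw [exp_neg_Wt hV]; exact abs_integral_le _ fun ξ => exp_le_one hV _
    have h1 : ‖∫ w, g (c + (√τ * u) • w) ∂(gam d)‖ ≤
        ∫ w, Real.exp (-Wt V τ' (c + (√τ * u) • w)) * M ∂(gam d) := by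
      refine norm_integral_le_of_norm_le (Integrable.mul_const (integrable_of_bdd _
        ((mW τ').neg.exp.comp (measurable_const.add hφ)) fun w => b1 _) _)
        (Eventually.of_forall fun w => ?_)
      rw [hg, Real.norm_eq_abs, abs_mul, abs_of_pos (Real.exp_pos _)]
      exact mul_le_mul_of_nonneg_left (hM _) (Real.exp_pos _).le
    rw [integral_mul_const, hsemi, Real.norm_eq_abs] at h1
    rw [abs_mul, abs_of_pos (Real.exp_pos _)]
    refine (mul_le_mul_of_nonneg_left h1 (Real.exp_pos _).le).trans_eq ?_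
    rw [← mul_assoc, ← Real.exp_add, add_neg_cancel, Real.exp_zero, one_mul]
  simp only [e1]
  rw [integral_piT_density hV τ (f := fun c =>
      Real.exp (Wt V τ c) * ∫ w, g (c + (√τ * u) • w) ∂(gam d)) ((mW τ).exp.mul Gm) hb,
    integral_piT_density hV τ' hf hM,
    ← integral_shift (gam d) hφ gm gi]
  congr 1
  refine integral_congr_ae (Eventually.of_forall fun c => ?_)
  simp only
  rw [← mul_assoc, ← Real.exp_add, neg_add_cancel, Real.exp_zero, one_mul]

/-- adding noise -/
theorem integral_Nm_piT {V : E d → ℝ} (hV : IsPotential V) {τ : ℝ} (hτ : 0 ≤ τ) (s : ℝ)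
    {f : E d → ℝ} (hf : Measurable f) {M : ℝ} (hM : ∀ x, |f x| ≤ M) :
    ∫ c, (∫ x, f x ∂(Nm c s)) ∂(piT V τ) = ∫ x, f x ∂(piT V (τ + s ^ 2)) := by
  have hm : Measurable fun p : E d × E d => p.1 + s • p.2 := by fun_prop
  have Fm : Measurable fun c => ∫ ξ, f (c + s • ξ) ∂(gam d) :=
    ((hf.comp hm).stronglyMeasurable.integral_prod_right' (ν := gam d)).measurable
  simp only [integral_Nm _ s hf]
  rw [integral_piT hV τ Fm (fun c => abs_integral_le _ fun ξ => hM _), integral_piT hV _ hf hM]
  refine integral_congr_ae (Eventually.of_forall fun x => ?_)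
  have hN := map_add_Nm x (√τ) s (√(τ + s ^ 2)) (by
    rw [Real.sq_sqrt hτ, Real.sq_sqrt (by positivity)])
  simp only
  rw [← integral_Nm x (√τ) Fm, ← integral_Nm x _ hf, ← hN,
    integral_map hm.aemeasurable hf.aestronglyMeasurable,
    integral_prod (fun p : E d × E d => f (p.1 + s • p.2))
      (integrable_of_bdd _ (hf.comp hm) fun p => hM _)]

theorem lintegral_enorm_piT {V : E d → ℝ} (hV : IsPotential V) {τ : ℝ} (hτ : 0 ≤ τ)
    (hτ' : τ ≤ 1) : ∫⁻ x, ‖x‖ₑ ∂(piT V τ) ≤ ENNReal.ofReal (2 * √(d : ℝ)) := by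
  have := hV.sconv.gibbs_prob one_pos
  have hm : Measurable fun p : E d × E d => p.1 + √τ • p.2 := by fun_prop
  have h1 : ∫⁻ x, ‖x‖ₑ ∂(gibbs V) ≤ ENNReal.ofReal √(d : ℝ) := by
    have hi : Integrable (fun x : E d => x) (gibbs V) :=
      (integrable_norm_iff aestronglyMeasurable_id).1 (integrable_norm_gibbs hV)
    rw [← ofReal_integral_norm_eq_lintegral_enorm hi]
    exact ENNReal.ofReal_le_ofReal (first_moment_gibbs hV)
  rw [piT, lintegral_map measurable_enorm hm]
  calc ∫⁻ p : E d × E d, ‖p.1 + √τ • p.2‖ₑ ∂((gibbs V).prod (gam d))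
      ≤ ∫⁻ p : E d × E d, ‖p.1‖ₑ + ‖p.2‖ₑ ∂((gibbs V).prod (gam d)) := by
        refine lintegral_mono fun p => (enorm_add_le _ _).trans ?_
        gcongr
        rw [← ofReal_norm, ← ofReal_norm]
        refine ENNReal.ofReal_le_ofReal ?_
        rw [norm_smul, Real.norm_eq_abs, abs_of_nonneg (Real.sqrt_nonneg _)]
        exact mul_le_of_le_one_left (norm_nonneg _) (Real.sqrt_le_one.2 hτ')
    _ = ∫⁻ x, ‖x‖ₑ ∂(gibbs V) + ∫⁻ x, ‖x‖ₑ ∂(gam d) := by
        rw [lintegral_add_left (by fun_prop), lintegral_prod _ (by fun_prop),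
          lintegral_prod _ (by fun_prop)]
        simp
    _ ≤ ENNReal.ofReal √(d : ℝ) + ENNReal.ofReal √(d : ℝ) :=
        add_le_add h1 (lintegral_enorm_gam d)
    _ = _ := by rw [← ENNReal.ofReal_add (Real.sqrt_nonneg _) (Real.sqrt_nonneg _), two_mul]

theorem piT_real_sub_le {V : E d → ℝ} (hV : IsPotential V) {τ : ℝ} (hτ : 0 ≤ τ)
    {B : Set (E d)} (hB : MeasurableSet B) :
    |(piT V τ).real B - (gibbs V).real B| ≤ 2 * √τ * d := by
  have := hV.sconv.gibbs_prob one_pos
  set f : E d → ℝ := B.indicator 1 with hfdef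
  have hf : Measurable f := measurable_one.indicator hB
  have hM : ∀ x, |f x| ≤ 1 := fun x => by
    by_cases h : x ∈ B <;> simp [hfdef, h]
  have hm : Measurable fun p : E d × E d => p.1 + √τ • p.2 := by fun_prop
  have hi : Integrable (fun p : E d × E d => f (p.1 + √τ • p.2)) ((gibbs V).prod (gam d)) :=
    integrable_of_bdd _ (hf.comp hm) fun p => hM _
  rw [← integral_indicator_one hB, ← integral_indicator_one hB, ← hfdef,
    integral_piT hV τ hf hM, integral_integral_swap (f := fun x ξ => f (x + √τ • ξ)) hi]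
  have e : ∫ x, f x ∂(gibbs V) = ∫ _ξ, (∫ x, f x ∂(gibbs V)) ∂(gam d) := by simp
  rw [e, ← integral_sub hi.integral_prod_right (integrable_const _), ← Real.norm_eq_abs]
  refine (norm_integral_le_of_norm_le (integrable_norm_gam.const_mul (2 * √τ * √(d : ℝ)))
    (Eventually.of_forall fun ξ => ?_)).trans ?_
  · refine (gibbs_shift_le hV (√τ • ξ) hf hM).trans_eq ?_
    rw [norm_smul, Real.norm_eq_abs, abs_of_nonneg (Real.sqrt_nonneg _)]
    ring
  · rw [integral_const_mul]
    refine (mul_le_mul_of_nonneg_left first_moment_gam (by positivity)).trans_eq ?_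
    rw [mul_assoc, Real.mul_self_sqrt (Nat.cast_nonneg d)]

end Vale.Agent.P347
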