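import Vale.Agent.P347.Field
import Vale.Agent.P347.Div1

open MeasureTheory ProbabilityTheory Filter Set
open scoped ENNReal ContDiff RealInnerProductSpace

namespace Vale.Agent.P347

variable {d : ℕ}

namespace DivA

theorem slice_smooth {F : XX d → ℝ} (hF : ContDiff ℝ ∞ F) (s : ℝ) :
    ContDiff ℝ ∞ fun q : E d × E d => F (s, q) :=
  hF.comp (contDiff_prodMk_right s)

theorem DA_slice {F : XX d → ℝ} (hF : ContDiff ℝ ∞ F) (s : ℝ) (v q : E d × E d) :
    DA v (fun q : E d × E d => F (s, q)) q = fderiv ℝ F (s, q) (0, v) := by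
  have h2 := ((diffAt hF (s, q)).hasFDerivAt.comp q (hasFDerivAt_prodMk_right s q)).fderiv
  have h3 : (fun q : E d × E d => F (s, q)) = F ∘ fun q => (s, q) := rfl
  unfold DA
  rw [h3, h2]
  simp

theorem DA_lift {F : ℝ × E d → ℝ} (hF : ContDiff ℝ ∞ F) (s : ℝ) (v q : E d × E d) :
    DA v (fun q : E d × E d => lift F (s, q)) q = uu s * fderiv ℝ F (s, uu s • q.1) (0, v.1) := by
  have h1 : HasFDerivAt (fun q : E d × E d => (s, uu s • q.1))
      ((0 : (E d × E d) →L[ℝ] ℝ).prod (uu s • ContinuousLinearMap.fst ℝ (E d) (E d))) q :=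
    (hasFDerivAt_const s q).prodMk (hasFDerivAt_fst.const_smul (uu s))
  have h2 := ((diffAt hF (s, uu s • q.1)).hasFDerivAt.comp q h1).fderiv
  have h3 : (fun q : E d × E d => lift F (s, q)) = F ∘ fun q => (s, uu s • q.1) := rfl
  unfold DA
  rw [h3, h2]
  have h4 : ((0 : ℝ), uu s • v.1) = uu s • ((0 : ℝ), v.1) := by simp
  change fderiv ℝ F (s, uu s • q.1) ((0 : ℝ), uu s • v.1) = _
  rw [h4, map_smul, smul_eq_mul]

theorem DA_dens {Φ : ℝ × E d → ℝ} (hΦ : ContDiff ℝ ∞ Φ) (s : ℝ) (v q : E d × E d) :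
    DA v (fun q : E d × E d => dens Φ (s, q)) q =
      -((⟪q.1, v.1⟫ + uu s * fderiv ℝ Φ (s, uu s • q.1) (0, v.1) + ⟪q.2, v.2⟫) * dens Φ (s, q)) := by
  have hl : DifferentiableAt ℝ (fun q : E d × E d => lift Φ (s, q)) q :=
    diffAt (slice_smooth (contDiff_lift hΦ) s) q
  have h1 : HasFDerivAt (fun q : E d × E d => ‖q.1‖ ^ 2) _ q := (hasFDerivAt_fst (𝕜 := ℝ)).norm_sq
  have h2 : HasFDerivAt (fun q : E d × E d => ‖q.2‖ ^ 2) _ q := (hasFDerivAt_snd (𝕜 := ℝ)).norm_sq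
  have h3 := (((h1.neg.mul_const (1 / 2)).sub hl.hasFDerivAt).sub (h2.mul_const (1 / 2))).exp
  have h4 : (fun q : E d × E d => dens Φ (s, q)) = fun q : E d × E d =>
      Real.exp (-‖q.1‖ ^ 2 * (1 / 2) - lift Φ (s, q) - ‖q.2‖ ^ 2 * (1 / 2)) := by
    funext q
    unfold dens
    congr 1
    ring
  have h5 := DA_lift hΦ s v q
  have h6 : dens Φ (s, q) =
      Real.exp (-‖q.1‖ ^ 2 * (1 / 2) - lift Φ (s, q) - ‖q.2‖ ^ 2 * (1 / 2)) := congrFun h4 q
  unfold DA at h5 ⊢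
  rw [h4]
  erw [h3.fderiv]
  rw [h6, ← h5]
  simp
  ring

theorem DA_fst (l : Fin d) (v q : E d × E d) : DA v (fun q : E d × E d => q.1 l) q = v.1 l := by
  have h : HasFDerivAt (fun q : E d × E d => q.1 l)
      ((EuclideanSpace.proj l : E d →L[ℝ] ℝ).comp (ContinuousLinearMap.fst ℝ (E d) (E d))) q :=
    ((EuclideanSpace.proj l : E d →L[ℝ] ℝ).comp (ContinuousLinearMap.fst ℝ (E d) (E d))).hasFDerivAt
  unfold DA
  rw [h.fderiv]
  rfl

theorem DA_snd (l : Fin d) (v q : E d × E d) : DA v (fun q : E d × E d => q.2 l) q = v.2 l := by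
  have h : HasFDerivAt (fun q : E d × E d => q.2 l)
      ((EuclideanSpace.proj l : E d →L[ℝ] ℝ).comp (ContinuousLinearMap.snd ℝ (E d) (E d))) q :=
    ((EuclideanSpace.proj l : E d →L[ℝ] ℝ).comp (ContinuousLinearMap.snd ℝ (E d) (E d))).hasFDerivAt
  unfold DA
  rw [h.fderiv]
  rfl

theorem fst_smooth (l : Fin d) : ContDiff ℝ ∞ fun q : E d × E d => q.1 l :=
  ((EuclideanSpace.proj l : E d →L[ℝ] ℝ).comp (ContinuousLinearMap.fst ℝ (E d) (E d))).contDiff

theorem snd_smooth (l : Fin d) : ContDiff ℝ ∞ fun q : E d × E d => q.2 l :=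
  ((EuclideanSpace.proj l : E d →L[ℝ] ℝ).comp (ContinuousLinearMap.snd ℝ (E d) (E d))).contDiff

theorem sum_ee (v : Fin d → ℝ) : ∑ l, ∑ m, v l * v m * (ee l : E d) m = ∑ l, v l ^ 2 := by
  refine Finset.sum_congr rfl fun l _ => ?_
  rw [Finset.sum_eq_single l]
  · simp [sq]
  · intro m _ hm
    simp [hm]
  · simp

theorem uu_sq_le {s : ℝ} (hs : |s| ≤ 1 / 2) : uu s ^ 2 ≤ 1 := by
  have h1 := bump.nonneg (x := s)
  have h2 := bump.le_one (x := s)
  have h3 : s ^ 2 ≤ 1 := by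
    rw [← sq_abs]
    exact pow_le_one₀ (abs_nonneg _) (by linarith)
  have h4 : bump s ^ 2 ≤ 1 := pow_le_one₀ h1 h2
  unfold uu
  rw [mul_pow]
  exact mul_le_one₀ h3 (sq_nonneg _) h4

theorem tens_two {C : ℕ → ℝ} {ε : ℝ} {F : E d → ℝ} (h : TensBound C ε F) (z : E d)
    (v : Fin d → ℝ) : ∑ l, ∑ m, v l * v m * D1L [l, m] F z ≤ C 0 * ε * ∑ l, v l ^ 2 := by
  have h1 := h 0 0 z (fun a => v (a 0)) (fun a => v (a 0))
  have e : ∀ G : Fin d → ℝ, ∑ a : Fin (0 + 1) → Fin d, G (a 0) = ∑ l, G l := fun G =>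
    Fintype.sum_equiv (Equiv.funUnique (Fin 1) (Fin d)) _ _ fun a => rfl
  have e1 : ∑ a : Fin (0 + 1) → Fin d, ∑ b : Fin (0 + 1) → Fin d,
      v (a 0) * v (b 0) * D1L (List.ofFn a ++ List.ofFn b) F z
        = ∑ l, ∑ m, v l * v m * D1L [l, m] F z := by
    rw [← e fun l => ∑ m, v l * v m * D1L [l, m] F z]
    refine Finset.sum_congr rfl fun a _ => ?_
    rw [← e fun m => v (a 0) * v m * D1L [a 0, m] F z]
    refine Finset.sum_congr rfl fun b _ => ?_
    simp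
  beta_reduce at h1
  rw [e1, e fun l => v l ^ 2, mul_assoc (C (0 + 0) * ε),
    Real.mul_self_sqrt (Finset.sum_nonneg fun _ _ => sq_nonneg _)] at h1
  exact (le_abs_self _).trans h1

end DivA

open DivA

/-- L2 bound for the creation operator of the position variable -/
theorem Pkg.lintegral_cre_y {C : ℕ → ℝ} {ε : ℝ} {Φ : ℝ × E d → ℝ} (h : Pkg C ε Φ)
    (hε : 0 ≤ ε) (hε1 : ε ≤ 1) (hC : 0 ≤ C 0) {s : ℝ} (hs : |s| ≤ 1 / 2)
    (f : Fin d → XX d → ℝ) (hf : ∀ l, ContDiff ℝ ∞ (f l)) :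
    ∫⁻ q, ENNReal.ofReal ((∑ l, ((q.1 l + uu s * Gx Φ l (s, q)) * f l (s, q)
        - Dy l (f l) (s, q))) ^ 2) ∂(muS Φ s)
      ≤ ENNReal.ofReal (1 + C 0) * ∫⁻ q, ENNReal.ofReal (∑ l, f l (s, q) ^ 2) ∂(muS Φ s)
        + ∫⁻ q, ENNReal.ofReal (∑ l, ∑ m, Dy m (f l) (s, q) ^ 2) ∂(muS Φ s) := by
  have hΦ := h.smooth
  have hG : ∀ l, ContDiff ℝ ∞ fun q : E d × E d => Gx Φ l (s, q) := fun l =>
    slice_smooth (contDiff_Gx hΦ l) s
  have key := main (μ := (volume : Measure (E d)).prod (volume : Measure (E d)))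
    (fun l : Fin d => ((ee l, 0) : E d × E d))
    (g := fun l q => q.1 l + uu s * Gx Φ l (s, q)) (f := fun l q => f l (s, q))
    (p := fun q => dens Φ (s, q)) (κ := 1 + C 0) (by linarith)
    (fun l => (fst_smooth l).add (contDiff_const.mul (hG l)))
    (fun l => slice_smooth (hf l) s) (slice_smooth (contDiff_dens hΦ) s)
    (fun q => (Real.exp_pos _).le) ?_ ?_
  · simp only [fun l m q => DA_slice (hf l) s (ee m, 0) q] at key
    exact key
  · intro l q
    rw [DA_dens hΦ]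
    simp [Gx, lift, Dz, EuclideanSpace.inner_single_right]
  · intro q v
    have e : ∀ l m : Fin d, DA ((ee l, 0) : E d × E d) (fun q => q.1 m + uu s * Gx Φ m (s, q)) q
        = (ee l : E d) m + uu s ^ 2 * D1L [l, m] (fun z => Φ (s, z)) (uu s • q.1) := by
      intro l m
      rw [DA_add (fst_smooth m) (contDiff_const.mul (hG m)), DA_mul contDiff_const (hG m), DA_fst,
        ← foldr_Dz_apply hΦ]
      have e1 : DA ((ee l, 0) : E d × E d) (fun q => Gx Φ m (s, q)) q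
          = uu s * Dz l (Dz m Φ) (s, uu s • q.1) := DA_lift (contDiff_Dz hΦ m) s _ q
      have e2 : DA ((ee l, 0) : E d × E d) (fun _ => uu s) q = 0 := by simp [DA]
      rw [e1, e2]
      simp only [List.foldr_cons, List.foldr_nil]
      ring
    simp only [e, mul_add, Finset.sum_add_distrib]
    rw [sum_ee]
    have h1 := tens_two (h.tens s hs) (uu s • q.1) v
    have h2 : ∑ l, ∑ m, v l * v m * (uu s ^ 2 * D1L [l, m] (fun z => Φ (s, z)) (uu s • q.1))
        = uu s ^ 2 * ∑ l, ∑ m, v l * v m * D1L [l, m] (fun z => Φ (s, z)) (uu s • q.1) := by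
      simp only [Finset.mul_sum]
      exact Finset.sum_congr rfl fun l _ => Finset.sum_congr rfl fun m _ => by ring
    have hA : 0 ≤ ∑ l, v l ^ 2 := Finset.sum_nonneg fun _ _ => sq_nonneg _
    have h3 := mul_le_mul_of_nonneg_left h1 (sq_nonneg (uu s))
    have h4 := mul_le_mul_of_nonneg_right (uu_sq_le hs) (mul_nonneg (mul_nonneg hC hε) hA)
    have h5 := mul_le_mul_of_nonneg_left hε1 (mul_nonneg hC hA)
    rw [h2]
    nlinarith only [h3, h4, h5]

/-- L2 bound for the creation operator of the budget variable -/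
theorem lintegral_cre_e {Φ : ℝ × E d → ℝ} (hΦ : ContDiff ℝ ∞ Φ) (s : ℝ)
    (f : Fin d → XX d → ℝ) (hf : ∀ l, ContDiff ℝ ∞ (f l)) :
    ∫⁻ q, ENNReal.ofReal ((∑ l, (q.2 l * f l (s, q) - De l (f l) (s, q))) ^ 2) ∂(muS Φ s)
      ≤ ∫⁻ q, ENNReal.ofReal (∑ l, f l (s, q) ^ 2) ∂(muS Φ s)
        + ∫⁻ q, ENNReal.ofReal (∑ l, ∑ m, De m (f l) (s, q) ^ 2) ∂(muS Φ s) := by
  have key := main (μ := (volume : Measure (E d)).prod (volume : Measure (E d)))
    (fun l : Fin d => ((0, ee l) : E d × E d))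
    (g := fun l q => q.2 l) (f := fun l q => f l (s, q))
    (p := fun q => dens Φ (s, q)) (κ := 1) one_pos snd_smooth
    (fun l => slice_smooth (hf l) s) (slice_smooth (contDiff_dens hΦ) s)
    (fun q => (Real.exp_pos _).le) ?_ ?_
  · simp only [fun l m q => DA_slice (hf l) s (0, ee m) q, ENNReal.ofReal_one, one_mul] at key
    exact key
  · intro l q
    rw [DA_dens hΦ]
    simp [← Prod.zero_eq_mk, EuclideanSpace.inner_single_right]
  · intro q v
    simp only [DA_snd]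
    rw [sum_ee, one_mul]

end Vale.Agent.P347
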