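import Vale.Agent.P347.Heat

open MeasureTheory ProbabilityTheory Filter Set
open scoped ENNReal ContDiff RealInnerProductSpace

namespace Vale.Agent.P347

variable {d : ℕ}

/-- derivative in the position variable -/
noncomputable def Dy (i : Fin d) (f : XX d → ℝ) : XX d → ℝ := fun x => fderiv ℝ f x (0, ee i, 0)

/-- derivative in the budget variable -/
noncomputable def De (i : Fin d) (f : XX d → ℝ) : XX d → ℝ := fun x => fderiv ℝ f x (0, 0, ee i)

/-- derivative in time -/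
noncomputable def Ds (f : XX d → ℝ) : XX d → ℝ := fun x => fderiv ℝ f x (1, 0, 0)

variable {Φ : ℝ × E d → ℝ}

namespace Field

theorem inf_ne : (∞ : WithTop ℕ∞) ≠ 0 := by simp

section General

variable {X : Type*} [NormedAddCommGroup X] [NormedSpace ℝ X]

theorem contDiff_dir {F : X → ℝ} (hF : ContDiff ℝ ∞ F) (v : X) :
    ContDiff ℝ ∞ fun p => fderiv ℝ F p v :=
  (hF.fderiv_right (m := ∞) (by simp)).clm_apply contDiff_const

theorem dir_comm {F : X → ℝ} (hF : ContDiff ℝ ∞ F) (v w p : X) :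
    fderiv ℝ (fun q => fderiv ℝ F q v) p w = fderiv ℝ (fun q => fderiv ℝ F q w) p v := by
  have h1 : DifferentiableAt ℝ (fderiv ℝ F) p :=
    ((hF.fderiv_right (m := ∞) (by simp)).differentiable inf_ne) p
  have h2 : ∀ u u', fderiv ℝ (fun q => fderiv ℝ F q u) p u' = fderiv ℝ (fderiv ℝ F) p u' u := by
    intro u u'
    rw [fderiv_clm_apply h1 (differentiableAt_const u)]
    simp
  rw [h2, h2]
  have h3 : (2 : WithTop ℕ∞) ≤ (∞ : WithTop ℕ∞) := WithTop.coe_le_coe.mpr (le_top : (2 : ℕ∞) ≤ ⊤)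
  exact (hF.contDiffAt.isSymmSndFDerivAt (by simpa using h3)).eq w v

/-- differentiability together with the value of a directional derivative -/
def HD (f : X → ℝ) (x v : X) (c : ℝ) : Prop := DifferentiableAt ℝ f x ∧ fderiv ℝ f x v = c

variable {f g : X → ℝ} {x v : X} {c e : ℝ}

theorem HD.of_contDiff (hf : ContDiff ℝ ∞ f) (x v : X) : HD f x v (fderiv ℝ f x v) :=
  ⟨hf.differentiable inf_ne x, rfl⟩

theorem HD.of_has {L : X →L[ℝ] ℝ} (h : HasFDerivAt f L x) (v : X) : HD f x v (L v) :=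
  ⟨h.differentiableAt, by rw [h.fderiv]⟩

theorem HD.congr (h : HD f x v c) (he : c = e) : HD f x v e := he ▸ h

theorem HD.const (a : ℝ) (x v : X) : HD (fun _ => a) x v 0 :=
  ⟨differentiableAt_const a, by simp⟩

theorem HD.add (hf : HD f x v c) (hg : HD g x v e) : HD (fun q => f q + g q) x v (c + e) :=
  ⟨hf.1.add hg.1, by rw [fderiv_fun_add hf.1 hg.1, ← hf.2, ← hg.2]; rfl⟩

theorem HD.sub (hf : HD f x v c) (hg : HD g x v e) : HD (fun q => f q - g q) x v (c - e) :=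
  ⟨hf.1.sub hg.1, by rw [fderiv_fun_sub hf.1 hg.1, ← hf.2, ← hg.2]; rfl⟩

theorem HD.neg (hf : HD f x v c) : HD (fun q => -f q) x v (-c) :=
  ⟨hf.1.neg, by rw [fderiv_fun_neg, ← hf.2]; rfl⟩

theorem HD.mul (hf : HD f x v c) (hg : HD g x v e) :
    HD (fun q => f q * g q) x v (c * g x + f x * e) :=
  ⟨hf.1.mul hg.1, by
    rw [fderiv_fun_mul hf.1 hg.1, ← hf.2, ← hg.2]
    simp only [add_apply, smul_apply, smul_eq_mul]
    ring⟩

theorem HD.div_const (hf : HD f x v c) (a : ℝ) : HD (fun q => f q / a) x v (c / a) := by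
  simpa [div_eq_mul_inv] using hf.mul (HD.const a⁻¹ x v)

theorem HD.exp (hf : HD f x v c) : HD (fun q => Real.exp (f q)) x v (Real.exp (f x) * c) :=
  (HD.of_has hf.1.hasFDerivAt.exp v).congr (by rw [← hf.2]; rfl)

theorem HD.sum {ι : Type*} (s : Finset ι) {f : ι → X → ℝ} {c : ι → ℝ}
    (h : ∀ i, HD (f i) x v (c i)) : HD (fun q => ∑ i ∈ s, f i q) x v (∑ i ∈ s, c i) := by
  classical
  induction s using Finset.induction_on with
  | empty => simpa using HD.const 0 x v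
  | insert a s ha ih => simpa only [Finset.sum_insert ha] using (h a).add ih

end General

theorem vec_eq_sum (v : E d) : v = ∑ l, v l • ee l := by
  ext i
  simp [Pi.single_apply]

theorem fderiv_pair (F : ℝ × E d → ℝ) (p : ℝ × E d) (a : ℝ) (v : E d) :
    fderiv ℝ F p (a, v) = a * Dt F p + ∑ l, v l * Dz l F p := by
  have h : ((a, v) : ℝ × E d) = a • ((1 : ℝ), (0 : E d)) + ∑ l, v l • ((0 : ℝ), ee l) := by
    refine Prod.ext ?_ ?_
    · simp [Prod.fst_sum]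
    · simp only [Prod.smul_mk, smul_zero, Prod.snd_add, Prod.snd_sum, zero_add]
      exact vec_eq_sum v
  rw [h, map_add, map_sum]
  simp only [map_smul, smul_eq_mul, Dt, Dz]

theorem hd_time {g : ℝ → ℝ} (hg : ContDiff ℝ ∞ g) (x v : XX d) :
    HD (fun q : XX d => g q.1) x v (deriv g x.1 * v.1) := by
  have h1 := (hg.differentiable inf_ne x.1).hasDerivAt.comp_hasFDerivAt x
    (hasFDerivAt_fst (𝕜 := ℝ) (p := x))
  exact (HD.of_has h1 v).congr (by simp)

theorem hd_time' {g : ℝ → ℝ} (hg : ContDiff ℝ ∞ g) (x v : ℝ × E d) :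
    HD (fun q : ℝ × E d => g q.1) x v (deriv g x.1 * v.1) := by
  have h1 := (hg.differentiable inf_ne x.1).hasDerivAt.comp_hasFDerivAt x
    (hasFDerivAt_fst (𝕜 := ℝ) (p := x))
  exact (HD.of_has h1 v).congr (by simp)

theorem hd_y (i : Fin d) (x v : XX d) : HD (fun q : XX d => q.2.1 i) x v (v.2.1 i) :=
  HD.of_has ((EuclideanSpace.proj i : E d →L[ℝ] ℝ).comp ((ContinuousLinearMap.fst ℝ (E d) (E d)).comp
    (ContinuousLinearMap.snd ℝ ℝ (E d × E d)))).hasFDerivAt v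

theorem hd_eta (i : Fin d) (x v : XX d) : HD (fun q : XX d => q.2.2 i) x v (v.2.2 i) :=
  HD.of_has ((EuclideanSpace.proj i : E d →L[ℝ] ℝ).comp ((ContinuousLinearMap.snd ℝ (E d) (E d)).comp
    (ContinuousLinearMap.snd ℝ ℝ (E d × E d)))).hasFDerivAt v

theorem hd_lift {F : ℝ × E d → ℝ} (hF : ContDiff ℝ ∞ F) (x v : XX d) :
    HD (lift F) x v (v.1 * lift (Dt F) x +
      ∑ l, (v.1 * deriv uu x.1 * x.2.1 l + uu x.1 * v.2.1 l) * lift (Dz l F) x) := by
  have hu := (uu_contDiff.differentiable inf_ne x.1).hasDerivAt.comp_hasFDerivAt x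
    (hasFDerivAt_fst (𝕜 := ℝ) (p := x))
  have hy : HasFDerivAt (fun q : XX d => q.2.1) ((ContinuousLinearMap.fst ℝ (E d) (E d)).comp
      (ContinuousLinearMap.snd ℝ ℝ (E d × E d))) x :=
    ((ContinuousLinearMap.fst ℝ (E d) (E d)).comp
      (ContinuousLinearMap.snd ℝ ℝ (E d × E d))).hasFDerivAt
  have h1 := (hasFDerivAt_fst (𝕜 := ℝ) (p := x)).prodMk (hu.smul hy)
  have h2 := (hF.differentiable inf_ne (x.1, uu x.1 • x.2.1)).hasFDerivAt.comp x h1
  refine (HD.of_has h2 v).congr ?_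
  rw [ContinuousLinearMap.comp_apply, ContinuousLinearMap.prod_apply, fderiv_pair]
  simp only [lift]
  congr 1
  refine Finset.sum_congr rfl fun l _ => ?_
  congr 1
  simp
  ring

theorem contDiff_deriv_uu : ContDiff ℝ ∞ (deriv uu) := (contDiff_infty_iff_deriv.mp uu_contDiff).2

theorem contDiff_y (i : Fin d) : ContDiff ℝ ∞ fun q : XX d => q.2.1 i :=
  ((EuclideanSpace.proj i : E d →L[ℝ] ℝ).comp ((ContinuousLinearMap.fst ℝ (E d) (E d)).comp
    (ContinuousLinearMap.snd ℝ ℝ (E d × E d)))).contDiff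

theorem contDiff_eta (i : Fin d) : ContDiff ℝ ∞ fun q : XX d => q.2.2 i :=
  ((EuclideanSpace.proj i : E d →L[ℝ] ℝ).comp ((ContinuousLinearMap.snd ℝ (E d) (E d)).comp
    (ContinuousLinearMap.snd ℝ ℝ (E d × E d)))).contDiff

theorem uu_zero : uu 0 = 0 := uu_eq (by norm_num)

theorem deriv_uu_zero : deriv uu 0 = 1 := deriv_uu_eq (by norm_num)

theorem sum_ee (i : Fin d) (f : Fin d → ℝ) : ∑ l, (ee i : E d) l * f l = f i := by
  simp

end Field

open _root_.Vale.Agent.P347.Field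

theorem contDiff_Dz {F : ℝ × E d → ℝ} (hF : ContDiff ℝ ∞ F) (i : Fin d) :
    ContDiff ℝ ∞ (Dz i F) := contDiff_dir hF _

theorem Dz_comm {F : ℝ × E d → ℝ} (hF : ContDiff ℝ ∞ F) (i j : Fin d) :
    Dz i (Dz j F) = Dz j (Dz i F) := funext fun p => dir_comm hF _ _ p

theorem contDiff_lift {F : ℝ × E d → ℝ} (hF : ContDiff ℝ ∞ F) : ContDiff ℝ ∞ (lift F) :=
  hF.comp (contDiff_fst.prodMk ((uu_contDiff.comp contDiff_fst).smul contDiff_snd.fst))

theorem contDiff_Gx (hΦ : ContDiff ℝ ∞ Φ) (i : Fin d) : ContDiff ℝ ∞ (Gx Φ i) :=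
  contDiff_lift (contDiff_Dz hΦ i)

theorem contDiff_Kx (hΦ : ContDiff ℝ ∞ Φ) (i j : Fin d) : ContDiff ℝ ∞ (Kx Φ i j) :=
  contDiff_lift (contDiff_Dz (contDiff_Dz hΦ j) i)

theorem contDiff_Lx (hΦ : ContDiff ℝ ∞ Φ) (i : Fin d) : ContDiff ℝ ∞ (Lx Φ i) :=
  ContDiff.sum fun l _ => (((contDiff_y l).add ((uu_contDiff.comp contDiff_fst).mul
    (contDiff_Gx hΦ l))).mul (contDiff_Kx hΦ l i)).sub ((uu_contDiff.comp contDiff_fst).mul
      (contDiff_lift (contDiff_Dz (contDiff_Dz (contDiff_Dz hΦ i) l) l)))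

theorem contDiff_Px (hΦ : ContDiff ℝ ∞ Φ) (i : Fin d) : ContDiff ℝ ∞ (Px Φ i) :=
  ContDiff.sum fun j _ => (contDiff_Kx hΦ i j).mul (contDiff_eta j)

theorem contDiff_Qx (hΦ : ContDiff ℝ ∞ Φ) (i : Fin d) : ContDiff ℝ ∞ (Qx Φ i) :=
  ContDiff.sum fun j _ => (contDiff_Kx hΦ i j).mul (contDiff_Px hΦ j)

theorem contDiff_FF (hΦ : ContDiff ℝ ∞ Φ) (lam : ℝ) : ContDiff ℝ ∞ (FF Φ lam) := by
  refine ContDiff.prodMk (contDiff_euclidean.mpr fun i => ?_) (contDiff_euclidean.mpr fun i => ?_)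
  · exact ((contDiff_deriv_uu.comp contDiff_fst).mul (contDiff_Gx hΦ i)).neg.sub
      (contDiff_const.mul (contDiff_Px hΦ i))
  · exact contDiff_const.mul (contDiff_Lx hΦ i)

theorem contDiff_dens (hΦ : ContDiff ℝ ∞ Φ) : ContDiff ℝ ∞ (dens Φ) :=
  (((((contDiff_norm_sq ℝ).comp contDiff_snd.fst).neg.div_const 2).sub (contDiff_lift hΦ)).sub
    (((contDiff_norm_sq ℝ).comp contDiff_snd.snd).div_const 2)).exp

theorem contDiff_DD (hΦ : ContDiff ℝ ∞ Φ) (lam : ℝ) {f : XX d → ℝ} (hf : ContDiff ℝ ∞ f) :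
    ContDiff ℝ ∞ (DD Φ lam f) :=
  (hf.fderiv_right (m := ∞) (by simp)).clm_apply (contDiff_const.prodMk (contDiff_FF hΦ lam))

theorem Kx_symm (hΦ : ContDiff ℝ ∞ Φ) (i j : Fin d) : Kx Φ i j = Kx Φ j i := by
  rw [Kx, Kx, Dz_comm hΦ]

/-- the space derivatives of a slice -/
theorem foldr_Dz_apply {F : ℝ × E d → ℝ} (hF : ContDiff ℝ ∞ F) (l : List (Fin d)) (s : ℝ)
    (z : E d) : (l.foldr Dz F) (s, z) = D1L l (fun z => F (s, z)) z := by
  induction l generalizing z with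
  | nil => rfl
  | cons i l ih =>
    have h1 : ∀ l : List (Fin d), ContDiff ℝ ∞ (l.foldr Dz F) := by
      intro l
      induction l with
      | nil => exact hF
      | cons j l ih => exact contDiff_Dz ih j
    have h2 : D1L l (fun z => F (s, z)) = fun z => (l.foldr Dz F) (s, z) :=
      funext fun z => (ih z).symm
    have h3 := ((h1 l).differentiable inf_ne (s, z)).hasFDerivAt.comp z
      (hasFDerivAt_prodMk_right (𝕜 := ℝ) s z)
    change fderiv ℝ (l.foldr Dz F) (s, z) (0, ee i) = fderiv ℝ (D1L l fun z => F (s, z)) z (ee i)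
    rw [h2]
    exact (HD.of_has h3 (ee i)).2.symm

/-- the gradient solves the linearized equation -/
theorem Pkg.Dt_Dz {C : ℕ → ℝ} {ε : ℝ} (h : Pkg C ε Φ) (i : Fin d) (p : ℝ × E d) :
    Dt (Dz i Φ) p = -(uu p.1 * deriv uu p.1) *
      (∑ l, Dz l (Dz l (Dz i Φ)) p - 2 * ∑ l, Dz l Φ p * Dz l (Dz i Φ) p) := by
  have h1 : Dt (Dz i Φ) p = Dz i (Dt Φ) p := dir_comm h.smooth _ _ p
  have h2 : Dt Φ = fun p => -(uu p.1 * deriv uu p.1) *
      (∑ l, Dz l (Dz l Φ) p - ∑ l, Dz l Φ p * Dz l Φ p) := by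
    funext q
    rw [h.pde q]
    simp only [sq]
  have h3 := (hd_time' (uu_contDiff.mul contDiff_deriv_uu) p (0, ee i)).neg.mul
    ((HD.sum Finset.univ fun l =>
      HD.of_contDiff (contDiff_Dz (contDiff_Dz h.smooth l) l) p (0, ee i)).sub
      (HD.sum Finset.univ fun l => (HD.of_contDiff (contDiff_Dz h.smooth l) p (0, ee i)).mul
        (HD.of_contDiff (contDiff_Dz h.smooth l) p (0, ee i))))
  rw [h1, Dz, h2, h3.2]
  have h4 : ∀ l, fderiv ℝ (Dz l (Dz l Φ)) p (0, ee i) = Dz l (Dz l (Dz i Φ)) p := by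
    intro l
    rw [Dz_comm h.smooth l i, Dz_comm (contDiff_Dz h.smooth l) l i]
    rfl
  have h5 : ∀ l, fderiv ℝ (Dz l Φ) p (0, ee i) = Dz l (Dz i Φ) p := by
    intro l
    rw [Dz_comm h.smooth l i]
    rfl
  simp only [h4, h5, mul_zero, neg_zero, zero_mul, zero_add, Finset.mul_sum]
  congr 2
  exact Finset.sum_congr rfl fun l _ => by ring

theorem Pkg.DD_Gx {C : ℕ → ℝ} {ε : ℝ} (h : Pkg C ε Φ) (lam : ℝ) (i : Fin d) (x : XX d) :
    DD Φ lam (Gx Φ i) x = deriv uu x.1 * Lx Φ i x - lam * uu x.1 * Qx Φ i x := by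
  have h1 := (hd_lift (contDiff_Dz h.smooth i) x (1, FF Φ lam x)).2
  have h2 : lift (Dt (Dz i Φ)) x = -(uu x.1 * deriv uu x.1) *
      (∑ l, lift (Dz l (Dz l (Dz i Φ))) x - 2 * ∑ l, Gx Φ l x * Kx Φ l i x) :=
    h.Dt_Dz i (x.1, uu x.1 • x.2.1)
  have h3 : ∀ l, lift (Dz l (Dz i Φ)) x = Kx Φ l i x := fun l => rfl
  have h4 : ∀ l, Kx Φ i l x = Kx Φ l i x := fun l => by rw [Kx_symm h.smooth]
  rw [DD, Gx, h1, h2]
  simp only [h3, h4, Lx, Qx, FF, Fy, Finset.mul_sum, mul_sub, ← Finset.sum_sub_distrib,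
    ← Finset.sum_add_distrib]
  exact Finset.sum_congr rfl fun l _ => by ring

theorem Pkg.DD_Gx_zero {C : ℕ → ℝ} {ε : ℝ} (h : Pkg C ε Φ) (lam : ℝ) (i : Fin d) (y η : E d) :
    DD Φ lam (Gx Φ i) (0, y, η) = ∑ j, Kx Φ i j (0, y, η) * y j := by
  rw [h.DD_Gx]
  simp only [Lx, uu_zero, deriv_uu_zero, zero_mul, mul_zero, sub_zero, add_zero, one_mul]
  exact Finset.sum_congr rfl fun l _ => by rw [Kx_symm h.smooth, mul_comm]

theorem Pkg.DD_DD_Gx_zero {C : ℕ → ℝ} {ε : ℝ} (h : Pkg C ε Φ) (lam : ℝ) (i : Fin d)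
    (y η : E d) :
    DD Φ lam (DD Φ lam (Gx Φ i)) (0, y, η)
      = DD Φ 0 (DD Φ 0 (Gx Φ i)) (0, y, 0) - 2 * lam * Qx Φ i (0, y, η) := by
  have hs := h.smooth
  have key : ∀ (lam : ℝ) (η : E d), DD Φ lam (DD Φ lam (Gx Φ i)) (0, y, η) =
      deriv (deriv uu) 0 * (∑ l, y l * Dz l (Dz i Φ) (0, 0)) +
      ∑ l, (y l * (Dt (Dz l (Dz i Φ)) (0, 0) + ∑ k, y k * Dz k (Dz l (Dz i Φ)) (0, 0))
        - Dz l (Dz l (Dz i Φ)) (0, 0)) - 2 * lam * Qx Φ i (0, y, η) := by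
    intro lam η
    have h1 : DD Φ lam (Gx Φ i) = fun x => deriv uu x.1 * Lx Φ i x - lam * uu x.1 * Qx Φ i x :=
      funext (h.DD_Gx lam i)
    have hL := HD.sum Finset.univ fun l =>
      ((((hd_y l (0, y, η) (1, FF Φ lam (0, y, η))).add ((hd_time uu_contDiff _ _).mul
        (HD.of_contDiff (contDiff_Gx hs l) _ _))).mul
        (hd_lift (contDiff_Dz (contDiff_Dz hs i) l) _ _)).sub ((hd_time uu_contDiff _ _).mul
          (HD.of_contDiff (contDiff_lift (contDiff_Dz (contDiff_Dz (contDiff_Dz hs i) l) l)) _ _)))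
    have h2 := ((hd_time contDiff_deriv_uu _ _).mul hL).sub
      (((HD.const lam _ _).mul (hd_time uu_contDiff _ _)).mul
        (HD.of_contDiff (contDiff_Qx hs i) _ _))
    have h4 : Qx Φ i (0, y, η) = ∑ l, Dz l (Dz i Φ) (0, 0) * Px Φ l (0, y, η) := by
      refine Finset.sum_congr rfl fun l _ => ?_
      rw [Kx_symm hs]
      simp [Kx, lift, uu_zero]
    rw [h1, DD]
    refine h2.2.trans ?_
    rw [h4]
    simp only [uu_zero, deriv_uu_zero, lift, FF, Fy, zero_mul, mul_zero, add_zero, one_mul,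
      mul_one, zero_add, zero_smul, Finset.mul_sum, add_sub_assoc, ← Finset.sum_sub_distrib]
    congr 1 <;> exact Finset.sum_congr rfl fun l _ => by ring
  rw [key lam η, key 0 0]
  ring

/-- continuity equation -/
theorem Pkg.continuity {C : ℕ → ℝ} {ε : ℝ} (h : Pkg C ε Φ) (lam : ℝ) (x : XX d) :
    Ds (dens Φ) x + ∑ i, Dy i (fun q => dens Φ q * Fy Φ lam q i) x
      + ∑ i, De i (fun q => dens Φ q * Fe Φ lam q i) x = 0 := by
  have hs := h.smooth
  have hy2 : ∀ v : XX d, HD (fun q : XX d => ‖q.2.1‖ ^ 2) x v (2 * ∑ l, v.2.1 l * x.2.1 l) := by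
    intro v
    have h1 : (fun q : XX d => ‖q.2.1‖ ^ 2) = fun q => ∑ l, q.2.1 l * q.2.1 l := by
      funext q
      rw [EuclideanSpace.real_norm_sq_eq]
      simp only [sq]
    rw [h1]
    refine (HD.sum Finset.univ fun l => (hd_y l x v).mul (hd_y l x v)).congr ?_
    rw [Finset.mul_sum]
    exact Finset.sum_congr rfl fun l _ => by ring
  have he2 : ∀ v : XX d, HD (fun q : XX d => ‖q.2.2‖ ^ 2) x v (2 * ∑ l, v.2.2 l * x.2.2 l) := by
    intro v
    have h1 : (fun q : XX d => ‖q.2.2‖ ^ 2) = fun q => ∑ l, q.2.2 l * q.2.2 l := by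
      funext q
      rw [EuclideanSpace.real_norm_sq_eq]
      simp only [sq]
    rw [h1]
    refine (HD.sum Finset.univ fun l => (hd_eta l x v).mul (hd_eta l x v)).congr ?_
    rw [Finset.mul_sum]
    exact Finset.sum_congr rfl fun l _ => by ring
  have hd := fun v : XX d =>
    (((((hy2 v).neg.div_const 2).sub (hd_lift hs x v)).sub ((he2 v).div_const 2)).exp)
  have hly : ∀ {F : ℝ × E d → ℝ}, ContDiff ℝ ∞ F → ∀ i,
      HD (lift F) x (0, ee i, 0) (uu x.1 * lift (Dz i F) x) := by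
    intro F hF i
    refine (hd_lift hF x (0, ee i, 0)).congr ?_
    simp only [zero_mul, zero_add, mul_assoc, ← Finset.mul_sum, sum_ee]
  have hle : ∀ {F : ℝ × E d → ℝ}, ContDiff ℝ ∞ F → ∀ i, HD (lift F) x (0, 0, ee i) 0 := by
    intro F hF i
    refine (hd_lift hF x (0, 0, ee i)).congr ?_
    simp
  have e1 : Ds (dens Φ) x = dens Φ x *
      (-(lift (Dt Φ) x + ∑ l, deriv uu x.1 * x.2.1 l * Gx Φ l x)) := by
    refine (hd (1, 0, 0)).2.trans ?_
    simp [dens, Gx]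
  have e2 : ∀ i, HD (dens Φ) x (0, ee i, 0) (dens Φ x * (-(x.2.1 i + uu x.1 * Gx Φ i x))) := by
    intro i
    refine (hd (0, ee i, 0)).congr ?_
    simp only [zero_mul, zero_add, mul_assoc, ← Finset.mul_sum, sum_ee, dens, Gx,
      PiLp.zero_apply, Finset.sum_const_zero]
    ring
  have e3 : ∀ i, HD (dens Φ) x (0, 0, ee i) (dens Φ x * (-(x.2.2 i))) := by
    intro i
    refine (hd (0, 0, ee i)).congr ?_
    simp only [zero_mul, zero_add, mul_zero, sum_ee, dens, PiLp.zero_apply,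
      Finset.sum_const_zero]
    ring
  have e4 : ∀ i, Dy i (fun q => dens Φ q * Fy Φ lam q i) x = dens Φ x *
      ((x.2.1 i + uu x.1 * Gx Φ i x) * (deriv uu x.1 * Gx Φ i x + lam * Px Φ i x)
        - deriv uu x.1 * uu x.1 * Kx Φ i i x
        - lam * ∑ j, uu x.1 * lift (Dz i (Dz i (Dz j Φ))) x * x.2.2 j) := by
    intro i
    have h1 := (e2 i).mul (((hd_time contDiff_deriv_uu x (0, ee i, 0)).mul
      (hly (contDiff_Dz hs i) i)).neg.sub ((HD.const lam _ _).mul (HD.sum Finset.univ fun j =>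
        (hly (contDiff_Dz (contDiff_Dz hs j) i) i).mul (hd_eta j x (0, ee i, 0)))))
    refine h1.2.trans ?_
    simp only [mul_zero, zero_mul, zero_add, add_zero, PiLp.zero_apply, Px, Kx, Gx]
    ring
  have e5 : ∀ i, De i (fun q => dens Φ q * Fe Φ lam q i) x =
      dens Φ x * (-(x.2.2 i * (lam * Lx Φ i x))) := by
    intro i
    have h1 := (e3 i).mul ((HD.const lam _ _).mul (HD.sum Finset.univ fun l =>
      (((hd_y l x (0, 0, ee i)).add ((hd_time uu_contDiff _ _).mul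
        (hle (contDiff_Dz hs l) i))).mul (hle (contDiff_Dz (contDiff_Dz hs i) l) i)).sub
        ((hd_time uu_contDiff _ _).mul
          (hle (contDiff_Dz (contDiff_Dz (contDiff_Dz hs i) l) l) i))))
    refine h1.2.trans ?_
    simp only [mul_zero, zero_mul, add_zero, PiLp.zero_apply, Lx, Kx, Gx, sub_zero,
      Finset.sum_const_zero]
    ring
  have e6 : lift (Dt Φ) x = -(uu x.1 * deriv uu x.1) *
      (∑ l, Kx Φ l l x - ∑ l, Gx Φ l x ^ 2) := h.pde (x.1, uu x.1 • x.2.1)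
  have e7 : ∑ j, x.2.2 j * (lam * Lx Φ j x) =
      ∑ i, ((x.2.1 i + uu x.1 * Gx Φ i x) * (lam * Px Φ i x)
        - lam * ∑ j, uu x.1 * lift (Dz i (Dz i (Dz j Φ))) x * x.2.2 j) := by
    simp only [Lx, Px, Finset.mul_sum, ← Finset.sum_sub_distrib]
    rw [Finset.sum_comm]
    exact Finset.sum_congr rfl fun i _ => Finset.sum_congr rfl fun j _ => by ring
  simp only [e1, e4, e5, ← Finset.mul_sum, ← mul_add, Finset.sum_neg_distrib]
  rw [e7, e6]
  refine mul_eq_zero_of_right _ ?_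
  simp only [mul_sub, Finset.mul_sum, ← Finset.sum_sub_distrib, ← Finset.sum_add_distrib,
    ← Finset.sum_neg_distrib]
  exact Finset.sum_eq_zero fun i _ => by ring

namespace Field

theorem tens_entry {C : ℕ → ℝ} {ε : ℝ} {F : E d → ℝ} (h : TensBound C ε F) (p q : ℕ) (z : E d)
    (a : Fin (p + 1) → Fin d) (b : Fin (q + 1) → Fin d) :
    |D1L (List.ofFn a ++ List.ofFn b) F z| ≤ C (p + q) * ε := by
  have h1 := h p q z (Pi.single a 1) (Pi.single b 1)
  simpa [Pi.single_apply, ite_mul, mul_ite] using h1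

/-- bounded for small times -/
def Bd (f : XX d → ℝ) : Prop := ∃ M : ℝ, 0 ≤ M ∧ ∀ s : ℝ, |s| ≤ 1 / 2 → ∀ q, |f (s, q)| ≤ M

/-- linear growth for small times -/
def LG (f : XX d → ℝ) : Prop :=
  ∃ A : ℝ, 0 ≤ A ∧ ∀ s : ℝ, |s| ≤ 1 / 2 → ∀ q, |f (s, q)| ≤ A * (1 + ‖q‖)

variable {f g : XX d → ℝ}

theorem Bd.of_le {M : ℝ} (h : ∀ s : ℝ, |s| ≤ 1 / 2 → ∀ q, |f (s, q)| ≤ M) : Bd f :=
  ⟨|M|, abs_nonneg M, fun s hs q => (h s hs q).trans (le_abs_self M)⟩

theorem Bd.lg (hf : Bd f) : LG f := by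
  obtain ⟨M, h0, h⟩ := hf
  refine ⟨M, h0, fun s hs q => (h s hs q).trans ?_⟩
  nlinarith [norm_nonneg q]

theorem Bd.mul (hf : Bd f) (hg : Bd g) : Bd fun x => f x * g x := by
  obtain ⟨M, h0, h⟩ := hf
  obtain ⟨M', h0', h'⟩ := hg
  refine ⟨M * M', mul_nonneg h0 h0', fun s hs q => ?_⟩
  rw [abs_mul]
  exact mul_le_mul (h s hs q) (h' s hs q) (abs_nonneg _) h0

theorem Bd.mul_lg (hf : Bd f) (hg : LG g) : LG fun x => f x * g x := by
  obtain ⟨M, h0, h⟩ := hf
  obtain ⟨M', h0', h'⟩ := hg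
  refine ⟨M * M', mul_nonneg h0 h0', fun s hs q => ?_⟩
  rw [abs_mul, mul_assoc]
  exact mul_le_mul (h s hs q) (h' s hs q) (abs_nonneg _) h0

theorem LG.mul_bd (hf : LG f) (hg : Bd g) : LG fun x => f x * g x := by
  simpa only [mul_comm] using hg.mul_lg hf

theorem LG.add (hf : LG f) (hg : LG g) : LG fun x => f x + g x := by
  obtain ⟨M, h0, h⟩ := hf
  obtain ⟨M', h0', h'⟩ := hg
  refine ⟨M + M', add_nonneg h0 h0', fun s hs q => ?_⟩
  rw [add_mul]
  exact (abs_add_le _ _).trans (add_le_add (h s hs q) (h' s hs q))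

theorem LG.neg (hf : LG f) : LG fun x => -f x := by
  obtain ⟨M, h0, h⟩ := hf
  exact ⟨M, h0, fun s hs q => by rw [abs_neg]; exact h s hs q⟩

theorem LG.sub (hf : LG f) (hg : LG g) : LG fun x => f x - g x := by
  simpa only [sub_eq_add_neg] using hf.add hg.neg

theorem bd_const (a : ℝ) : Bd fun _ : XX d => a := ⟨|a|, abs_nonneg a, fun _ _ _ => le_rfl⟩

theorem LG.sum {ι : Type*} (s : Finset ι) {f : ι → XX d → ℝ} (h : ∀ i, LG (f i)) :
    LG fun x => ∑ i ∈ s, f i x := by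
  classical
  induction s using Finset.induction_on with
  | empty => simpa using (bd_const (d := d) 0).lg
  | insert a s ha ih => simpa only [Finset.sum_insert ha] using (h a).add ih

theorem LG.abs (hf : LG f) : LG fun x => |f x| := by
  obtain ⟨M, h0, h⟩ := hf
  exact ⟨M, h0, fun s hs q => by rw [abs_abs]; exact h s hs q⟩

theorem lg_y (i : Fin d) : LG fun x : XX d => x.2.1 i := by
  refine ⟨1, zero_le_one, fun s _ q => ?_⟩
  have h1 : |q.1 i| ≤ ‖q.1‖ := PiLp.norm_apply_le q.1 i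
  have h2 := norm_fst_le q
  linarith

theorem lg_eta (i : Fin d) : LG fun x : XX d => x.2.2 i := by
  refine ⟨1, zero_le_one, fun s _ q => ?_⟩
  have h1 : |q.2 i| ≤ ‖q.2‖ := PiLp.norm_apply_le q.2 i
  have h2 := norm_snd_le q
  linarith

theorem bd_uu : Bd fun x : XX d => uu x.1 := Bd.of_le fun s _ _ => abs_uu_le s

theorem bd_deriv_uu : Bd fun x : XX d => deriv uu x.1 :=
  Bd.of_le (M := 1) fun s hs _ => by
    rw [deriv_uu_eq (by linarith)]
    simp

variable {C : ℕ → ℝ} {ε : ℝ}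

theorem second_le (h : Pkg C ε Φ) (i j : Fin d) {s : ℝ} (hs : |s| ≤ 1 / 2) (z : E d) :
    |Dz i (Dz j Φ) (s, z)| ≤ C 0 * ε := by
  have h1 := tens_entry (h.tens s hs) 0 0 z ![i] ![j]
  rw [← foldr_Dz_apply h.smooth] at h1
  simpa using h1

theorem third_le (h : Pkg C ε Φ) (i j k : Fin d) {s : ℝ} (hs : |s| ≤ 1 / 2) (z : E d) :
    |Dz i (Dz j (Dz k Φ)) (s, z)| ≤ C 1 * ε := by
  have h1 := tens_entry (h.tens s hs) 1 0 z ![i, j] ![k]
  rw [← foldr_Dz_apply h.smooth] at h1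
  simpa using h1

theorem bd_Kx (h : Pkg C ε Φ) (i j : Fin d) : Bd (Kx Φ i j) :=
  Bd.of_le fun _ hs _ => second_le h i j hs _

theorem bd_third (h : Pkg C ε Φ) (i j k : Fin d) : Bd (lift (Dz i (Dz j (Dz k Φ)))) :=
  Bd.of_le fun _ hs _ => third_le h i j k hs _

theorem lg_Gx (h : Pkg C ε Φ) (i : Fin d) : LG (Gx Φ i) := by
  have hG := contDiff_Dz h.smooth i
  have hc : ContinuousOn (fun s : ℝ => Dz i Φ (s, 0)) (Icc (-(1 / 2)) (1 / 2)) :=
    (hG.continuous.comp (continuous_id.prodMk continuous_const)).continuousOn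
  obtain ⟨M, hM⟩ := isCompact_Icc.exists_bound_of_continuousOn hc
  refine ⟨|M| + d * |C 0 * ε|, by positivity, fun s hs q => ?_⟩
  have h0 : |Dz i Φ (s, 0)| ≤ |M| := (hM s (abs_le.mp hs)).trans (le_abs_self M)
  have hder : ∀ z : E d, HasFDerivAt (fun z : E d => Dz i Φ (s, z))
      ((fderiv ℝ (Dz i Φ) (s, z)).comp (ContinuousLinearMap.inr ℝ ℝ (E d))) z := fun z =>
    (hG.differentiable inf_ne (s, z)).hasFDerivAt.comp z (hasFDerivAt_prodMk_right (𝕜 := ℝ) s z)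
  have hb : ∀ z : E d, ‖(fderiv ℝ (Dz i Φ) (s, z)).comp (ContinuousLinearMap.inr ℝ ℝ (E d))‖ ≤
      d * |C 0 * ε| := by
    intro z
    refine ContinuousLinearMap.opNorm_le_bound _ (by positivity) fun v => ?_
    rw [ContinuousLinearMap.comp_apply, ContinuousLinearMap.inr_apply, fderiv_pair, zero_mul,
      zero_add, Real.norm_eq_abs]
    refine (Finset.abs_sum_le_sum_abs _ _).trans ?_
    refine (Finset.sum_le_card_nsmul _ _ (|C 0 * ε| * ‖v‖) fun l _ => ?_).trans ?_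
    · rw [abs_mul, mul_comm]
      exact mul_le_mul ((second_le h l i hs z).trans (le_abs_self _)) (PiLp.norm_apply_le v l)
        (abs_nonneg _) (abs_nonneg _)
    · simp [mul_assoc]
  have hmv := Convex.norm_image_sub_le_of_norm_hasFDerivWithin_le (s := univ)
    (fun z _ => (hder z).hasFDerivWithinAt) (fun z _ => hb z) convex_univ (mem_univ (0 : E d))
    (mem_univ (uu s • q.1))
  have hn : ‖uu s • q.1 - 0‖ ≤ ‖q‖ := by
    rw [sub_zero, norm_smul, Real.norm_eq_abs]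
    have h1 := abs_uu_le s
    have h2 := norm_fst_le q
    nlinarith [norm_nonneg q.1, abs_nonneg (uu s)]
  have h3 : |Dz i Φ (s, uu s • q.1) - Dz i Φ (s, 0)| ≤ d * |C 0 * ε| * ‖q‖ :=
    hmv.trans (mul_le_mul_of_nonneg_left hn (by positivity))
  have h4 := abs_sub_abs_le_abs_sub (Dz i Φ (s, uu s • q.1)) (Dz i Φ (s, 0))
  have h5 : Gx Φ i (s, q) = Dz i Φ (s, uu s • q.1) := rfl
  have h6 : 0 ≤ |M| * ‖q‖ := by positivity
  have h7 : 0 ≤ d * |C 0 * ε| := by positivity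
  rw [h5]
  nlinarith

theorem norm_le_sum (v : E d) : ‖v‖ ≤ ∑ l, |v l| := by
  conv_lhs => rw [vec_eq_sum v]
  refine (norm_sum_le _ _).trans (Finset.sum_le_sum fun l _ => ?_)
  rw [norm_smul, PiLp.norm_single, norm_one, mul_one, Real.norm_eq_abs]

end Field

/-- linear growth of the field -/
theorem Pkg.growth {C : ℕ → ℝ} {ε : ℝ} (h : Pkg C ε Φ) (lam : ℝ) :
    ∃ A : ℝ, ∀ s : ℝ, |s| ≤ 1 / 2 → ∀ q : E d × E d, ‖FF Φ lam (s, q)‖ ≤ A * (1 + ‖q‖) := by
  have hP : ∀ i, LG (Px Φ i) := fun i =>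
    LG.sum Finset.univ fun j => (bd_Kx h i j).mul_lg (lg_eta j)
  have hL : ∀ j, LG (Lx Φ j) := fun j =>
    LG.sum Finset.univ fun i => (((lg_y i).add (bd_uu.mul_lg (lg_Gx h i))).mul_bd
      (bd_Kx h i j)).sub (bd_uu.mul (bd_third h i i j)).lg
  have hy : ∀ i, LG fun x => Fy Φ lam x i := fun i =>
    (bd_deriv_uu.mul_lg (lg_Gx h i)).neg.sub ((bd_const lam).mul_lg (hP i))
  have he : ∀ i, LG fun x => Fe Φ lam x i := fun i => (bd_const lam).mul_lg (hL i)
  obtain ⟨A, -, hA⟩ := (LG.sum Finset.univ fun i => (hy i).abs).add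
    (LG.sum Finset.univ fun i => (he i).abs)
  refine ⟨A, fun s hs q => le_trans ?_ ((le_abs_self _).trans (hA s hs q))⟩
  have h1 := norm_le_sum (Fy Φ lam (s, q))
  have h2 := norm_le_sum (Fe Φ lam (s, q))
  have h3 := norm_nonneg (Fy Φ lam (s, q))
  have h4 := norm_nonneg (Fe Φ lam (s, q))
  rw [FF, Prod.norm_mk, max_le_iff]
  constructor <;> linarith

end Vale.Agent.P347
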