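import Vale.Agent.P347.Flow2

open MeasureTheory ProbabilityTheory Filter Set
open scoped ENNReal ContDiff RealInnerProductSpace

namespace Vale.Agent.P347

variable {d : ℕ}

theorem rho_prob {V : E d → ℝ} (hV : IsPotential V) (c : E d) {τ u : ℝ} (hτ : 0 < τ)
    (hτ' : τ ≤ 1 / 8) (hu : 0 ≤ u) (hu' : u ≤ 1 / 4) : IsProbabilityMeasure (rho V c τ u) := by
  have h := (nuS_prob hV c hτ hτ' ⟨hu, hu'⟩).measure_univ
  rw [← univ_prod_univ, nuS, Measure.prod_prod, measure_univ (μ := gam d), mul_one] at h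
  exact ⟨h⟩

theorem exists_rho_moment : ∃ Cm : ℝ, 1 ≤ Cm ∧ ∀ (d : ℕ) (V : E d → ℝ), IsPotential V →
    ∀ (c : E d) (τ u : ℝ), 0 < τ → τ ≤ 1 / 8 → 0 ≤ u → u ≤ 1 / 4 →
      ∫⁻ w, ‖w‖ₑ ∂(rho V c τ u) ≤ ENNReal.ofReal (Cm * RR c) := by
  obtain ⟨M, hM, h⟩ := exists_moments 0
  refine ⟨2 * M + 2, by linarith, fun d V hV c τ u hτ hτ' hu hu' => ?_⟩
  have h1 := (h d V hV c τ 0 u hτ hτ' (by simp) ⟨hu, hu'⟩).2.2.2
  have := nuS_prob hV c hτ hτ' ⟨hu, hu'⟩
  have := rho_prob hV c hτ hτ' hu hu'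
  have hR : 0 ≤ RR c := by unfold RR; positivity
  have ht : 0 < √τ := Real.sqrt_pos.2 hτ
  have ht2 : √τ * √τ = τ := Real.mul_self_sqrt hτ.le
  have ht1 : √τ ≤ 1 := by nlinarith
  have h2 : ∀ q : E d × E d, ‖q.1‖ₑ
      ≤ 2 * ‖q.1 + u • vec (Gx (PhiV V c τ)) (u, q)‖ₑ + ENNReal.ofReal (2 * RR c) := by
    intro q
    have h3 := hV.norm_mm_le (var_pos hτ ⟨hu, hu'⟩) (var_le hτ hτ') (c + (√τ * u) • q.1)
    have h4 : RR (c + (√τ * u) • q.1) ≤ RR c + √τ * u * ‖q.1‖ := by
      unfold RR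
      have h5 := norm_add_le c ((√τ * u) • q.1)
      rw [norm_smul, Real.norm_eq_abs, abs_of_nonneg (by positivity)] at h5
      linarith
    have h5 := norm_sub_le (q.1 + u • vec (Gx (PhiV V c τ)) (u, q))
      (u • vec (Gx (PhiV V c τ)) (u, q))
    rw [add_sub_cancel_right] at h5
    have h6 : ‖u • vec (Gx (PhiV V c τ)) (u, q)‖ ≤ √τ * u * (3 * (RR c + √τ * u * ‖q.1‖)) := by
      rw [vec_Gx hV c hτ ⟨hu, hu'⟩, smul_smul, norm_smul, Real.norm_eq_abs,
        abs_of_nonneg (by positivity), mul_comm u]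
      exact mul_le_mul_of_nonneg_left (by linarith) (by positivity)
    have h7 : √τ * u ≤ 1 / 4 := by nlinarith
    have h8 : 0 ≤ √τ * u := by positivity
    have h9 : ‖q.1‖ ≤ 2 * ‖q.1 + u • vec (Gx (PhiV V c τ)) (u, q)‖ + 2 * RR c := by
      have p1 := mul_le_mul_of_nonneg_right h7 hR
      have p2 : √τ * u * (√τ * u) ≤ 1 / 16 := by nlinarith
      have p3 := mul_le_mul_of_nonneg_right p2 (norm_nonneg q.1)
      nlinarith [norm_nonneg q.1]
    rw [← ofReal_norm, ← ofReal_norm]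
    refine (ENNReal.ofReal_le_ofReal h9).trans (le_of_eq ?_)
    rw [ENNReal.ofReal_add (by positivity) (by positivity), ENNReal.ofReal_mul (by norm_num),
      ENNReal.ofReal_ofNat]
  have h3 : ∫⁻ w, ‖w‖ₑ ∂(rho V c τ u) = ∫⁻ q, ‖q.1‖ₑ ∂(nuS V c τ u) :=
    (measurePreserving_fst.lintegral_comp measurable_enorm).symm
  rw [h3]
  refine (lintegral_mono h2).trans ?_
  rw [lintegral_add_right _ measurable_const, lintegral_const_mul' _ _ (by simp), lintegral_const,
    measure_univ, mul_one]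
  have h4 : M * √(d : ℝ) ≤ M * RR c := by
    refine mul_le_mul_of_nonneg_left ?_ hM
    unfold RR
    linarith [norm_nonneg c]
  calc _ ≤ 2 * ENNReal.ofReal (M * RR c) + ENNReal.ofReal (2 * RR c) := by
        gcongr
        exact h1.trans (ENNReal.ofReal_le_ofReal h4)
    _ = _ := by
        rw [← ENNReal.ofReal_ofNat 2, ← ENNReal.ofReal_mul (by norm_num),
          ← ENNReal.ofReal_add (by positivity) (by positivity)]
        congr 1
        ring

section Int

variable {V : E d → ℝ} (hV : IsPotential V) {c : E d} {τ lam : ℝ} (hτ : 0 < τ)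
  {Z : ℝ → E d × E d → E d × E d} (h : IsFlow V c τ lam Z)
include h

theorem IsFlow.intervalIntegrable {H : XX d → E d} (hH : Continuous H) (x : E d × E d) {s : ℝ}
    (hs : s ∈ Icc (0 : ℝ) (1 / 4)) : IntervalIntegrable (fun u => H (u, Z u x)) volume 0 s := by
  refine ContinuousOn.intervalIntegrable fun u hu => ?_
  rw [uIcc_of_le hs.1] at hu
  exact (hH.continuousAt.comp (continuousAt_id.prodMk
    (h.deriv x u (Icc_subset_Icc le_rfl hs.2 hu)).continuousAt)).continuousWithinAt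

theorem IsFlow.hasDerivAt_fst (x : E d × E d) {s : ℝ} (hs : s ∈ Icc (0 : ℝ) (1 / 4)) :
    HasDerivAt (fun r => (Z r x).1)
      (-vec (Gx (PhiV V c τ)) (s, Z s x) - lam • vec (Px (PhiV V c τ)) (s, Z s x)) s := by
  rw [← Fy_eq _ _ hs]
  exact (ContinuousLinearMap.fst ℝ (E d) (E d)).hasFDerivAt.comp_hasDerivAt s (h.deriv x s hs)

include hV hτ

theorem IsFlow.fst_eq (x : E d × E d) {s : ℝ} (hs : s ∈ Icc (0 : ℝ) (1 / 4)) :
    (Z s x).1 = x.1 - (∫ u in (0 : ℝ)..s, vec (Gx (PhiV V c τ)) (u, Z u x))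
      - lam • ∫ u in (0 : ℝ)..s, vec (Px (PhiV V c τ)) (u, Z u x) := by
  have hΦ : ContDiff ℝ ∞ (PhiV V c τ) := (hV.conv.scale c hτ).contDiff_PhiOf
  have i1 := h.intervalIntegrable (continuous_vec fun i => (contDiff_Gx hΦ i).continuous) x hs
  have i2 := h.intervalIntegrable (continuous_vec fun i => (contDiff_Px hΦ i).continuous) x hs
  have h1 := intervalIntegral.integral_eq_sub_of_hasDerivAt (a := 0) (b := s)
    (fun u hu => h.hasDerivAt_fst x (by
      rw [uIcc_of_le hs.1] at hu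
      exact Icc_subset_Icc le_rfl hs.2 hu)) (i1.neg.sub (i2.smul lam))
  have h2 := intervalIntegral.integral_sub i1.neg (i2.smul lam)
  simp only [Pi.neg_apply, Pi.smul_apply] at h2
  rw [h2, intervalIntegral.integral_neg, intervalIntegral.integral_smul, h.init] at h1
  rw [sub_eq_iff_eq_add.1 h1.symm]
  abel

theorem IsFlow.snd_eq (hτ' : τ ≤ 1 / 8) (x : E d × E d) {s : ℝ} (hs : s ∈ Icc (0 : ℝ) (1 / 4)) :
    (Z s x).2 = x.2 + lam • (vec (Gx (PhiV V c τ)) (s, Z s x) - vec (Gx (PhiV V c τ)) (0, x))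
      + lam ^ 2 • ∫ u in (0 : ℝ)..s, u • vec (Qx (PhiV V c τ)) (u, Z u x) := by
  obtain ⟨C, -, hC⟩ := exists_pkg
  have hP : Pkg C (2 * τ) (PhiV V c τ) :=
    hC d _ _ (by positivity) (by linarith) (hV.conv.scale c hτ)
  have i1 := h.intervalIntegrable (H := fun p => p.1 • vec (Qx (PhiV V c τ)) p)
    (continuous_fst.smul (continuous_vec fun i => (contDiff_Qx hP.smooth i).continuous)) x hs
  have h0 : ∀ u ∈ uIcc 0 s, HasDerivAt
      (fun r => (Z r x).2 - lam • vec (Gx (PhiV V c τ)) (r, Z r x))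
      (lam ^ 2 • u • vec (Qx (PhiV V c τ)) (u, Z u x)) u := by
    intro u hu
    rw [uIcc_of_le hs.1] at hu
    have hu' := Icc_subset_Icc le_rfl hs.2 hu
    rw [← hP.Fe_eq lam hu']
    exact ((ContinuousLinearMap.snd ℝ (E d) (E d)).hasFDerivAt.comp_hasDerivAt u
      (h.deriv x u hu')).sub
      ((h.hasDerivAt_vec (fun i => contDiff_Gx hP.smooth i) x hu').const_smul lam)
  have h1 := intervalIntegral.integral_eq_sub_of_hasDerivAt h0 (i1.smul (lam ^ 2))
  rw [intervalIntegral.integral_smul, h.init] at h1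
  rw [h1, smul_sub]
  abel

end Int

theorem exists_flowData {n : ℕ} (hn : 2 ≤ n) {Cw : ℝ} {w w' : Fin (n + 1) → Fin (n + 1) → ℝ}
    {d1 d2 : Fin (n + 1) → ℝ} (hw : Weights n Cw w w' d1 d2) : ∃ Cf : ℝ, 1 ≤ Cf ∧
    ∀ (d : ℕ) (V : E d → ℝ), IsPotential V → ∀ (c : E d) (τ β : ℝ), 0 < τ → τ ≤ 1 / 8 →
      0 < β → β ≤ 1 / 4 → ∃ Xi : E d → E d, ∀ a : ℝ, |a| * √τ ≤ 1 →
        ∃ Yc Hn : Fin (n + 1) → E d × E d → E d,
          FlowData n w w' d1 d2 Cf V c τ β a Xi Yc Hn := by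
  obtain ⟨M, hM, hmom⟩ := exists_moments n
  have hCw : 0 ≤ Cw := (Finset.sum_nonneg fun l _ => abs_nonneg _).trans hw.bd1
  have hK : 0 ≤ (Cw + 1) * M := by positivity
  refine ⟨1 + 2 * ((Cw + 1) * M), by linarith, fun d V hV c τ β hτ hτ' hβ hβ' => ?_⟩
  obtain ⟨C, -, hC⟩ := exists_pkg
  have hP : Pkg C (2 * τ) (PhiV V c τ) :=
    hC d _ _ (by positivity) (by linarith) (hV.conv.scale c hτ)
  have hΦ := hP.smooth
  have ht : 0 < √τ := Real.sqrt_pos.2 hτ
  have ht2 : √τ * √τ = τ := Real.mul_self_sqrt hτ.le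
  have hd := Real.sqrt_nonneg (d : ℝ)
  have h04 : (0 : ℝ) ∈ Icc (0 : ℝ) (1 / 4) := ⟨le_rfl, by norm_num⟩
  have hnod : ∀ l, nod n β l ∈ Icc (0 : ℝ) (1 / 4) := fun l =>
    Icc_subset_Icc le_rfl hβ' (nod_mem hn hβ l)
  refine ⟨fun y => (β ^ 2 / √τ) •
    vec (fun i => DD (PhiV V c τ) 0 (DD (PhiV V c τ) 0 (Gx (PhiV V c τ) i))) (0, y, 0),
    fun a ha => ?_⟩
  obtain ⟨lam, rfl⟩ : ∃ lam, a = lam * √τ := ⟨a / √τ, by field_simp⟩
  have hl : |lam| * τ ≤ 1 := by
    rw [abs_mul, abs_of_pos ht, mul_assoc, ht2] at ha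
    exact ha
  obtain ⟨Z, hZ⟩ := exists_isFlow hV c hτ hτ' lam
  obtain ⟨IG, gG, mG, pG, lG, iG, eG⟩ := hZ.err hV hτ hn hw hβ hβ' (contDiff_Gx hΦ)
    fun s hs => (hmom d V hV c τ lam s hτ hτ' hl hs).1
  obtain ⟨IP, gP, mP, pP, lP, iP, eP⟩ := hZ.err hV hτ hn hw hβ hβ' (contDiff_Px hΦ)
    fun s hs => (hmom d V hV c τ lam s hτ hτ' hl hs).2.1
  obtain ⟨IQ, gQ, mQ, pQ, lQ, iQ, eQ⟩ := hZ.err hV hτ hn hw hβ hβ' (contDiff_Qx hΦ)
    fun s hs => (hmom d V hV c τ lam s hτ hτ' hl hs).2.2.1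
  have hG0 : ∀ x : E d × E d, vec (Gx (PhiV V c τ)) (0, x) = √τ • mm V τ c := fun x => by
    rw [vec_Gx hV c hτ h04]
    simp
  have hβn : 0 < β ^ n := by positivity
  have hb1 : 0 ≤ √τ * β ^ (n + 1) * √(d : ℝ) := by positivity
  refine ⟨fun l x => c + (√τ * nod n β l) • (Z (nod n β l) x).1, fun l x => (Z (nod n β l) x).2,
    fun l => ?_, fun l => ?_, ?_, fun x => by simp [nod], fun l => ?_, fun i => ?_, fun i => ?_,
    ?_, ?_⟩
  · have := hZ.continuous (hnod l)
    fun_prop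
  · exact (hZ.continuous (hnod l)).snd
  · have := continuous_vec fun i =>
      (contDiff_DD hΦ 0 (contDiff_DD hΦ 0 (contDiff_Gx hΦ i))).continuous
    fun_prop
  · have := rho_prob hV c hτ hτ' (hnod l).1 (hnod l).2
    have hf : Measurable fun w : E d => c + (√τ * nod n β l) • w := by fun_prop
    conv_rhs => rw [← Measure.map_id (μ := gam d)]
    rw [Measure.map_prod_map _ _ hf measurable_id, ← nuS, ← hZ.law _ (hnod l),
      Measure.map_map (hf.prodMap measurable_id) (hZ.continuous (hnod l)).measurable]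
    rfl
  · have hu := nod_mem hn hβ i
    refine (lintegral_le_of_bound (I := fun x => IG x + |lam| * IP x)
      (g := fun x => gG x + ENNReal.ofReal |lam| * gP x) (K := √τ * β * ((Cw + 1) * β * β ^ n))
      (B := β * (M * τ * √(d : ℝ)) + |lam| * (β * (M * τ * √(d : ℝ)))) (by positivity)
      (mG.add (mP.const_mul _)) (fun x => ?_) ?_ fun x => ?_).trans (ENNReal.ofReal_le_ofReal ?_)
    · rw [ENNReal.ofReal_add (pG x) (mul_nonneg (abs_nonneg _) (pP x)),
        ENNReal.ofReal_mul (abs_nonneg _)]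
      exact add_le_add (lG x) (mul_le_mul_right (lP x) _)
    · rw [lintegral_add_left mG, lintegral_const_mul _ mP,
        ENNReal.ofReal_add (by positivity) (by positivity), ENNReal.ofReal_mul (abs_nonneg _)]
      exact add_le_add iG (mul_le_mul_right iP _)
    · have e1 := (eG x).1 i
      have e2 := (eP x).1 i
      have e3 : ∑ l, (τ * nod n β i * β * w i l) •
          (mm V (tn n β τ l) (c + (√τ * nod n β l) • (Z (nod n β l) x).1) + (lam * √τ) •
            KK V (tn n β τ l) (c + (√τ * nod n β l) • (Z (nod n β l) x).1) (Z (nod n β l) x).2)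
          = (√τ * nod n β i) • (∑ l, (β * w i l) • vec (Gx (PhiV V c τ))
              (nod n β l, Z (nod n β l) x) + lam • ∑ l, (β * w i l) • vec (Px (PhiV V c τ))
              (nod n β l, Z (nod n β l) x)) := by
        rw [Finset.smul_sum, ← Finset.sum_add_distrib, Finset.smul_sum]
        refine Finset.sum_congr rfl fun l _ => ?_
        rw [vec_Gx hV c hτ (hnod l), vec_Px hV c hτ (hnod l), tn]
        match_scalars
        · linear_combination (-(nod n β i * β * w i l)) * ht2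
        · ring
      rw [e3, hZ.fst_eq hV hτ x (hnod i)]
      generalize (∫ u in (0 : ℝ)..nod n β i, vec (Gx (PhiV V c τ)) (u, Z u x)) = A1 at e1 ⊢
      generalize (∫ u in (0 : ℝ)..nod n β i, vec (Px (PhiV V c τ)) (u, Z u x)) = A2 at e2 ⊢
      generalize ∑ l, (β * w i l) • vec (Gx (PhiV V c τ)) (nod n β l, Z (nod n β l) x) = S1
        at e1 ⊢
      generalize ∑ l, (β * w i l) • vec (Px (PhiV V c τ)) (nod n β l, Z (nod n β l) x) = S2
        at e2 ⊢
      have e4 : c + (√τ * nod n β i) • (x.1 - A1 - lam • A2) - (c + (√τ * nod n β i) • x.1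
          - (√τ * nod n β i) • (S1 + lam • S2))
          = -((√τ * nod n β i) • ((A1 - S1) + lam • (A2 - S2))) := by
        module
      rw [e4, norm_neg, norm_smul, Real.norm_eq_abs, abs_of_nonneg (mul_nonneg ht.le hu.1)]
      have e5 := norm_add_le (A1 - S1) (lam • (A2 - S2))
      rw [norm_smul, Real.norm_eq_abs] at e5
      have e6 := mul_le_mul_of_nonneg_left e2 (abs_nonneg lam)
      calc _ ≤ (√τ * β) * ((Cw + 1) * β * (β ^ n * IG x)
            + |lam| * ((Cw + 1) * β * (β ^ n * IP x))) :=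
            mul_le_mul (mul_le_mul_of_nonneg_left hu.2 ht.le) (by linarith) (norm_nonneg _)
              (by positivity)
        _ = _ := by ring
    · have p1 : β * β * (τ + |lam| * τ) ≤ 2 := by nlinarith [abs_nonneg lam]
      have p2 := mul_le_mul_of_nonneg_left p1 (mul_nonneg hK hb1)
      calc _ = (Cw + 1) * M * (√τ * β ^ (n + 1) * √(d : ℝ)) * (β * β * (τ + |lam| * τ)) := by
            ring
        _ ≤ _ := by nlinarith
  · refine (lintegral_le_of_bound (K := lam ^ 2 * ((Cw + 1) * β ^ 2 * β ^ n)) (by positivity)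
      mQ lQ iQ fun x => ?_).trans (ENNReal.ofReal_le_ofReal ?_)
    · have e1 := (eQ x).2.1 i
      have e3 : ∑ l, ((lam * √τ) ^ 2 * τ * β ^ 2 * w' i l) •
          KK V (tn n β τ l) (c + (√τ * nod n β l) • (Z (nod n β l) x).1)
            (KK V (tn n β τ l) (c + (√τ * nod n β l) • (Z (nod n β l) x).1) (Z (nod n β l) x).2)
          = lam ^ 2 • ∑ l, (β ^ 2 * w' i l) • vec (Qx (PhiV V c τ))
              (nod n β l, Z (nod n β l) x) := by
        rw [Finset.smul_sum]
        refine Finset.sum_congr rfl fun l _ => ?_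
        rw [vec_Qx hV c hτ (hnod l), tn]
        match_scalars
        linear_combination (lam ^ 2 * τ * β ^ 2 * w' i l) * ht2
      have e4 : (lam * √τ) • (mm V (tn n β τ i) (c + (√τ * nod n β i) • (Z (nod n β i) x).1)
          - mm V τ c) = lam • (vec (Gx (PhiV V c τ)) (nod n β i, Z (nod n β i) x)
            - vec (Gx (PhiV V c τ)) (0, x)) := by
        rw [hG0, vec_Gx hV c hτ (hnod i), tn]
        module
      rw [e3, e4, hZ.snd_eq hV hτ hτ' x (hnod i)]
      generalize (∫ u in (0 : ℝ)..nod n β i, u • vec (Qx (PhiV V c τ)) (u, Z u x)) = A1 at e1 ⊢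
      generalize ∑ l, (β ^ 2 * w' i l) • vec (Qx (PhiV V c τ)) (nod n β l, Z (nod n β l) x) = S1
        at e1 ⊢
      generalize lam • (vec (Gx (PhiV V c τ)) (nod n β i, Z (nod n β i) x)
            - vec (Gx (PhiV V c τ)) (0, x)) = T
      have e5 : x.2 + T + lam ^ 2 • A1 - (x.2 + lam ^ 2 • S1 + T) = lam ^ 2 • (A1 - S1) := by
        module
      rw [e5, norm_smul, Real.norm_eq_abs, abs_of_nonneg (sq_nonneg _)]
      calc _ ≤ lam ^ 2 * ((Cw + 1) * β ^ 2 * (β ^ n * IQ x)) :=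
            mul_le_mul_of_nonneg_left e1 (sq_nonneg _)
        _ = _ := by ring
    · have p0 : 0 ≤ lam ^ 2 * τ ^ 2 * β ^ (n + 1) * √(d : ℝ) := by positivity
      have p1 : β ^ 2 ≤ 2 := by nlinarith
      have p2 := mul_le_mul_of_nonneg_left p1 (mul_nonneg hK p0)
      rw [show (lam * √τ) ^ 2 * τ = lam ^ 2 * τ ^ 2 by linear_combination (lam ^ 2 * τ) * ht2]
      calc _ = (Cw + 1) * M * (lam ^ 2 * τ ^ 2 * β ^ (n + 1) * √(d : ℝ)) * β ^ 2 := by ring
        _ ≤ _ := by nlinarith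
  · refine (lintegral_le_of_bound (K := (√τ)⁻¹ * (Cw * β ^ n)) (by positivity)
      mG lG iG fun x => ?_).trans (ENNReal.ofReal_le_ofReal ?_)
    · have e1 := (eG x).2.2.1
      have e2 : vec (fun i => DD (PhiV V c τ) lam (Gx (PhiV V c τ) i)) (0, x)
          = τ • KK V τ c x.1 := by
        ext i
        have e := sum_Kx hV c hτ h04 x x.1 i
        rw [← hP.DD_Gx_zero lam i x.1 x.2] at e
        simpa [vec] using e
      have e3 : (β * √τ) • KK V τ c x.1
          - ∑ l, d1 l • mm V (tn n β τ l) (c + (√τ * nod n β l) • (Z (nod n β l) x).1)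
          = (√τ)⁻¹ • (β • τ • KK V τ c x.1
            - ∑ l, d1 l • vec (Gx (PhiV V c τ)) (nod n β l, Z (nod n β l) x)) := by
        rw [smul_sub, Finset.smul_sum]
        congr 1
        · match_scalars
          field_simp
          linear_combination ht2
        · refine Finset.sum_congr rfl fun l _ => ?_
          rw [vec_Gx hV c hτ (hnod l), tn]
          match_scalars
          field_simp
      rw [e3, norm_smul, Real.norm_eq_abs, abs_of_pos (by positivity), ← e2]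
      calc _ ≤ (√τ)⁻¹ * (Cw * (β ^ n * IG x)) := mul_le_mul_of_nonneg_left e1 (by positivity)
        _ = _ := by ring
    · have p1 : (√τ)⁻¹ * τ = √τ := by
        field_simp
        linear_combination -ht2
      have p2 := mul_nonneg hM hb1
      calc _ = Cw * M * (((√τ)⁻¹ * τ) * β ^ (n + 1) * √(d : ℝ)) := by ring
        _ ≤ _ := by
          rw [p1]
          nlinarith [mul_nonneg hK hb1]
  · refine (lintegral_le_of_bound (K := (√τ)⁻¹ * (Cw * β ^ n)) (by positivity)
      mG lG iG fun x => ?_).trans (ENNReal.ofReal_le_ofReal ?_)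
    · have e1 := (eG x).2.2.2
      have e0 : vec (Qx (PhiV V c τ)) (0, x) = τ ^ 2 • KK V τ c (KK V τ c x.2) := by
        rw [vec_Qx hV c hτ h04]
        simp
      have e2 : vec (fun i => DD (PhiV V c τ) lam (DD (PhiV V c τ) lam (Gx (PhiV V c τ) i))) (0, x)
          = vec (fun i => DD (PhiV V c τ) 0 (DD (PhiV V c τ) 0 (Gx (PhiV V c τ) i))) (0, x.1, 0)
            - (2 * lam) • τ ^ 2 • KK V τ c (KK V τ c x.2) := by
        rw [← e0]
        ext i
        exact hP.DD_DD_Gx_zero lam i x.1 x.2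
      rw [e2] at e1
      generalize vec (fun i => DD (PhiV V c τ) 0 (DD (PhiV V c τ) 0 (Gx (PhiV V c τ) i)))
        (0, x.1, 0) = T at e1 ⊢
      have e3 : (β ^ 2 / √τ) • T - (2 * (lam * √τ) * τ * β ^ 2) • KK V τ c (KK V τ c x.2)
          - ∑ l, d2 l • mm V (tn n β τ l) (c + (√τ * nod n β l) • (Z (nod n β l) x).1)
          = (√τ)⁻¹ • (β ^ 2 • (T - (2 * lam) • τ ^ 2 • KK V τ c (KK V τ c x.2))
            - ∑ l, d2 l • vec (Gx (PhiV V c τ)) (nod n β l, Z (nod n β l) x)) := by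
        rw [smul_sub, Finset.smul_sum]
        congr 1
        · match_scalars
          · field_simp
          · field_simp
            linear_combination (-lam) * ht2
        · refine Finset.sum_congr rfl fun l _ => ?_
          rw [vec_Gx hV c hτ (hnod l), tn]
          match_scalars
          field_simp
      rw [e3, norm_smul, Real.norm_eq_abs, abs_of_pos (by positivity)]
      calc _ ≤ (√τ)⁻¹ * (Cw * (β ^ n * IG x)) := mul_le_mul_of_nonneg_left e1 (by positivity)
        _ = _ := by ring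
    · have p1 : (√τ)⁻¹ * τ = √τ := by
        field_simp
        linear_combination -ht2
      have p2 := mul_nonneg hM hb1
      calc _ = Cw * M * (((√τ)⁻¹ * τ) * β ^ (n + 1) * √(d : ℝ)) := by ring
        _ ≤ _ := by
          rw [p1]
          nlinarith [mul_nonneg hK hb1]

/-- contraction of the ideal step -/
theorem rho_contract {V : E d → ℝ} (hV : IsPotential V) {τ β : ℝ} (hτ : 0 < τ)
    (hτ' : τ ≤ 1 / 8) (hβ : 0 < β) (hβ' : β ≤ 1 / 4) {f : E d → ℝ} (hf : BL f) (c c' : E d) :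
    |∫ w, f (c + (√τ * β) • w) ∂(rho V c τ β) - ∫ w, f (c' + (√τ * β) • w) ∂(rho V c' τ β)|
      ≤ (1 - τ * β ^ 2 / 4) * ‖c - c'‖ := by
  have hs : β ∈ Icc (0 : ℝ) (1 / 4) := ⟨hβ.le, hβ'⟩
  have ht : 0 < √τ := Real.sqrt_pos.2 hτ
  have hfc : Continuous f := hf.1.continuous
  obtain ⟨Mf, hMf⟩ := hf.2
  have key : ∀ (c : E d) (Z : ℝ → E d × E d → E d × E d), IsFlow V c τ 0 Z →
      ∫ w, f (c + (√τ * β) • w) ∂(rho V c τ β)
        = ∫ x, f (c + (√τ * β) • (Z β x).1) ∂((gam d).prod (gam d)) ∧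
      Integrable (fun x => f (c + (√τ * β) • (Z β x).1)) ((gam d).prod (gam d)) := by
    intro c Z hZ
    have := rho_prob hV c hτ hτ' hβ.le hβ'
    have hc := hZ.continuous hs
    have h1 : ((gam d).prod (gam d)).map (fun x => (Z β x).1) = rho V c τ β := by
      rw [← (measurePreserving_fst (μ := rho V c τ β) (ν := gam d)).map_eq, ← nuS, ← hZ.law β hs,
        Measure.map_map measurable_fst hc.measurable]
      rfl
    refine ⟨?_, Integrable.of_bound (Continuous.aestronglyMeasurable (by fun_prop)) Mf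
      (Eventually.of_forall fun x => hMf _)⟩
    rw [← h1, integral_map hc.fst.measurable.aemeasurable
      (Continuous.aestronglyMeasurable (by fun_prop))]
  obtain ⟨Z, hZ⟩ := exists_isFlow hV c hτ hτ' 0
  obtain ⟨Z', hZ'⟩ := exists_isFlow hV c' hτ hτ' 0
  obtain ⟨h1, h2⟩ := key c Z hZ
  obtain ⟨h1', h2'⟩ := key c' Z' hZ'
  rw [h1, h1', ← integral_sub h2 h2', ← Real.norm_eq_abs]
  refine (norm_integral_le_of_norm_le_const (C := (1 - τ * β ^ 2 / 4) * ‖c - c'‖)
    (Eventually.of_forall fun x => ?_)).trans (by simp)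
  have hsub : Icc (0 : ℝ) β ⊆ Icc (0 : ℝ) (1 / 4) := Icc_subset_Icc le_rfl hβ'
  have h3 := ode_contract ht (by rw [Real.sq_sqrt hτ.le]; exact hτ') hβ hβ' (c - c')
    (fun u => (Z u x).1 - (Z' u x).1) _ (by simp only [hZ.init, hZ'.init, sub_self])
    (fun u hu => (hZ.hasDerivAt_fst x (hsub hu)).sub (hZ'.hasDerivAt_fst x (hsub hu)))
    (fun u hu => by
      have h4 := hV.norm_mm_sub_sub_le (var_pos hτ (hsub hu)) (var_le hτ hτ')
        (c + (√τ * u) • (Z u x).1) (c' + (√τ * u) • (Z' u x).1)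
      have e1 : c + (√τ * u) • (Z u x).1 - (c' + (√τ * u) • (Z' u x).1)
          = c - c' + (√τ * u) • ((Z u x).1 - (Z' u x).1) := by module
      rw [e1] at h4
      rw [vec_Gx hV c hτ (hsub hu), vec_Gx hV c' hτ (hsub hu)]
      refine le_trans (le_of_eq ?_) (mul_le_mul_of_nonneg_left h4 ht.le)
      rw [← abs_of_pos ht, ← Real.norm_eq_abs, ← norm_smul, ← norm_neg, Real.norm_eq_abs,
        abs_of_pos ht]
      congr 1
      module)
  rw [Real.sq_sqrt hτ.le] at h3
  refine le_trans ?_ h3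
  have h5 := hf.1.dist_le_mul (c + (√τ * β) • (Z β x).1) (c' + (√τ * β) • (Z' β x).1)
  rw [dist_eq_norm, dist_eq_norm, NNReal.coe_one, one_mul] at h5
  refine h5.trans (le_of_eq ?_)
  congr 1
  module

end Vale.Agent.P347
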