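import Vale.Agent.P347.Sobolev3

open MeasureTheory ProbabilityTheory Filter Set
open scoped ENNReal ContDiff RealInnerProductSpace

namespace Vale.Agent.P347

namespace Sob

variable {C : ℕ → ℝ}

/-- the creation property at level n -/
def Cre (C : ℕ → ℝ) (n : ℕ) : Prop :=
  ∀ (w : Data C → ℝ≥0∞) {ι : Data C → Type} [∀ θ, Fintype (ι θ)] (h : Fam (PP ι FD)),
    Good w (n + 1) h → Good w n (cy h)

/-- the multiplier property of all words at level n -/
def AllMult (C : ℕ → ℝ) (n : ℕ) : Prop :=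
  ∀ {α β : Data C → Type} [∀ θ, Fintype (α θ)] [∀ θ, Fintype (β θ)] {M : Mu α β},
    Word M → Mult n M

theorem cre_pred {n : ℕ} (hc : ∀ m, m < n → Cre C m) (w : Data C → ℝ≥0∞) {ι : Data C → Type}
    [∀ θ, Fintype (ι θ)] (h : Fam (PP ι FD)) (hh : Good w n h) : Good w (n - 1) (cy h) := by
  cases n with
  | zero => exact good_zero _
  | succ n => exact hc n (by omega) w h hh

theorem mult_step (hC : ∀ k, 0 ≤ C k) {n : ℕ} (hm : ∀ m, m ≤ n → AllMult C m)
    (hc : ∀ m, m < n → Cre C m) : AllMult C (n + 1) := by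
  intro α β _ _ M hM w ι _ h hh
  obtain ⟨h1, h2, h3, h4⟩ := good_succ.1 hh
  have a1 := hm n le_rfl hM.out w h hh.of_succ
  have a1' := a1.re fun θ => Equiv.prodAssoc _ _ _
  refine good_succ.2 ⟨hM.bd hC h1, ?_, ?_, ?_⟩
  · refine ((a1'.tm U).add ((hm n le_rfl hM w _ (h2.re fun θ => sw3 _ _ _)).re
      fun θ => sw3 _ _ _)).congr fun θ k => ?_
    simp only [fdy, act, map_sum, dy_mul, dy_lf, Finset.sum_add_distrib, Pi.add_apply,
      Finset.mul_sum, mul_assoc]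
    rfl
  · refine ((hm n le_rfl hM w _ (h3.re fun θ => sw3 _ _ _)).re
      fun θ => sw3 _ _ _).congr fun θ k => ?_
    simp only [fde, act, map_sum, de_mul, de_lf, zero_mul, zero_add]
    rfl
  · have b1 := hm (n - 1) (by omega) hM w _ h4
    have b2 := (cre_pred hc _ _ a1').tm U'
    have b3 := (hm (n - 1) (by omega) hM.inn w _
      (h2.pred.re fun θ => (Equiv.prodAssoc _ _ _).symm)).tm U'
    have b4 := Alg.mult (hm (n - 1) (by omega)) hM.alg_EE w h hh.of_succ.pred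
    refine (((b1.add b2).add b3).add b4).congr fun θ k => ?_
    simp only [fd0, act, map_sum, d0_mul, d0_lf, Pi.add_apply, cy, del_mul, Fintype.sum_prod_type,
      Finset.sum_add_distrib, Finset.sum_sub_distrib, add_mul, mul_assoc, ← Finset.mul_sum,
      Finset.sum_mul, mEE]
    have e1 : ∑ l, ∑ b, del θ.ph l (lf (mout M θ (Equiv.prodAssoc _ _ _ (k, l)).2 b)) *
        h θ ((Equiv.prodAssoc _ _ _ (k, l)).1, b)
        = ∑ b, ∑ l, del θ.ph l (lf (dz l (M θ k.2 b))) * h θ (k.1, b) := Finset.sum_comm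
    have e2 : ∑ l, ∑ b, lf (mout M θ (Equiv.prodAssoc _ _ _ (k, l)).2 b) *
        dy l (h θ ((Equiv.prodAssoc _ _ _ (k, l)).1, b))
        = ∑ b, ∑ l, lf (minn M θ k.2 (b, l)) *
          fdy h θ ((Equiv.prodAssoc _ _ _).symm (k.1, b, l)) := Finset.sum_comm
    rw [e1, e2]
    ring

theorem cre_step (hC : ∀ k, 0 ≤ C k) {n : ℕ} (hm : AllMult C n)
    (hc : ∀ m, m ≤ n → Cre C m) : Cre C (n + 1) := by
  intro w ι _ h hh
  obtain ⟨h1, h2, h3, h4⟩ := good_succ.1 hh
  have a1 := (hm Word.base w h hh.of_succ.of_succ).mono ENNReal.one_ne_top (sw_le _)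
  refine good_succ.2 ⟨h1.cy (hC 0) (good_succ.1 h2).1, ?_, ?_, ?_⟩
  · refine (((hc n le_rfl w _ (h2.re fun θ => sw3 _ _ _)).add hh.of_succ.of_succ).add
      (a1.tm (U * U))).congr fun θ k => ?_
    simp only [fdy, cy, map_sum, dy_del, Finset.sum_add_distrib, Finset.sum_ite_eq,
      Finset.mem_univ, if_true, Pi.add_apply, act, map_mul, Finset.mul_sum]
    rfl
  · refine (hc n le_rfl w _ (h3.re fun θ => sw3 _ _ _)).congr fun θ k => ?_
    simp only [fde, cy, map_sum, de_del]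
    rfl
  · have hc' : ∀ m, m < n → Cre C m := fun m hm => hc m hm.le
    refine ((cre_pred hc' w _ h4).add ((cre_pred hc' w _ a1).tm (U * U'))).congr fun θ k => ?_
    simp only [fd0, cy, map_sum, d0_del θ.ph (EE_grad θ), Finset.sum_add_distrib, Pi.add_apply,
      act, map_mul, ← Finset.mul_sum, Km]
    rw [Finset.sum_comm]

theorem mult_cre (hC : ∀ k, 0 ≤ C k) (n : ℕ) : AllMult C n ∧ Cre C n := by
  induction n using Nat.strong_induction_on with
  | _ n ih =>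
    cases n with
    | zero => exact ⟨fun _ _ _ _ _ _ => good_zero _, fun _ _ _ _ _ => good_zero _⟩
    | succ n =>
      exact ⟨mult_step hC (fun m hm => (ih m (by omega)).1) fun m hm => (ih m (by omega)).2,
        cre_step hC (ih n (by omega)).1 fun m hm => (ih m (by omega)).2⟩

variable {ι : Data C → Type} [∀ θ, Fintype (ι θ)] {w : Data C → ℝ≥0∞} {n : ℕ}

theorem Good.cy (hC : ∀ k, 0 ≤ C k) {h : Fam (PP ι FD)} (hh : Good w (n + 1) h) :
    Good w n (cy h) := (mult_cre hC n).2 w h hh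

theorem Good.K (hC : ∀ k, 0 ≤ C k) {h : Fam (PP ι FD)} (hh : Good w n h) :
    Good (sw w) n (act Km h) := (mult_cre hC n).1 Word.base w h hh

theorem Good.lam {h : Fam ι} (hh : Good (sw w) n h) :
    Good w n (fun θ i => θ.lam • h θ i : Fam ι) := by
  refine (hh.smul fun θ => θ.lam).mono (c := ENNReal.ofReal 4) ENNReal.ofReal_ne_top fun θ => ?_
  rw [sw, ← mul_assoc, ← ENNReal.ofReal_mul (sq_nonneg _)]
  gcongr
  have h1 := θ.hl
  have h2 : 0 ≤ |θ.lam| * θ.ε := mul_nonneg (abs_nonneg _) θ.h0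
  rw [← sq_abs θ.lam, ← mul_pow]
  nlinarith

theorem Good.DD (hC : ∀ k, 0 ≤ C k) {h : Fam ι} (hh : Good w (n + 2) h) :
    Good w n (fun θ i => DDb θ.ph θ.lam (h θ i) : Fam ι) := by
  obtain ⟨_, h2, h3, h4⟩ := good_succ.1 hh
  exact (h4.add (((h3.K hC).cy hC).sub (h2.K hC).ce).lam).congr fun θ k => rfl

theorem Good.DD_iter (hC : ∀ k, 0 ≤ C k) (j : ℕ) {h : Fam ι} (hh : Good w (n + 2 * j) h) :
    Good w n (fun θ i => (DDb θ.ph θ.lam)^[j] (h θ i) : Fam ι) := by
  induction j generalizing h with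
  | zero => exact hh
  | succ j ih => exact ih (Good.DD hC (n := n + 2 * j) hh)

/-- the identity matrix -/
noncomputable def Idm : Fam (C := C) (PP FD FD) := fun _ p => if p.1 = p.2 then 1 else 0

/-- the basic weight -/
noncomputable def w0 : Data C → ℝ≥0∞ := fun θ => ENNReal.ofReal θ.d * muS θ.Φ θ.s univ

theorem good_Idm (n : ℕ) : Good (w0 (C := C)) n Idm := by
  cases n with
  | zero => exact good_zero _
  | succ n =>
    refine good_succ.2 ⟨⟨1, ENNReal.one_ne_top, fun θ => ?_⟩, good_zero_fam.congr fun θ k => ?_,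
      good_zero_fam.congr fun θ k => ?_, good_zero_fam.congr fun θ k => ?_⟩
    · have : ∀ q, ∑ p, ev (θ.s, q) (Idm θ p) ^ 2 = θ.d := fun q => by
        rw [Fintype.sum_prod_type]
        simp [Idm, apply_ite]
      simp only [nrm, this, lintegral_const, one_mul, w0, le_refl]
    · simp only [fdy, Idm, Pi.zero_apply]
      split_ifs
      · exact dc_one _
      · exact map_zero _
    · simp only [fde, Idm, Pi.zero_apply]
      split_ifs
      · exact dc_one _
      · exact map_zero _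
    · simp only [fd0, Idm, Pi.zero_apply]
      split_ifs
      · exact d0_one _
      · exact map_zero _

theorem good_L (hC : ∀ k, 0 ≤ C k) (n : ℕ) :
    Good (sw (w0 (C := C))) n (fun θ i => Lb θ.ph i : Fam FD) :=
  (((good_Idm (n + 1)).K hC).cy hC).congr fun θ k => by
    simp [cy, act, Idm, Km, Lb]

theorem good_P (hC : ∀ k, 0 ≤ C k) (n : ℕ) :
    Good (sw (w0 (C := C))) n (fun θ i => Pb θ.ph i : Fam FD) :=
  ((good_Idm (n + 1)).K hC).ce.congr fun θ k => by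
    simp [ce, act, Idm, Km, Pb, eel_def, de_lf, dz_comm k, mul_comm]

/-- bundled version of `Qx` -/
noncomputable def Qb {d : ℕ} (ph : SS d) (i : Fin d) : RR' d :=
  ∑ j, lf (dz i (dz j ph)) * Pb ph j

theorem Qb_val {d : ℕ} (ph : SS d) (j : Fin d) (x : XX d) : ev x (Qb ph j) = Qx ph.1 j x := by
  simp only [Qb, map_sum, map_mul, Pb_val]
  rfl

theorem good_Q (hC : ∀ k, 0 ≤ C k) (n : ℕ) :
    Good (sw (sw (w0 (C := C)))) n (fun θ i => Qb θ.ph i : Fam FD) :=
  (((good_P hC n).re (κ := PP UU FD) fun _ => Equiv.punitProd _).K hC).of_eq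
    (fun _ => (Equiv.punitProd _).symm) fun _ _ => rfl

theorem good_DG (hC : ∀ k, 0 ≤ C k) (n : ℕ) : Good (sw (w0 (C := C))) n
    (fun θ i => DDb θ.ph θ.lam (lf (dz i θ.ph)) : Fam FD) :=
  (((good_L hC n).tm U').sub ((good_Q hC n).lam.tm U)).congr fun θ k => ext_ev fun x => by
    have h := θ.pkg.DD_Gx θ.lam k x
    rw [ev_apply, DDb_val]
    simp only [Pi.sub_apply, map_sub, map_mul, map_smul, Lb_val, Qb_val, smul_eq_mul]
    refine h.trans ?_
    have e5 : ev x (tm U) = uu x.1 := rfl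
    have e6 : ev x (tm U') = deriv uu x.1 := rfl
    rw [e5, e6, mul_comm θ.lam, mul_assoc]
    rfl

theorem good_Y (hC : ∀ k, 0 ≤ C k) (n : ℕ) : Good (w0 (C := C)) n
    (fun θ i => Yc i + tm U * lf (dz i θ.ph) : Fam FD) :=
  ((good_Idm (n + 1)).cy hC).congr fun θ k => by
    have h2 : dy k (1 : RR' θ.d) = 0 := dc_one _
    simp [cy, Idm, apply_ite, del_def, h2]

end Sob

open Sob

variable {d : ℕ}

/-- dimension free L2 bounds for the time derivatives along the feedback flow -/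
theorem sobolev (C : ℕ → ℝ) (hC : ∀ k, 0 ≤ C k) (j : ℕ) : ∃ C' : ℝ, 0 ≤ C' ∧
    ∀ (d : ℕ) (ε lam s : ℝ) (Φ : ℝ × E d → ℝ), Pkg C ε Φ → 0 ≤ ε → ε ≤ 1 → |lam| * ε ≤ 2 →
      |s| ≤ 1 / 2 →
      (∫⁻ q, ENNReal.ofReal (∑ i, ((DD Φ lam)^[j + 1] (Gx Φ i) (s, q)) ^ 2) ∂(muS Φ s)
        ≤ ENNReal.ofReal (C' * ε ^ 2 * d) * muS Φ s univ) ∧
      (∫⁻ q, ENNReal.ofReal (∑ i, ((DD Φ lam)^[j] (Px Φ i) (s, q)) ^ 2) ∂(muS Φ s)
        ≤ ENNReal.ofReal (C' * ε ^ 2 * d) * muS Φ s univ) ∧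
      (∫⁻ q, ENNReal.ofReal (∑ i, ((DD Φ lam)^[j] (Qx Φ i) (s, q)) ^ 2) ∂(muS Φ s)
        ≤ ENNReal.ofReal (C' * ε ^ 4 * d) * muS Φ s univ) ∧
      (∫⁻ q, ENNReal.ofReal (∑ i, (q.1 i + uu s * Gx Φ i (s, q)) ^ 2) ∂(muS Φ s)
        ≤ ENNReal.ofReal (C' * d) * muS Φ s univ) := by
  obtain ⟨c1, f1, h1⟩ := (good_succ.1 ((good_DG hC (0 + 1 + 2 * j)).DD_iter hC j)).1
  obtain ⟨c2, f2, h2⟩ := (good_succ.1 ((good_P hC (0 + 1 + 2 * j)).DD_iter hC j)).1
  obtain ⟨c3, f3, h3⟩ := (good_succ.1 ((good_Q hC (0 + 1 + 2 * j)).DD_iter hC j)).1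
  obtain ⟨c4, f4, h4⟩ := (good_succ.1 (good_Y hC (0 + 1))).1
  have hf : c1 + c2 + c3 + c4 ≠ ⊤ := by finiteness
  refine ⟨(c1 + c2 + c3 + c4).toReal, ENNReal.toReal_nonneg,
    fun d ε lam s Φ hΦ h0 h1' hl hs => ?_⟩
  let θ : Data C := ⟨d, ε, lam, s, Φ, hΦ, h0, h1', hl, hs⟩
  have key : ∀ a : ℝ, 0 ≤ a → ENNReal.ofReal ((c1 + c2 + c3 + c4).toReal * a * d) * muS Φ s univ
      = (c1 + c2 + c3 + c4) * (ENNReal.ofReal a * w0 θ) := by
    intro a ha
    rw [ENNReal.ofReal_mul (by positivity), ENNReal.ofReal_mul ENNReal.toReal_nonneg,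
      ENNReal.ofReal_toReal hf, mul_assoc, mul_assoc]
    rfl
  have hP : ∀ i, (Pb θ.ph i).1 = Px Φ i := fun i => funext (Pb_val θ.ph i)
  have hQ : ∀ i, (Qb θ.ph i).1 = Qx Φ i := fun i => funext (Qb_val θ.ph i)
  refine ⟨?_, ?_, ?_, ?_⟩
  · have := h1 θ
    simp only [nrm, ev_apply, DDb_iter, DDb_val] at this
    rw [key _ (sq_nonneg ε)]
    refine le_trans this ?_
    exact mul_le_mul_left (le_add_right (le_add_right le_self_add)) _
  · have := h2 θ
    simp only [nrm, ev_apply, DDb_iter, hP] at this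
    rw [key _ (sq_nonneg ε)]
    refine le_trans this ?_
    exact mul_le_mul_left (le_add_right (le_add_right le_add_self)) _
  · have := h3 θ
    simp only [nrm, ev_apply, DDb_iter, hQ] at this
    rw [key _ (by positivity), show ε ^ 4 = ε ^ 2 * ε ^ 2 by ring,
      ENNReal.ofReal_mul (sq_nonneg ε), mul_assoc]
    refine le_trans this ?_
    exact mul_le_mul_left (le_add_right le_add_self) _
  · have := h4 θ
    rw [← mul_one (c1 + c2 + c3 + c4).toReal, key _ zero_le_one, ENNReal.ofReal_one, one_mul]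
    refine le_trans this ?_
    exact mul_le_mul_left le_add_self _

end Vale.Agent.P347
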