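import Vale.Agent.P347.Tensor
import Vale.Agent.P347.Sobolev
import Vale.Agent.P347.Ode
import Vale.Agent.P347.Interp

open MeasureTheory ProbabilityTheory Filter Set
open scoped ENNReal ContDiff RealInnerProductSpace

namespace Vale.Agent.P347

variable {d : ℕ}

/-- the time dependent potential of the rescaled function -/
noncomputable abbrev PhiV (V : E d → ℝ) (c : E d) (τ : ℝ) : ℝ × E d → ℝ :=
  PhiOf fun x => V (c + √τ • x)

/-- the law of the state at time s -/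
noncomputable abbrev nuS (V : E d → ℝ) (c : E d) (τ s : ℝ) : Measure (E d × E d) :=
  (rho V c τ s).prod (gam d)

theorem uu_eq' {s : ℝ} (hs : s ∈ Icc (0 : ℝ) (1 / 4)) : uu s = s :=
  uu_eq (by rw [abs_of_nonneg hs.1]; linarith [hs.2])

theorem deriv_uu_eq' {s : ℝ} (hs : s ∈ Icc (0 : ℝ) (1 / 4)) : deriv uu s = 1 :=
  deriv_uu_eq (by rw [abs_of_nonneg hs.1]; linarith [hs.2])

theorem var_pos {τ s : ℝ} (hτ : 0 < τ) (hs : s ∈ Icc (0 : ℝ) (1 / 4)) : 0 < τ * (1 - s ^ 2) :=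
  mul_pos hτ (by nlinarith [hs.1, hs.2])

theorem var_le {τ s : ℝ} (hτ : 0 < τ) (hτ' : τ ≤ 1 / 8) : τ * (1 - s ^ 2) ≤ 1 / 8 := by
  nlinarith [sq_nonneg s, mul_nonneg hτ.le (sq_nonneg s)]

theorem rho_zero (V : E d → ℝ) (c : E d) (τ : ℝ) : rho V c τ 0 = gam d := by
  unfold rho
  simp

theorem nuS_eq {V : E d → ℝ} (hV : IsPotential V) (c : E d) {τ s : ℝ} (hτ : 0 < τ)
    (hs : s ∈ Icc (0 : ℝ) (1 / 4)) :
    nuS V c τ s = ENNReal.ofReal (((2 * Real.pi) ^ (-(d : ℝ) / 2)) ^ 2 * Real.exp (Wt V τ c))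
      • muS (PhiV V c τ) s := by
  have hW : Continuous (Wt V (τ * (1 - s ^ 2))) :=
    (hV.conv.contDiff_Wt (var_pos hτ hs)).continuous
  have hg : Measurable fun x : E d =>
      ENNReal.ofReal ((2 * Real.pi) ^ (-(d : ℝ) / 2) * Real.exp (-‖x‖ ^ 2 / 2)) :=
    Measurable.ennreal_ofReal (by fun_prop)
  have hh : Measurable fun w : E d =>
      ENNReal.ofReal (Real.exp (Wt V τ c - Wt V (τ * (1 - s ^ 2)) (c + (√τ * s) • w))) :=
    Measurable.ennreal_ofReal (Continuous.measurable (by fun_prop))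
  have hd : Measurable fun q : E d × E d => ENNReal.ofReal (dens (PhiV V c τ) (s, q)) :=
    Measurable.ennreal_ofReal (((contDiff_dens ((hV.conv.scale c hτ).contDiff_PhiOf)).continuous.comp
      (by fun_prop)).measurable)
  unfold nuS rho muS
  rw [gam_eq_withDensity, ← withDensity_mul _ hg hh, prod_withDensity (hg.mul hh) hg,
    ← withDensity_smul _ hd]
  congr 1
  funext q
  have hp : 0 ≤ (2 * Real.pi) ^ (-(d : ℝ) / 2) := by positivity
  simp only [Pi.mul_apply, Pi.smul_apply, smul_eq_mul]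
  rw [← ENNReal.ofReal_mul (by positivity), ← ENNReal.ofReal_mul (by positivity),
    ← ENNReal.ofReal_mul (by positivity)]
  congr 1
  simp only [dens, lift, PhiOf, uu_eq' hs, Wt_scale V c hτ, smul_smul]
  rw [sub_eq_add_neg (Wt V τ c), sub_eq_add_neg (-‖q.1‖ ^ 2 / 2 - _), sub_eq_add_neg (-‖q.1‖ ^ 2 / 2),
    Real.exp_add, Real.exp_add, Real.exp_add, ← neg_div]
  ring

/-- the feedback flow and its law -/
structure IsFlow (V : E d → ℝ) (c : E d) (τ lam : ℝ) (Z : ℝ → E d × E d → E d × E d) : Prop where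
  init : ∀ x, Z 0 x = x
  deriv : ∀ x, ∀ s ∈ Icc (0 : ℝ) (1 / 4),
    HasDerivAt (fun r => Z r x) (FF (PhiV V c τ) lam (s, Z s x)) s
  cont : ContinuousOn (fun p : ℝ × (E d × E d) => Z p.1 p.2) (Icc (0 : ℝ) (1 / 4) ×ˢ univ)
  law : ∀ s ∈ Icc (0 : ℝ) (1 / 4), ((gam d).prod (gam d)).map (Z s) = nuS V c τ s

theorem IsFlow.continuous {V : E d → ℝ} {c : E d} {τ lam : ℝ} {Z : ℝ → E d × E d → E d × E d}
    (h : IsFlow V c τ lam Z) {s : ℝ} (hs : s ∈ Icc (0 : ℝ) (1 / 4)) : Continuous (Z s) :=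
  h.cont.comp_continuous (f := fun x => (s, x)) (by fun_prop) fun _ => ⟨hs, trivial⟩

theorem exists_isFlow {V : E d → ℝ} (hV : IsPotential V) (c : E d) {τ : ℝ} (hτ : 0 < τ)
    (hτ' : τ ≤ 1 / 8) (lam : ℝ) : ∃ Z, IsFlow V c τ lam Z := by
  obtain ⟨C, -, hC⟩ := exists_pkg
  have hP : Pkg C (2 * τ) (PhiV V c τ) :=
    hC d _ _ (by positivity) (by linarith) (hV.conv.scale c hτ)
  obtain ⟨A, hA⟩ := hP.growth lam
  have hF : ContDiff ℝ 1 (FF (PhiV V c τ) lam) := (contDiff_FF hP.smooth lam).of_le (by simp)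
  obtain ⟨Z, h0, h1, h2⟩ := exists_flow (FF (PhiV V c τ) lam) hF (T := 1 / 2) (A := A)
    (by norm_num) fun s hs x => hA s (abs_le.2 hs) x
  have hsub : Icc (0 : ℝ) (1 / 4) ⊆ Ioo (-(1 / 2)) (1 / 2) := fun s hs =>
    ⟨by linarith [hs.1], by linarith [hs.2]⟩
  have h3 := h2.mono (prod_mono hsub subset_rfl)
  refine ⟨Z, h0, fun x s hs => h1 x s (hsub hs), h3, fun s hs => ?_⟩
  have hm : Measurable (Z s) :=
    (h3.comp_continuous (f := fun x => (s, x)) (by fun_prop) fun _ => ⟨hs, trivial⟩).measurable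
  have hsub2 : Icc (0 : ℝ) s ⊆ Icc (0 : ℝ) (1 / 4) := Icc_subset_Icc le_rfl hs.2
  have h4 := transport ((volume : Measure (E d)).prod (volume : Measure (E d)))
    ((EuclideanSpace.basisFun (Fin d) ℝ).toBasis.prod (EuclideanSpace.basisFun (Fin d) ℝ).toBasis)
    (FF (PhiV V c τ) lam) hF (dens (PhiV V c τ)) ((contDiff_dens hP.smooth).of_le (by simp))
    (fun q => (Real.exp_pos _).le) hs.1
    (fun r hr x => hA r (abs_le.2 ⟨by linarith [hr.1], by linarith [hr.2, hs.2]⟩) x)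
    (fun r _ x => by
      have h5 := hP.continuity lam (r, x)
      rw [Fintype.sum_sum_type, ← add_assoc]
      refine Eq.trans ?_ h5
      simp [Ds, Dy, De, FF, Module.Basis.prod_apply, Prod.mk_zero_zero])
    Z h0 (fun x r hr => h1 x r (hsub (hsub2 hr))) hm
  have h5 : (gam d).prod (gam d) = nuS V c τ 0 := by rw [nuS, rho_zero]
  rw [h5, nuS_eq hV c hτ hs, nuS_eq hV c hτ ⟨le_rfl, by norm_num⟩, Measure.map_smul]
  exact congrArg _ h4

theorem nuS_prob {V : E d → ℝ} (hV : IsPotential V) (c : E d) {τ s : ℝ} (hτ : 0 < τ)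
    (hτ' : τ ≤ 1 / 8) (hs : s ∈ Icc (0 : ℝ) (1 / 4)) : IsProbabilityMeasure (nuS V c τ s) := by
  obtain ⟨Z, hZ⟩ := exists_isFlow hV c hτ hτ' 0
  rw [← hZ.law s hs]
  exact Measure.isProbabilityMeasure_map (hZ.continuous hs).measurable.aemeasurable

/-- a vector from its coordinates -/
noncomputable def vec (h : Fin d → XX d → ℝ) (x : XX d) : E d := WithLp.toLp 2 fun i => h i x

theorem continuous_vec {h : Fin d → XX d → ℝ} (hh : ∀ i, Continuous (h i)) :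
    Continuous (vec h) := by
  unfold vec
  fun_prop

theorem contDiff_iter {Φ : ℝ × E d → ℝ} (hΦ : ContDiff ℝ ∞ Φ) (lam : ℝ) {f : XX d → ℝ}
    (hf : ContDiff ℝ ∞ f) (j : ℕ) : ContDiff ℝ ∞ ((DD Φ lam)^[j] f) := by
  induction j with
  | zero => exact hf
  | succ j ih =>
    rw [Function.iterate_succ_apply']
    exact contDiff_DD hΦ lam ih

theorem IsFlow.hasDerivAt_vec {V : E d → ℝ} {c : E d} {τ lam : ℝ}
    {Z : ℝ → E d × E d → E d × E d} (h : IsFlow V c τ lam Z) {f : Fin d → XX d → ℝ}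
    (hf : ∀ i, ContDiff ℝ ∞ (f i)) (x : E d × E d) {s : ℝ} (hs : s ∈ Icc (0 : ℝ) (1 / 4)) :
    HasDerivAt (fun r => vec f (r, Z r x))
      (vec (fun i => DD (PhiV V c τ) lam (f i)) (s, Z s x)) s := by
  have h1 : HasDerivAt (fun r => ((r, Z r x) : XX d)) (1, FF (PhiV V c τ) lam (s, Z s x)) s :=
    (hasDerivAt_id s).prodMk (h.deriv x s hs)
  have h2 : HasDerivAt (fun r => fun i => f i (r, Z r x))
      (fun i => DD (PhiV V c τ) lam (f i) (s, Z s x)) s :=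
    hasDerivAt_pi.2 fun i =>
      (((hf i).differentiable (by simp) _).hasFDerivAt).comp_hasDerivAt s h1
  exact ((EuclideanSpace.equiv (Fin d) ℝ).symm.hasFDerivAt).comp_hasDerivAt s h2

theorem lintegral_enorm_le_sqrt {α : Type} [MeasurableSpace α] (ν : Measure α)
    [IsProbabilityMeasure ν] {v : α → E d} (hv : Measurable v) {B : ℝ} (hB : 0 ≤ B)
    (h : ∫⁻ q, ENNReal.ofReal (∑ i, v q i ^ 2) ∂ν ≤ ENNReal.ofReal B) :
    ∫⁻ q, ‖v q‖ₑ ∂ν ≤ ENNReal.ofReal √B := by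
  have h1 := ENNReal.lintegral_mul_le_Lp_mul_Lq ν Real.HolderConjugate.two_two
    (f := fun q => ‖v q‖ₑ) (g := fun _ => 1) hv.enorm.aemeasurable aemeasurable_const
  have h2 : ∀ q, ‖v q‖ₑ ^ (2 : ℝ) = ENNReal.ofReal (∑ i, v q i ^ 2) := by
    intro q
    rw [← EuclideanSpace.real_norm_sq_eq, ← ofReal_norm,
      ENNReal.ofReal_rpow_of_nonneg (norm_nonneg _) (by norm_num), Real.rpow_two]
  simp only [Pi.mul_apply, mul_one, h2, ENNReal.one_rpow, lintegral_const, measure_univ] at h1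
  refine h1.trans ?_
  rw [Real.sqrt_eq_rpow, ← ENNReal.ofReal_rpow_of_nonneg hB (by norm_num)]
  exact ENNReal.rpow_le_rpow h (by norm_num)

theorem lintegral_nuS_le {V : E d → ℝ} (hV : IsPotential V) (c : E d) {τ s : ℝ} (hτ : 0 < τ)
    (hτ' : τ ≤ 1 / 8) (hs : s ∈ Icc (0 : ℝ) (1 / 4)) {f : E d × E d → ℝ≥0∞} {B : ℝ≥0∞}
    (h : ∫⁻ q, f q ∂(muS (PhiV V c τ) s) ≤ B * muS (PhiV V c τ) s univ) :
    ∫⁻ q, f q ∂(nuS V c τ s) ≤ B := by
  have h1 := (nuS_prob hV c hτ hτ' hs).measure_univ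
  rw [nuS_eq hV c hτ hs] at h1 ⊢
  rw [lintegral_smul_measure, smul_eq_mul]
  rw [Measure.smul_apply, smul_eq_mul] at h1
  calc _ ≤ _ := mul_le_mul_right h _
    _ = B := by rw [mul_left_comm, h1, mul_one]

/-- expectation of the integrated norm along the flow -/
theorem IsFlow.lintegral_integral_le {V : E d → ℝ} {c : E d} {τ lam : ℝ}
    {Z : ℝ → E d × E d → E d × E d} (h : IsFlow V c τ lam Z) {H : XX d → E d}
    (hH : Continuous H) {β B : ℝ} (hβ : 0 < β) (hβ' : β ≤ 1 / 4)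
    (hB : ∀ s ∈ Icc (0 : ℝ) (1 / 4), ∫⁻ q, ‖H (s, q)‖ₑ ∂(nuS V c τ s) ≤ ENNReal.ofReal B) :
    ∃ g : E d × E d → ℝ≥0∞, Measurable g ∧
      (∀ x, ENNReal.ofReal (∫ u in (0 : ℝ)..β, ‖H (u, Z u x)‖) ≤ g x) ∧
      ∫⁻ x, g x ∂((gam d).prod (gam d)) ≤ ENNReal.ofReal (β * B) := by
  let cl : ℝ → ℝ := fun u => max 0 (min u (1 / 4))
  have hcl : ∀ u, cl u ∈ Icc (0 : ℝ) (1 / 4) := fun u =>
    ⟨le_max_left _ _, max_le (by norm_num) (min_le_right _ _)⟩
  have hcl' : ∀ u ∈ Ioc (0 : ℝ) β, cl u = u := fun u hu => by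
    simp only [cl]
    rw [min_eq_left (hu.2.trans hβ'), max_eq_right hu.1.le]
  have hc : Continuous fun p : (E d × E d) × ℝ => Z (cl p.2) p.1 :=
    h.cont.comp_continuous (f := fun p : (E d × E d) × ℝ => (cl p.2, p.1)) (by fun_prop)
      fun p => ⟨hcl _, trivial⟩
  have hm : Measurable fun p : (E d × E d) × ℝ => ‖H (cl p.2, Z (cl p.2) p.1)‖ₑ :=
    (hH.comp (Continuous.prodMk (by fun_prop) hc)).measurable.enorm
  refine ⟨fun x => ∫⁻ u in Ioc (0 : ℝ) β, ‖H (cl u, Z (cl u) x)‖ₑ, hm.lintegral_prod_right',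
    fun x => ?_, ?_⟩
  · rw [intervalIntegral.integral_of_le hβ.le]
    refine (Real.ofReal_le_enorm _).trans ((enorm_integral_le_lintegral_enorm _).trans ?_)
    refine le_of_eq (setLIntegral_congr_fun measurableSet_Ioc fun u hu => ?_)
    simp only [hcl' u hu, enorm_norm]
  · rw [lintegral_lintegral_swap hm.aemeasurable]
    have h1 : ∀ u, ∫⁻ x, ‖H (cl u, Z (cl u) x)‖ₑ ∂((gam d).prod (gam d)) ≤ ENNReal.ofReal B := by
      intro u
      have h2 := hB _ (hcl u)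
      have h3 : Measurable fun q : E d × E d => ‖H (cl u, q)‖ₑ :=
        (hH.comp (Continuous.prodMk_right _)).measurable.enorm
      rw [← h.law _ (hcl u), lintegral_map h3 (h.continuous (hcl u)).measurable] at h2
      exact h2
    refine (lintegral_mono h1).trans (le_of_eq ?_)
    rw [lintegral_const, Measure.restrict_apply_univ, Real.volume_Ioc, sub_zero, mul_comm,
      ENNReal.ofReal_mul hβ.le]

end Vale.Agent.P347
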