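import Vale.Agent.P347.Flow1

open MeasureTheory ProbabilityTheory Filter Set
open scoped ENNReal ContDiff RealInnerProductSpace

namespace Vale.Agent.P347

variable {d : ℕ}

section Coord

variable {V : E d → ℝ} (hV : IsPotential V) (c : E d) {τ : ℝ} (hτ : 0 < τ)
include hV hτ

theorem vec_Gx {s : ℝ} (hs : s ∈ Icc (0 : ℝ) (1 / 4)) (q : E d × E d) :
    vec (Gx (PhiV V c τ)) (s, q) = √τ • mm V (τ * (1 - s ^ 2)) (c + (√τ * s) • q.1) := by
  ext i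
  simp only [vec, Gx, lift, hV.conv.Dz_PhiOf_scale c hτ, uu_eq' hs, smul_smul, PiLp.smul_apply,
    smul_eq_mul]

theorem sum_Kx {s : ℝ} (hs : s ∈ Icc (0 : ℝ) (1 / 4)) (q : E d × E d) (v : E d) (i : Fin d) :
    ∑ j, Kx (PhiV V c τ) i j (s, q) * v j
      = τ * KK V (τ * (1 - s ^ 2)) (c + (√τ * s) • q.1) v i := by
  have h1 : v = ∑ j, v j • ee j := by
    ext k
    simp [Pi.single_apply]
  have h2 : ∀ j, Kx (PhiV V c τ) i j (s, q)
      = τ * KK V (τ * (1 - s ^ 2)) (c + (√τ * s) • q.1) (ee j) i := by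
    intro j
    rw [Kx_symm (hV.conv.scale c hτ).contDiff_PhiOf]
    simp only [Kx, lift, hV.conv.Dz_Dz_PhiOf_scale c hτ, uu_eq' hs, smul_smul]
  conv_rhs => rw [h1]
  simp only [h2, map_sum, map_smul, WithLp.ofLp_sum, Finset.sum_apply, PiLp.smul_apply,
    smul_eq_mul, Finset.mul_sum]
  exact Finset.sum_congr rfl fun j _ => by ring

theorem vec_Px {s : ℝ} (hs : s ∈ Icc (0 : ℝ) (1 / 4)) (q : E d × E d) :
    vec (Px (PhiV V c τ)) (s, q) = τ • KK V (τ * (1 - s ^ 2)) (c + (√τ * s) • q.1) q.2 := by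
  ext i
  exact sum_Kx hV c hτ hs q q.2 i

theorem vec_Qx {s : ℝ} (hs : s ∈ Icc (0 : ℝ) (1 / 4)) (q : E d × E d) :
    vec (Qx (PhiV V c τ)) (s, q) = τ ^ 2 • KK V (τ * (1 - s ^ 2)) (c + (√τ * s) • q.1)
      (KK V (τ * (1 - s ^ 2)) (c + (√τ * s) • q.1) q.2) := by
  ext i
  have h := sum_Kx hV c hτ hs q (vec (Px (PhiV V c τ)) (s, q)) i
  rw [vec_Px hV c hτ hs, map_smul] at h
  refine Eq.trans ?_ (h.trans ?_)
  · rw [← vec_Px hV c hτ hs]
    rfl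
  · simp only [PiLp.smul_apply, smul_eq_mul]
    ring

end Coord

theorem Fy_eq (Φ : ℝ × E d → ℝ) (lam : ℝ) {s : ℝ} (hs : s ∈ Icc (0 : ℝ) (1 / 4))
    (q : E d × E d) :
    (FF Φ lam (s, q)).1 = -vec (Gx Φ) (s, q) - lam • vec (Px Φ) (s, q) := by
  ext i
  simp [FF, Fy, vec, deriv_uu_eq' hs]

theorem Pkg.Fe_eq {C : ℕ → ℝ} {ε : ℝ} {Φ : ℝ × E d → ℝ} (h : Pkg C ε Φ) (lam : ℝ) {s : ℝ}
    (hs : s ∈ Icc (0 : ℝ) (1 / 4)) (q : E d × E d) :
    (FF Φ lam (s, q)).2 - lam • vec (fun i => DD Φ lam (Gx Φ i)) (s, q)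
      = lam ^ 2 • s • vec (Qx Φ) (s, q) := by
  ext i
  simp only [FF, Fe, vec, h.DD_Gx, deriv_uu_eq' hs, uu_eq' hs, PiLp.sub_apply, PiLp.smul_apply,
    smul_eq_mul]
  ring

theorem lintegral_vec_le {V : E d → ℝ} (hV : IsPotential V) (c : E d) {τ s : ℝ} (hτ : 0 < τ)
    (hτ' : τ ≤ 1 / 8) (hs : s ∈ Icc (0 : ℝ) (1 / 4)) (f : Fin d → XX d → ℝ)
    (hf : ∀ i, Continuous (f i)) {B : ℝ} (hB : 0 ≤ B)
    (h : ∫⁻ q, ENNReal.ofReal (∑ i, f i (s, q) ^ 2) ∂(muS (PhiV V c τ) s)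
      ≤ ENNReal.ofReal B * muS (PhiV V c τ) s univ) :
    ∫⁻ q, ‖vec f (s, q)‖ₑ ∂(nuS V c τ s) ≤ ENNReal.ofReal √B := by
  have := nuS_prob hV c hτ hτ' hs
  have hm : Measurable fun q : E d × E d => vec f (s, q) :=
    ((continuous_vec hf).comp (Continuous.prodMk_right _)).measurable
  exact lintegral_enorm_le_sqrt _ hm hB (lintegral_nuS_le hV c hτ hτ' hs h)

theorem exists_moments (j : ℕ) : ∃ M : ℝ, 0 ≤ M ∧ ∀ (d : ℕ) (V : E d → ℝ), IsPotential V →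
    ∀ (c : E d) (τ lam s : ℝ), 0 < τ → τ ≤ 1 / 8 → |lam| * τ ≤ 1 → s ∈ Icc (0 : ℝ) (1 / 4) →
      ∫⁻ q, ‖vec (fun i => (DD (PhiV V c τ) lam)^[j + 1] (Gx (PhiV V c τ) i)) (s, q)‖ₑ
        ∂(nuS V c τ s) ≤ ENNReal.ofReal (M * τ * √(d : ℝ)) ∧
      ∫⁻ q, ‖vec (fun i => (DD (PhiV V c τ) lam)^[j + 1] (Px (PhiV V c τ) i)) (s, q)‖ₑ
        ∂(nuS V c τ s) ≤ ENNReal.ofReal (M * τ * √(d : ℝ)) ∧
      ∫⁻ q, ‖vec (fun i => (DD (PhiV V c τ) lam)^[j + 1] (Qx (PhiV V c τ) i)) (s, q)‖ₑ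
        ∂(nuS V c τ s) ≤ ENNReal.ofReal (M * τ ^ 2 * √(d : ℝ)) ∧
      ∫⁻ q, ‖q.1 + s • vec (Gx (PhiV V c τ)) (s, q)‖ₑ ∂(nuS V c τ s)
        ≤ ENNReal.ofReal (M * √(d : ℝ)) := by
  obtain ⟨C, hC0, hC⟩ := exists_pkg
  obtain ⟨C1, hC1, h1⟩ := sobolev C hC0 j
  obtain ⟨C2, hC2, h2⟩ := sobolev C hC0 (j + 1)
  refine ⟨4 * (√C1 + √C2), by positivity, fun d V hV c τ lam s hτ hτ' hl hs => ?_⟩
  have hP : Pkg C (2 * τ) (PhiV V c τ) :=
    hC d _ _ (by positivity) (by linarith) (hV.conv.scale c hτ)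
  have hs' : |s| ≤ 1 / 2 := abs_le.2 ⟨by linarith [hs.1], by linarith [hs.2]⟩
  have h3 := h1 d (2 * τ) lam s _ hP (by positivity) (by linarith) (by linarith) hs'
  have h4 := h2 d (2 * τ) lam s _ hP (by positivity) (by linarith) (by linarith) hs'
  have p1 := Real.sqrt_nonneg C1
  have p2 := Real.sqrt_nonneg C2
  have p3 := Real.sqrt_nonneg (d : ℝ)
  refine ⟨?_, ?_, ?_, ?_⟩
  · refine (lintegral_vec_le hV c hτ hτ' hs
      (fun i => (DD (PhiV V c τ) lam)^[j + 1] (Gx (PhiV V c τ) i))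
      (fun i => (contDiff_iter hP.smooth lam (contDiff_Gx hP.smooth i) _).continuous)
      (by positivity) h3.1).trans (ENNReal.ofReal_le_ofReal ?_)
    rw [Real.sqrt_mul (by positivity), Real.sqrt_mul hC1, Real.sqrt_sq (by positivity)]
    refine mul_le_mul_of_nonneg_right ?_ p3
    nlinarith [mul_nonneg p1 hτ.le, mul_nonneg p2 hτ.le]
  · refine (lintegral_vec_le hV c hτ hτ' hs
      (fun i => (DD (PhiV V c τ) lam)^[j + 1] (Px (PhiV V c τ) i))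
      (fun i => (contDiff_iter hP.smooth lam (contDiff_Px hP.smooth i) _).continuous)
      (by positivity) h4.2.1).trans (ENNReal.ofReal_le_ofReal ?_)
    rw [Real.sqrt_mul (by positivity), Real.sqrt_mul hC2, Real.sqrt_sq (by positivity)]
    refine mul_le_mul_of_nonneg_right ?_ p3
    nlinarith [mul_nonneg p1 hτ.le, mul_nonneg p2 hτ.le]
  · refine (lintegral_vec_le hV c hτ hτ' hs
      (fun i => (DD (PhiV V c τ) lam)^[j + 1] (Qx (PhiV V c τ) i))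
      (fun i => (contDiff_iter hP.smooth lam (contDiff_Qx hP.smooth i) _).continuous)
      (by positivity) h4.2.2.1).trans (ENNReal.ofReal_le_ofReal ?_)
    rw [Real.sqrt_mul (by positivity), Real.sqrt_mul hC2,
      show (2 * τ) ^ 4 = (4 * τ ^ 2) ^ 2 by ring, Real.sqrt_sq (by positivity)]
    refine mul_le_mul_of_nonneg_right ?_ p3
    nlinarith [mul_nonneg p1 (sq_nonneg τ), mul_nonneg p2 (sq_nonneg τ)]
  · have h5 := h3.2.2.2
    rw [uu_eq' hs] at h5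
    have h6 := lintegral_vec_le hV c hτ hτ' hs (fun i x => x.2.1 i + s * Gx (PhiV V c τ) i x)
      (fun i => Continuous.add (by fun_prop)
        (continuous_const.mul (contDiff_Gx hP.smooth i).continuous)) (by positivity) h5
    refine h6.trans (ENNReal.ofReal_le_ofReal ?_)
    rw [Real.sqrt_mul hC1]
    gcongr
    linarith

/-- interpolation errors of a smooth vector observable along the flow -/
theorem IsFlow.err {V : E d → ℝ} (hV : IsPotential V) {c : E d} {τ lam : ℝ} (hτ : 0 < τ)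
    {Z : ℝ → E d × E d → E d × E d} (h : IsFlow V c τ lam Z)
    {n : ℕ} (hn : 2 ≤ n) {Cw : ℝ} {w w' : Fin (n + 1) → Fin (n + 1) → ℝ}
    {d1 d2 : Fin (n + 1) → ℝ} (hw : Weights n Cw w w' d1 d2) {β B : ℝ} (hβ : 0 < β)
    (hβ' : β ≤ 1 / 4) {f : Fin d → XX d → ℝ} (hf : ∀ i, ContDiff ℝ ∞ (f i))
    (hB : ∀ s ∈ Icc (0 : ℝ) (1 / 4),
      ∫⁻ q, ‖vec (fun i => (DD (PhiV V c τ) lam)^[n + 1] (f i)) (s, q)‖ₑ ∂(nuS V c τ s)
        ≤ ENNReal.ofReal B) :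
    ∃ (I : E d × E d → ℝ) (g : E d × E d → ℝ≥0∞), Measurable g ∧ (∀ x, 0 ≤ I x) ∧
      (∀ x, ENNReal.ofReal (I x) ≤ g x) ∧
      ∫⁻ x, g x ∂((gam d).prod (gam d)) ≤ ENNReal.ofReal (β * B) ∧ ∀ x,
      (∀ i, ‖(∫ u in (0 : ℝ)..nod n β i, vec f (u, Z u x))
          - ∑ l, (β * w i l) • vec f (nod n β l, Z (nod n β l) x)‖
        ≤ (Cw + 1) * β * (β ^ n * I x)) ∧
      (∀ i, ‖(∫ u in (0 : ℝ)..nod n β i, u • vec f (u, Z u x))
          - ∑ l, (β ^ 2 * w' i l) • vec f (nod n β l, Z (nod n β l) x)‖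
        ≤ (Cw + 1) * β ^ 2 * (β ^ n * I x)) ∧
      ‖β • vec (fun i => DD (PhiV V c τ) lam (f i)) (0, x)
          - ∑ l, d1 l • vec f (nod n β l, Z (nod n β l) x)‖ ≤ Cw * (β ^ n * I x) ∧
      ‖β ^ 2 • vec (fun i => DD (PhiV V c τ) lam (DD (PhiV V c τ) lam (f i))) (0, x)
          - ∑ l, d2 l • vec f (nod n β l, Z (nod n β l) x)‖ ≤ Cw * (β ^ n * I x) := by
  have hΦ : ContDiff ℝ ∞ (PhiV V c τ) := (hV.conv.scale c hτ).contDiff_PhiOf
  have hsub : Icc (0 : ℝ) β ⊆ Icc (0 : ℝ) (1 / 4) := Icc_subset_Icc le_rfl hβ'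
  obtain ⟨g, hg, h1, h2⟩ := h.lintegral_integral_le
    (continuous_vec fun i => (contDiff_iter hΦ lam (hf i) (n + 1)).continuous) hβ hβ' hB
  refine ⟨_, g, hg, fun x => intervalIntegral.integral_nonneg hβ.le fun _ _ => norm_nonneg _,
    h1, h2, fun x => ?_⟩
  have hd : ∀ j, ∀ u ∈ Icc (0 : ℝ) β,
      HasDerivAt (fun u => vec (fun i => (DD (PhiV V c τ) lam)^[j] (f i)) (u, Z u x))
        (vec (fun i => (DD (PhiV V c τ) lam)^[j + 1] (f i)) (u, Z u x)) u := by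
    intro j u hu
    simp only [Function.iterate_succ_apply']
    exact h.hasDerivAt_vec (fun i => contDiff_iter hΦ lam (hf i) j) x (hsub hu)
  have h3 := hw.err hn hβ (fun j u => vec (fun i => (DD (PhiV V c τ) lam)^[j] (f i)) (u, Z u x))
    (fun j _ => hd j) fun u hu => (hd (n + 1) u hu).continuousAt.continuousWithinAt
  rw [h.init] at h3
  exact h3

theorem lintegral_le_of_bound {α : Type} [MeasurableSpace α] {μ : Measure α} {e : α → E d}
    {I : α → ℝ} {g : α → ℝ≥0∞} {K B : ℝ} (hK : 0 ≤ K) (hg : Measurable g)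
    (h1 : ∀ x, ENNReal.ofReal (I x) ≤ g x) (h2 : ∫⁻ x, g x ∂μ ≤ ENNReal.ofReal B)
    (he : ∀ x, ‖e x‖ ≤ K * I x) : ∫⁻ x, ‖e x‖ₑ ∂μ ≤ ENNReal.ofReal (K * B) := by
  have h3 : ∀ x, ‖e x‖ₑ ≤ ENNReal.ofReal K * g x := fun x => by
    rw [← ofReal_norm]
    refine (ENNReal.ofReal_le_ofReal (he x)).trans ?_
    rw [ENNReal.ofReal_mul hK]
    exact mul_le_mul_right (h1 x) _
  refine (lintegral_mono h3).trans ?_
  rw [lintegral_const_mul _ hg, ENNReal.ofReal_mul hK]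
  exact mul_le_mul_right h2 _

/-- the contraction estimate for the difference of two flows -/
theorem ode_contract {F : Type} [NormedAddCommGroup F] [NormedSpace ℝ F] {t β : ℝ} (ht : 0 < t)
    (ht' : t ^ 2 ≤ 1 / 8) (hβ : 0 < β) (hβ' : β ≤ 1 / 4) (D : F) (Δ Δ' : ℝ → F) (h0 : Δ 0 = 0)
    (hd : ∀ u ∈ Icc 0 β, HasDerivAt Δ (Δ' u) u)
    (hb : ∀ u ∈ Icc 0 β, ‖Δ' u + (t * (5 / 4)) • (D + (t * u) • Δ u)‖
      ≤ t * (3 / 4 * ‖D + (t * u) • Δ u‖)) :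
    ‖D + (t * β) • Δ β‖ ≤ (1 - t ^ 2 * β ^ 2 / 4) * ‖D‖ := by
  have hc : ContinuousOn Δ (Icc 0 β) := fun u hu => (hd u hu).continuousAt.continuousWithinAt
  obtain ⟨u0, hu0, hmax⟩ := isCompact_Icc.exists_isMaxOn (nonempty_Icc.2 hβ.le) hc.norm
  set m := ‖Δ u0‖ with hm
  have hm0 : 0 ≤ m := norm_nonneg _
  have hD := norm_nonneg D
  have hle : ∀ u ∈ Icc 0 β, ‖(t * u) • Δ u‖ ≤ t * β * m := fun u hu => by
    rw [norm_smul, Real.norm_eq_abs, abs_of_nonneg (mul_nonneg ht.le hu.1)]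
    exact mul_le_mul (mul_le_mul_of_nonneg_left hu.2 ht.le) (hmax hu) (norm_nonneg _)
      (by positivity)
  have hle2 : ∀ u ∈ Icc 0 β, ‖D + (t * u) • Δ u‖ ≤ ‖D‖ + t * β * m := fun u hu =>
    (norm_add_le _ _).trans (by linarith [hle u hu])
  have htb : t ^ 2 * β ^ 2 ≤ 1 / 128 := by
    have : β ^ 2 ≤ 1 / 16 := by nlinarith
    nlinarith [sq_nonneg t, sq_nonneg β]
  have h1 : ∀ u ∈ Ico 0 β, ‖Δ' u‖ ≤ 2 * t * (‖D‖ + t * β * m) := fun u hu => by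
    have hu' := Ico_subset_Icc_self hu
    have h2 := norm_sub_le (Δ' u + (t * (5 / 4)) • (D + (t * u) • Δ u))
      ((t * (5 / 4)) • (D + (t * u) • Δ u))
    rw [add_sub_cancel_right, norm_smul, Real.norm_eq_abs, abs_of_pos (by positivity)] at h2
    have h3 := hb u hu'
    have h4 := mul_le_mul_of_nonneg_left (hle2 u hu') ht.le
    linarith
  have h2 := norm_image_sub_le_of_norm_deriv_le_segment'
    (fun u hu => (hd u hu).hasDerivWithinAt) h1 u0 hu0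
  rw [h0, sub_zero, sub_zero, ← hm] at h2
  have h3 : m ≤ 2 * t * (‖D‖ + t * β * m) * β :=
    h2.trans (mul_le_mul_of_nonneg_left hu0.2 (by positivity))
  have h4 : m ≤ 4 * t * β * ‖D‖ := by
    have : t ^ 2 * β ^ 2 * m ≤ 1 / 128 * m := mul_le_mul_of_nonneg_right htb hm0
    have h5 : 0 ≤ t * β * ‖D‖ := by positivity
    nlinarith
  have h5 := norm_image_sub_le_of_norm_deriv_le_segment'
    (f := fun u => Δ u + u • (t * (5 / 4)) • D) (f' := fun u => Δ' u + (t * (5 / 4)) • D)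
    (C := t * (3 / 4 * ‖D‖ + 2 * (t * β * m)))
    (fun u hu => by
      have := (hd u hu).add ((hasDerivAt_id u).smul_const ((t * (5 / 4)) • D))
      rw [one_smul] at this
      exact this.hasDerivWithinAt)
    (fun u hu => by
      have hu' := Ico_subset_Icc_self hu
      have e : Δ' u + (t * (5 / 4)) • D = (Δ' u + (t * (5 / 4)) • (D + (t * u) • Δ u))
          - (t * (5 / 4)) • (t * u) • Δ u := by
        rw [smul_add]
        abel
      rw [e]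
      refine (norm_sub_le _ _).trans ?_
      rw [norm_smul (t * (5 / 4)), Real.norm_eq_abs, abs_of_pos (by positivity)]
      have h6 := hb u hu'
      have h7 := mul_le_mul_of_nonneg_left (hle2 u hu') ht.le
      have h8 := mul_le_mul_of_nonneg_left (hle u hu') ht.le
      linarith) β ⟨hβ.le, le_rfl⟩
  simp only [h0, zero_smul, add_zero, sub_zero] at h5
  have e : D + (t * β) • Δ β = (1 - 5 / 4 * (t ^ 2 * β ^ 2)) • D
      + (t * β) • (Δ β + β • (t * (5 / 4)) • D) := by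
    module
  rw [e]
  refine (norm_add_le _ _).trans ?_
  rw [norm_smul, norm_smul, Real.norm_eq_abs, Real.norm_eq_abs, abs_of_pos (by linarith),
    abs_of_pos (by positivity)]
  have h6 := mul_le_mul_of_nonneg_left h5 (by positivity : 0 ≤ t * β)
  have h7 : t * β * m ≤ 1 / 32 * ‖D‖ := by
    have h8 := mul_le_mul_of_nonneg_left h4 (by positivity : 0 ≤ t * β)
    have h9 := mul_le_mul_of_nonneg_right htb hD
    nlinarith
  have h8 := mul_le_mul_of_nonneg_left h7 (by positivity : 0 ≤ t ^ 2 * β ^ 2)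
  have h9 : 0 ≤ t ^ 2 * β ^ 2 * ‖D‖ := by positivity
  nlinarith

end Vale.Agent.P347
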