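import Vale.Agent.P347.Base
import Vale.Agent.P226.Density
import Vale.Agent.P226.Gauss

open MeasureTheory ProbabilityTheory Filter Set
open scoped ENNReal ContDiff RealInnerProductSpace

namespace Vale.Agent.P347

variable {d : ℕ}

instance Nm_prob (c : E d) (s : ℝ) : IsProbabilityMeasure (Nm c s) :=
  Measure.isProbabilityMeasure_map (by fun_prop)

theorem Nm_zero (c : E d) : Nm c 0 = Measure.dirac c := by
  simp [Nm]

theorem charFun_Nm (c : E d) (s : ℝ) (t : E d) :
    charFun (Nm c s) t =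
      Complex.exp (((-(s ^ 2 * ‖t‖ ^ 2) / 2 : ℝ) : ℂ) + ((⟪c, t⟫ : ℝ) : ℂ) * Complex.I) := by
  have h : Nm c s = ((gam d).map (s • ·)).map (c + ·) := by
    rw [Measure.map_map (by fun_prop) (by fun_prop)]; rfl
  rw [h, charFun_map_const_add, charFun_map_smul, charFun_stdGaussian, ← Complex.exp_add,
    norm_smul, ← Complex.ofReal_pow, mul_pow, Real.norm_eq_abs, sq_abs]
  push_cast
  rfl

theorem Nm_congr_sq (c : E d) {s t : ℝ} (h : s ^ 2 = t ^ 2) : Nm c s = Nm c t := by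
  apply Measure.ext_of_charFun
  ext x
  rw [charFun_Nm, charFun_Nm, h]

theorem gam_eq_withDensity (d : ℕ) : gam d = (volume : Measure (E d)).withDensity fun x =>
    ENNReal.ofReal ((2 * Real.pi) ^ (-(d : ℝ) / 2) * Real.exp (-‖x‖ ^ 2 / 2)) :=
  Vale.Agent.P226.stdGaussian_eq_withDensity d

theorem integral_norm_sq_gam (d : ℕ) : ∫ x, ‖x‖ ^ 2 ∂(gam d) = d := by
  have h1 : ∀ i : Fin d, ∫ x, ⟪x, ee i⟫ ^ 2 ∂(gam d) = 1 := by
    intro i
    have := Vale.Agent.P226.integral_comp_inner (ee i) (f := fun t => t ^ 2) (by fun_prop)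
    rw [this]
    have h2 := variance_id_gaussianReal (μ := 0) (v := 1)
    rw [variance_eq_integral measurable_id.aemeasurable] at h2
    simpa [Vale.Agent.P226.g1] using h2
  have h2 : ∀ x : E d, ‖x‖ ^ 2 = ∑ i, ⟪x, ee i⟫ ^ 2 := by
    intro x
    rw [EuclideanSpace.real_norm_sq_eq]
    simp [EuclideanSpace.inner_single_right]
  simp_rw [h2]
  rw [integral_finsetSum]
  · simp only [h1]; simp
  · intro i _
    have : MemLp (fun x : E d => ⟪x, ee i⟫) 2 (gam d) :=
      (IsGaussian.memLp_two_id (μ := gam d)).inner_const (ee i)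
    exact this.integrable_sq

theorem integral_norm_gam (d : ℕ) : ∫ x, ‖x‖ ∂(gam d) ≤ √(d : ℝ) := by
  apply Real.le_sqrt_of_sq_le
  have hm : MemLp (fun x : E d => ‖x‖) 2 (gam d) := (IsGaussian.memLp_two_id (μ := gam d)).norm
  have h1 := variance_nonneg (fun x : E d => ‖x‖) (gam d)
  rw [variance_eq_sub hm] at h1
  have h2 := integral_norm_sq_gam d
  simp only [Pi.pow_apply] at h1
  linarith

theorem lintegral_enorm_gam (d : ℕ) : ∫⁻ x, ‖x‖ₑ ∂(gam d) ≤ ENNReal.ofReal √(d : ℝ) := by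
  rw [← ofReal_integral_norm_eq_lintegral_enorm Vale.Agent.P226.integrable_id_gam]
  exact ENNReal.ofReal_le_ofReal (integral_norm_gam d)

/-- sums of independent Gaussian vectors -/
theorem map_sum_pi_Nm {κ : Type} [Fintype κ] (c σ : κ → ℝ) (v : κ → E d) (s t : ℝ)
    (ht : t ^ 2 = ∑ k, c k ^ 2 * σ k ^ 2 + s ^ 2) :
    ((Measure.pi fun k => Nm (v k) (σ k)).prod (gam d)).map
      (fun x => ∑ k, c k • x.1 k + s • x.2) = Nm (∑ k, c k • v k) t := by
  have hm : Measurable fun x : (κ → E d) × E d => ∑ k, c k • x.1 k + s • x.2 := by fun_prop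
  apply Measure.ext_of_charFun
  ext y
  rw [charFun_apply, integral_map hm.aemeasurable (by fun_prop)]
  have h1 : ∀ x : (κ → E d) × E d,
      Complex.exp (((⟪∑ k, c k • x.1 k + s • x.2, y⟫ : ℝ) : ℂ) * Complex.I) =
        (∏ k, Complex.exp (((⟪x.1 k, c k • y⟫ : ℝ) : ℂ) * Complex.I)) *
          Complex.exp (((⟪x.2, s • y⟫ : ℝ) : ℂ) * Complex.I) := by
    intro x
    rw [← Complex.exp_sum, ← Complex.exp_add, inner_add_left, sum_inner]
    simp only [real_inner_smul_left, real_inner_smul_right]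
    push_cast
    rw [add_mul, Finset.sum_mul]
  simp_rw [h1]
  rw [integral_prod_mul (fun x : κ → E d =>
      ∏ k, Complex.exp (((⟪x k, c k • y⟫ : ℝ) : ℂ) * Complex.I))
      (fun x : E d => Complex.exp (((⟪x, s • y⟫ : ℝ) : ℂ) * Complex.I)),
    integral_fintype_prod_eq_prod
      (f := fun k (x : E d) => Complex.exp (((⟪x, c k • y⟫ : ℝ) : ℂ) * Complex.I))]
  simp_rw [← charFun_apply, charFun_Nm, charFun_stdGaussian]
  rw [← Complex.exp_sum, ← Complex.exp_add, ht, sum_inner, ← Complex.ofReal_pow]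
  congr 1
  simp only [real_inner_smul_left, real_inner_smul_right, norm_smul, mul_pow, Real.norm_eq_abs,
    sq_abs, Finset.sum_add_distrib]
  push_cast
  rw [add_mul, Finset.sum_mul, Finset.sum_mul, neg_add, add_div, ← Finset.sum_neg_distrib,
    Finset.sum_div, add_right_comm]
  congr 2
  exact Finset.sum_congr rfl fun k _ => by ring

theorem map_add_Nm (c : E d) (s r t : ℝ) (ht : t ^ 2 = s ^ 2 + r ^ 2) :
    ((Nm c s).prod (gam d)).map (fun x => x.1 + r • x.2) = Nm c t := by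
  have hm : Measurable fun x : E d × E d => x.1 + r • x.2 := by fun_prop
  apply Measure.ext_of_charFun
  ext y
  rw [charFun_apply, integral_map hm.aemeasurable (by fun_prop)]
  have h1 : ∀ x : E d × E d,
      Complex.exp (((⟪x.1 + r • x.2, y⟫ : ℝ) : ℂ) * Complex.I) =
        Complex.exp (((⟪x.1, y⟫ : ℝ) : ℂ) * Complex.I) *
          Complex.exp (((⟪x.2, r • y⟫ : ℝ) : ℂ) * Complex.I) := by
    intro x
    rw [← Complex.exp_add, inner_add_left]
    simp only [real_inner_smul_left, real_inner_smul_right]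
    push_cast
    rw [add_mul]
  simp_rw [h1]
  rw [integral_prod_mul (fun x : E d => Complex.exp (((⟪x, y⟫ : ℝ) : ℂ) * Complex.I))
      (fun x : E d => Complex.exp (((⟪x, r • y⟫ : ℝ) : ℂ) * Complex.I))]
  simp_rw [← charFun_apply, charFun_Nm, charFun_stdGaussian]
  rw [← Complex.exp_add, ht, ← Complex.ofReal_pow]
  congr 1
  simp only [norm_smul, mul_pow, Real.norm_eq_abs, sq_abs]
  push_cast
  ring

theorem BL.integrable {f : E d → ℝ} (hf : BL f) (μ : Measure (E d)) [IsFiniteMeasure μ] :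
    Integrable f μ := by
  obtain ⟨h1, M, hM⟩ := hf
  exact Integrable.of_bound h1.continuous.aestronglyMeasurable M (Eventually.of_forall hM)

theorem le_Wd {f : E d → ℝ} (hf : BL f) (μ ν : Measure (E d)) :
    ENNReal.ofReal |∫ x, f x ∂μ - ∫ x, f x ∂ν| ≤ Wd μ ν :=
  le_iSup₂ (f := fun (f : E d → ℝ) (_ : BL f) => ENNReal.ofReal |∫ x, f x ∂μ - ∫ x, f x ∂ν|) f hf

theorem Wd_le {μ ν : Measure (E d)} {a : ℝ≥0∞}
    (h : ∀ f, BL f → ENNReal.ofReal |∫ x, f x ∂μ - ∫ x, f x ∂ν| ≤ a) : Wd μ ν ≤ a :=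
  iSup₂_le h

theorem BL.abs_sub_le {f : E d → ℝ} (hf : BL f) (x y : E d) : |f x - f y| ≤ ‖x - y‖ := by
  have := hf.1.dist_le_mul x y
  rwa [NNReal.coe_one, one_mul, Real.dist_eq, dist_eq_norm] at this

/-- test functions with another Lipschitz constant -/
theorem le_mul_Wd {f : E d → ℝ} {K M : ℝ} (hK : 0 ≤ K) (hf : ∀ x y, |f x - f y| ≤ K * ‖x - y‖)
    (hM : ∀ x, |f x| ≤ M) (μ ν : Measure (E d)) [IsProbabilityMeasure μ]
    [IsProbabilityMeasure ν] :
    ENNReal.ofReal |∫ x, f x ∂μ - ∫ x, f x ∂ν| ≤ ENNReal.ofReal K * Wd μ ν := by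
  rcases hK.eq_or_lt with rfl | hK0
  · have h1 : f = fun _ => f 0 := by
      ext x
      have := hf x 0
      rw [zero_mul, abs_nonpos_iff, sub_eq_zero] at this
      exact this
    rw [h1]
    simp
  · have hg : BL fun x => K⁻¹ * f x := by
      refine ⟨LipschitzWith.of_dist_le_mul fun x y => ?_, K⁻¹ * M, fun x => ?_⟩
      · rw [NNReal.coe_one, one_mul, Real.dist_eq, dist_eq_norm, ← mul_sub, abs_mul,
          abs_of_pos (inv_pos.2 hK0), inv_mul_le_iff₀ hK0]
        exact hf x y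
      · rw [abs_mul, abs_of_pos (inv_pos.2 hK0)]
        gcongr
        exact hM x
    have h1 := le_Wd hg μ ν
    rw [integral_const_mul, integral_const_mul, ← mul_sub, abs_mul,
      abs_of_pos (inv_pos.2 hK0)] at h1
    calc ENNReal.ofReal |∫ x, f x ∂μ - ∫ x, f x ∂ν|
        = ENNReal.ofReal K * ENNReal.ofReal (K⁻¹ * |∫ x, f x ∂μ - ∫ x, f x ∂ν|) := by
          rw [← ENNReal.ofReal_mul hK, ← mul_assoc, mul_inv_cancel₀ hK0.ne', one_mul]
      _ ≤ _ := by gcongr

theorem Wd_self (μ : Measure (E d)) : Wd μ μ = 0 :=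
  le_antisymm (Wd_le fun f _ => by simp) zero_le

theorem Wd_comm (μ ν : Measure (E d)) : Wd μ ν = Wd ν μ := by
  simp only [Wd, abs_sub_comm]

theorem Wd_triangle (μ ν ρ : Measure (E d)) : Wd μ ρ ≤ Wd μ ν + Wd ν ρ := by
  refine Wd_le fun f hf => le_trans ?_ (add_le_add (le_Wd hf μ ν) (le_Wd hf ν ρ))
  rw [← ENNReal.ofReal_add (abs_nonneg _) (abs_nonneg _)]
  exact ENNReal.ofReal_le_ofReal (abs_sub_le _ _ _)

theorem Wd_Nm_Nm (a b : E d) (s : ℝ) : Wd (Nm a s) (Nm b s) ≤ ‖a - b‖ₑ := by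
  refine Wd_le fun f hf => ?_
  have hc := hf.1.continuous
  have hi : ∀ c : E d, Integrable (fun ξ => f (c + s • ξ)) (gam d) := fun c => by
    obtain ⟨M, hM⟩ := hf.2
    exact Integrable.of_bound (by fun_prop) M (Eventually.of_forall fun x => hM _)
  rw [Nm, Nm, integral_map (by fun_prop) hc.aestronglyMeasurable,
    integral_map (by fun_prop) hc.aestronglyMeasurable, ← integral_sub (hi a) (hi b),
    ← ofReal_norm]
  apply ENNReal.ofReal_le_ofReal
  have := norm_integral_le_of_norm_le_const (μ := gam d)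
    (f := fun ξ => f (a + s • ξ) - f (b + s • ξ)) (C := ‖a - b‖)
    (Eventually.of_forall fun x => by
      simpa using hf.abs_sub_le (a + s • x) (b + s • x))
  simpa using this

theorem Wd_dirac_le (ν : Measure (E d)) [IsProbabilityMeasure ν] (a : E d) :
    Wd ν (Measure.dirac a) ≤ ∫⁻ x, ‖x - a‖ₑ ∂ν := by
  refine Wd_le fun f hf => ?_
  have h1 : ∫ x, f x ∂ν - ∫ x, f x ∂(Measure.dirac a) = ∫ x, (f x - f a) ∂ν := by
    rw [integral_dirac, integral_sub (hf.integrable ν) (integrable_const _)]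
    simp
  rw [h1, ← Real.norm_eq_abs, ofReal_norm]
  refine (enorm_integral_le_lintegral_enorm _).trans (lintegral_mono fun x => ?_)
  rw [← ofReal_norm, ← ofReal_norm]
  exact ENNReal.ofReal_le_ofReal (hf.abs_sub_le x a)

theorem lintegral_enorm_le_add_Wd (μ ν : Measure (E d)) [IsProbabilityMeasure μ]
    [IsProbabilityMeasure ν] : ∫⁻ x, ‖x‖ₑ ∂μ ≤ ∫⁻ x, ‖x‖ₑ ∂ν + Wd μ ν := by
  have hBL : ∀ n : ℕ, BL fun x : E d => min ‖x‖ (n : ℝ) := fun n =>
    ⟨lipschitzWith_one_norm.min_const _, n, fun x => by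
      rw [abs_of_nonneg (le_min (norm_nonneg _) n.cast_nonneg)]; exact min_le_right _ _⟩
  have h0 : ∀ (n : ℕ) (x : E d), 0 ≤ min ‖x‖ (n : ℝ) := fun n x =>
    le_min (norm_nonneg _) n.cast_nonneg
  have h1 : ∀ x : E d, ‖x‖ₑ = ⨆ n : ℕ, ENNReal.ofReal (min ‖x‖ (n : ℝ)) := by
    intro x
    rw [← ofReal_norm]
    refine le_antisymm ?_ (iSup_le fun n => ENNReal.ofReal_le_ofReal (min_le_left _ _))
    obtain ⟨n, hn⟩ := exists_nat_ge ‖x‖
    exact le_iSup_of_le n (by rw [min_eq_left hn])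
  rw [lintegral_congr (μ := μ) h1]
  rw [lintegral_iSup (f := fun (n : ℕ) (x : E d) => ENNReal.ofReal (min ‖x‖ (n : ℝ)))
    (fun n => by fun_prop) (fun m n hmn x => ENNReal.ofReal_le_ofReal
    (min_le_min le_rfl (Nat.cast_le.2 hmn)))]
  refine iSup_le fun n => ?_
  rw [← ofReal_integral_eq_lintegral_ofReal ((hBL n).integrable μ) (Eventually.of_forall (h0 n))]
  calc ENNReal.ofReal (∫ x, min ‖x‖ (n : ℝ) ∂μ)
      ≤ ENNReal.ofReal (∫ x, min ‖x‖ (n : ℝ) ∂ν +
          |∫ x, min ‖x‖ (n : ℝ) ∂μ - ∫ x, min ‖x‖ (n : ℝ) ∂ν|) := by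
        apply ENNReal.ofReal_le_ofReal
        linarith [le_abs_self (∫ x, min ‖x‖ (n : ℝ) ∂μ - ∫ x, min ‖x‖ (n : ℝ) ∂ν)]
    _ ≤ _ := by
        refine ENNReal.ofReal_add_le.trans (add_le_add ?_ (le_Wd (hBL n) μ ν))
        rw [ofReal_integral_eq_lintegral_ofReal ((hBL n).integrable ν)
          (Eventually.of_forall (h0 n))]
        refine lintegral_mono fun x => ?_
        rw [← ofReal_norm]
        exact ENNReal.ofReal_le_ofReal (min_le_left _ _)

theorem integrable_exp_inner_gam (v : E d) (c : ℝ) :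
    Integrable (fun x : E d => Real.exp (⟪x, v⟫ - c)) (gam d) := by
  have h1 : Integrable (fun t : ℝ => Real.exp t) ((gam d).map (fun x => ⟪x, v⟫)) := by
    rw [Vale.Agent.P226.map_inner, integrable_map_measure (by fun_prop) (by fun_prop)]
    exact integrable_exp_mul_gaussianReal ‖v‖
  rw [integrable_map_measure (by fun_prop) (by fun_prop)] at h1
  simp_rw [Real.exp_sub]
  exact h1.div_const _

theorem gam_sub_shift_le {A : Set (E d)} (hA : MeasurableSet A) (h : E d) :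
    (gam d).real A - (gam d).real {x | x + h ∈ A} ≤ ‖h‖ := by
  rcases le_total 1 ‖h‖ with h1 | h1
  · linarith [measureReal_le_one (μ := gam d) (s := A),
      measureReal_nonneg (μ := gam d) (s := {x | x + h ∈ A})]
  rw [Vale.Agent.P226.stdGaussian_shift d A hA]
  have h2 : ∫ x in A, (1 - ‖h‖ ^ 2 / 2 + ⟪x, h⟫) ∂(gam d) ≤
      ∫ x in A, Real.exp (⟪x, h⟫ - ‖h‖ ^ 2 / 2) ∂(gam d) :=
    integral_mono ((integrable_const _).add (Vale.Agent.P226.integrable_inner h)).integrableOn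
      (integrable_exp_inner_gam _ _).integrableOn fun x => by
        linarith [Real.add_one_le_exp (⟪x, h⟫ - ‖h‖ ^ 2 / 2)]
  rw [integral_add (integrable_const _).integrableOn
    (Vale.Agent.P226.integrable_inner h).integrableOn, ← Vale.Agent.P226.inner_mom] at h2
  simp only [integral_const, MeasurableSet.univ, measureReal_restrict_apply, univ_inter,
    smul_eq_mul] at h2
  have h3 := Vale.Agent.P226.inner_mom_le A (-h) 0
  rw [inner_neg_right, norm_neg, zero_mul, add_zero, Vale.Agent.P226.psi_zero] at h3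
  have h4 : 1 / √(2 * Real.pi) ≤ 1 / 2 := by
    apply one_div_le_one_div_of_le two_pos
    apply Real.le_sqrt_of_sq_le
    linarith [Real.pi_gt_three]
  have h5 := measureReal_le_one (μ := gam d) (s := A)
  have h6 := measureReal_nonneg (μ := gam d) (s := A)
  have h7 := norm_nonneg h
  have h8 : (gam d).real A * ‖h‖ ^ 2 ≤ ‖h‖ := by nlinarith
  have h9 : ‖h‖ * (1 / √(2 * Real.pi)) ≤ ‖h‖ * (1 / 2) := by gcongr
  linarith

theorem Nm_real_sub_le_aux (a b : E d) {s : ℝ} (hs : 0 < s) {B : Set (E d)}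
    (hB : MeasurableSet B) : (Nm a s).real B - (Nm b s).real B ≤ ‖a - b‖ / s := by
  have hA : MeasurableSet ((fun ξ : E d => a + s • ξ) ⁻¹' B) := hB.preimage (by fun_prop)
  have h1 := gam_sub_shift_le hA (s⁻¹ • (b - a))
  have h2 : {x : E d | x + s⁻¹ • (b - a) ∈ (fun ξ : E d => a + s • ξ) ⁻¹' B} =
      (fun ξ : E d => b + s • ξ) ⁻¹' B := by
    ext x
    simp only [mem_ofPred_eq, mem_preimage, smul_add, smul_smul, mul_inv_cancel₀ hs.ne', one_smul]
    rw [show a + (s • x + (b - a)) = b + s • x by abel]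
  rw [h2, norm_smul, norm_inv, Real.norm_eq_abs, abs_of_pos hs, norm_sub_rev,
    inv_mul_eq_div] at h1
  rw [Nm, Nm, map_measureReal_apply (by fun_prop) hB, map_measureReal_apply (by fun_prop) hB]
  exact h1

/-- total variation smoothing by a Gaussian -/
theorem Nm_real_sub_le (a b : E d) {s : ℝ} (hs : 0 < s) {B : Set (E d)} (hB : MeasurableSet B) :
    |(Nm a s).real B - (Nm b s).real B| ≤ √(d : ℝ) / s * ‖a - b‖ := by
  have h1 : ‖a - b‖ / s ≤ √(d : ℝ) / s * ‖a - b‖ := by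
    rcases Nat.eq_zero_or_pos d with rfl | hd
    · rw [Subsingleton.elim a b]; simp
    · have h2 : 1 ≤ √(d : ℝ) := Real.one_le_sqrt.2 (by exact_mod_cast hd)
      rw [div_mul_eq_mul_div]
      gcongr
      nlinarith [norm_nonneg (a - b)]
  have h2 := Nm_real_sub_le_aux a b hs hB
  have h3 := Nm_real_sub_le_aux b a hs hB
  rw [norm_sub_rev] at h3
  rw [abs_le]
  constructor <;> linarith

end Vale.Agent.P347
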