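import Vale.Agent.P347.Heat3

open MeasureTheory ProbabilityTheory Filter Set
open scoped ENNReal ContDiff RealInnerProductSpace

namespace Vale.Agent.P347

variable {d : ℕ}

open Heat

section

variable {ε : ℝ} {W : E d → ℝ} {t : ℝ}

theorem inner_ee_h (x : E d) (i : Fin d) : ⟪x, ee i⟫ = x i := by
  simp [ee, EuclideanSpace.inner_single_right]

theorem norm_ee_h (i : Fin d) : ‖(ee i : E d)‖ = 1 := by simp [ee]

theorem Conv.Dz_PhiOf_h (hW : Conv ε W) (i : Fin d) (s : ℝ) (z : E d) :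
    Dz i (PhiOf W) (s, z) = mm W (1 - uu s ^ 2) z i := by
  have h := fderiv_slice_h (hW.contDiff_PhiOf_h.differentiable (by simp) (s, z)) (ee i)
  rw [Dz, ← h, ← inner_ee_h, mm, inner_gradient]
  rfl

theorem contDiff_Dz_h {F : ℝ × E d → ℝ} (hF : ContDiff ℝ ∞ F) (i : Fin d) :
    ContDiff ℝ ∞ (Dz i F) :=
  (hF.fderiv_right (m := ∞) le_rfl).clm_apply contDiff_const

theorem Conv.hasFDerivAt_mm_h (hW : Conv ε W) (ht : 0 < t) (z : E d) :
    HasFDerivAt (mm W t) (KK W t z) z :=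
  ((hW.contDiff_mm_h ht).differentiable (by norm_num) z).hasFDerivAt

theorem Conv.Dz_Dz_PhiOf_h (hW : Conv ε W) (i j : Fin d) (s : ℝ) (z : E d) :
    Dz i (Dz j (PhiOf W)) (s, z) = KK W (1 - uu s ^ 2) z (ee i) j := by
  have h := fderiv_slice_h ((contDiff_Dz_h hW.contDiff_PhiOf_h j).differentiable (by simp) (s, z))
    (ee i)
  rw [Dz, ← h]
  simp only [hW.Dz_PhiOf_h]
  have h1 := ((EuclideanSpace.proj j : E d →L[ℝ] ℝ).hasFDerivAt.comp z
    (hW.hasFDerivAt_mm_h (one_sub_uu_pos_h s) z)).fderiv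
  have h2 : fderiv ℝ (fun z => mm W (1 - uu s ^ 2) z j) z = _ := h1
  rw [h2]
  simp

theorem Conv.Dt_PhiOf_h (hW : Conv ε W) (s : ℝ) (z : E d) :
    Dt (PhiOf W) (s, z) = -(uu s * deriv uu s) * ((d : ℝ) / (1 - uu s ^ 2)
      - (∫ x, ‖x - z‖ ^ 2 ∂(post W (1 - uu s ^ 2) z)) / (1 - uu s ^ 2) ^ 2) := by
  have ht := one_sub_uu_pos_h s
  have hmem : (Ioi (0 : ℝ) ×ˢ (univ : Set (E d))) ∈ nhds (1 - uu s ^ 2, z) :=
    isOpen_dom.mem_nhds ⟨ht, mem_univ _⟩
  have hd : DifferentiableAt ℝ (fun p : ℝ × E d => Wt W p.1 p.2) (1 - uu s ^ 2, z) :=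
    (hW.contDiffOn_Wt_h.contDiffAt hmem).differentiableAt (by simp)
  have hu : HasDerivAt uu (deriv uu s) s :=
    (uu_contDiff_h.differentiable (by simp) s).hasDerivAt
  have h1 := HasFDerivAt.comp (s, z) (f := (Prod.fst : ℝ × E d → ℝ))
    ((hu.pow 2).const_sub 1).hasFDerivAt (hasFDerivAt_fst (𝕜 := ℝ) (p := (s, z)))
  have h2 := h1.prodMk (hasFDerivAt_snd (𝕜 := ℝ) (p := (s, z)))
  have h3 := (HasFDerivAt.comp (s, z) (f := fun p : ℝ × E d => (1 - uu p.1 ^ 2, p.2))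
    hd.hasFDerivAt h2).fderiv
  have h4 : fderiv ℝ (PhiOf W) (s, z) = _ := h3
  rw [Dt, h4, ContinuousLinearMap.comp_apply, hW.fderiv_Wt2_h ht]
  simp only [ContinuousLinearMap.prod_apply, ContinuousLinearMap.comp_apply,
    ContinuousLinearMap.coe_fst', ContinuousLinearMap.coe_snd', inner_zero_right, zero_div,
    zero_add, ContinuousLinearMap.toSpanSingleton_apply, smul_eq_mul, one_mul, integral_div,
    integral_const_mul]
  field_simp
  ring

theorem Conv.pde_PhiOf_h (hW : Conv ε W) (p : ℝ × E d) :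
    Dt (PhiOf W) p = -(uu p.1 * deriv uu p.1) *
      (∑ i, Dz i (Dz i (PhiOf W)) p - ∑ i, (Dz i (PhiOf W) p) ^ 2) := by
  obtain ⟨s, z⟩ := p
  have ht := one_sub_uu_pos_h s
  rw [hW.Dt_PhiOf_h]
  simp only [hW.Dz_Dz_PhiOf_h, hW.Dz_PhiOf_h]
  congr 1
  generalize 1 - uu s ^ 2 = t at ht
  have h1 : ∀ i : Fin d, KK W t z (ee i) i - mm W t z i ^ 2
      = 1 / t - (∫ x, ⟪x - z, ee i⟫ * ⟪x - z, ee i⟫ ∂(post W t z)) / t ^ 2 := by
    intro i
    rw [← inner_ee_h (KK W t z (ee i)), ← inner_ee_h (mm W t z), hW.inner_KK_h ht, hW.inner_mm_h ht,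
      real_inner_self_eq_norm_sq, norm_ee_h]
    field_simp
    ring
  rw [← Finset.sum_sub_distrib]
  simp only [h1]
  rw [Finset.sum_sub_distrib, ← Finset.sum_div, ← Finset.sum_div, ← integral_finset_sum _
    fun i _ => hW.int_post_h ht z ((EG.inner_sub z _).mul (EG.inner_sub z _))]
  congr 2
  · simp
  · refine integral_congr_ae (ae_of_all _ fun x => ?_)
    simp only [inner_ee_h, ← pow_two, EuclideanSpace.real_norm_sq_eq]

theorem var_expand_h {X : Type} [MeasurableSpace X] {μ : Measure X} [IsProbabilityMeasure μ]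
    {f : X → ℝ} (h1 : Integrable f μ) (h2 : Integrable (fun x => f x * f x) μ) :
    ∫ x, (f x - ∫ y, f y ∂μ) ^ 2 ∂μ = ∫ x, f x * f x ∂μ - (∫ x, f x ∂μ) * ∫ x, f x ∂μ := by
  have e : ∀ x, (f x - ∫ y, f y ∂μ) ^ 2
      = (f x * f x - (2 * ∫ y, f y ∂μ) * f x) + (∫ y, f y ∂μ) ^ 2 := fun x => by ring
  have h3 : Integrable (fun x => f x * f x - (2 * ∫ y, f y ∂μ) * f x) μ :=
    h2.sub (h1.const_mul _)
  simp only [e]
  rw [integral_add h3 (integrable_const _), integral_sub h2 (h1.const_mul _), integral_const_mul]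
  simp
  ring

theorem hasFDerivAt_inner_sub_h (z v x : E d) :
    HasFDerivAt (fun x : E d => ⟪x - z, v⟫) (innerSL ℝ v) x := by
  have h : HasFDerivAt (fun x : E d => ⟪v, x⟫ - ⟪v, z⟫) (innerSL ℝ v) x :=
    (innerSL ℝ v).hasFDerivAt.sub_const _
  refine h.congr_of_eventuallyEq (Eventually.of_forall fun y => ?_)
  simp only [real_inner_comm v, inner_sub_right]

theorem fderiv_inner_sub_h (z v x w : E d) :
    fderiv ℝ (fun x : E d => ⟪x - z, v⟫) x w = ⟪v, w⟫ := by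
  rw [(hasFDerivAt_inner_sub_h z v x).fderiv]
  rfl

/-- variance of linear functionals under a strongly log-concave law -/
theorem SConv.var_lin_h {κ : ℝ} {U : E d → ℝ} (hκ : 0 < κ) (hU : SConv κ U) (z v : E d) :
    ∫ x, (⟪x - z, v⟫ - ∫ y, ⟪y - z, v⟫ ∂(gibbs U)) ^ 2 ∂(gibbs U) ≤ κ⁻¹ * ‖v‖ ^ 2 := by
  haveI := hU.gibbs_prob hκ
  have hg : ∀ x : E d, ‖gradient (fun x : E d => ⟪x - z, v⟫) x‖ = ‖v‖ := fun x => by
    rw [norm_gradient, (hasFDerivAt_inner_sub_h z v x).fderiv, innerSL_apply_norm]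
  obtain ⟨-, A, B, hA, hB, hb⟩ := EG.inner_sub z v
  have h := hU.poincare hκ (f := fun x : E d => ⟪x - z, v⟫)
    ((contDiff_id.sub contDiff_const).inner ℝ contDiff_const) (A := A + ‖v‖) (B := B)
    (fun x => ?_) (fun x => ?_)
  · simpa [hg] using h
  · have := hb x
    rw [Real.norm_eq_abs] at this
    nlinarith [Real.exp_pos (B * ‖x‖), norm_nonneg v]
  · rw [hg]
    have := Real.one_le_exp (mul_nonneg hB (norm_nonneg x))
    nlinarith [norm_nonneg v]

/-- lower bound for the variance of linear functionals -/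
theorem var_lin_ge_h {κ L : ℝ} {U : E d → ℝ} (hκ : 0 < κ) (hU : SConv κ U) (hU' : Conv L U)
    (z v : E d) (lam : ℝ) :
    (2 * lam - lam ^ 2 * L) * ‖v‖ ^ 2
      ≤ ∫ x, (⟪x - z, v⟫ - ∫ y, ⟪y - z, v⟫ ∂(gibbs U)) ^ 2 ∂(gibbs U) := by
  haveI := hU.gibbs_prob hκ
  set m := ∫ y, ⟪y - z, v⟫ ∂(gibbs U)
  have hl : EG fun x : E d => ⟪x - z, v⟫ - m := (EG.inner_sub z v).sub (EG.const m)
  have ha := hU'.eg_fderiv_h v
  have hfd : ∀ x w : E d, fderiv ℝ (fun x : E d => ⟪x - z, v⟫ - m) x w = ⟪v, w⟫ := fun x w => by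
    rw [((hasFDerivAt_inner_sub_h z v x).sub_const m).fderiv]; rfl
  have h1 := gibbs_ibp_h hκ hU hU' (f := fun x : E d => ⟪x - z, v⟫ - m)
    (fun x => ((hasFDerivAt_inner_sub_h z v x).sub_const m).differentiableAt) v hl
    (by simpa only [hfd] using EG.const ⟪v, v⟫)
  simp only [hfd, real_inner_self_eq_norm_sq, integral_const, probReal_univ, smul_eq_mul,
    one_mul] at h1
  have hd2 : Differentiable ℝ (fderiv ℝ U) :=
    (hU.1.fderiv_right (m := 1) (by norm_num)).differentiable (by norm_num)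
  have hD : ∀ x, HasFDerivAt (fun x => fderiv ℝ U x v)
      ((ContinuousLinearMap.apply ℝ ℝ v).comp (fderiv ℝ (fderiv ℝ U) x)) x := fun x =>
    (ContinuousLinearMap.apply ℝ ℝ v).hasFDerivAt.comp x (hd2 x).hasFDerivAt
  have hfd2 : ∀ x, fderiv ℝ (fun x => fderiv ℝ U x v) x v = fderiv ℝ (fderiv ℝ U) x v v :=
    fun x => by rw [(hD x).fderiv]; rfl
  have h2 := gibbs_ibp_h hκ hU hU' (f := fun x => fderiv ℝ U x v)
    (fun x => (hD x).differentiableAt) v ha (by simpa only [hfd2] using hU'.eg_snd_h v v)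
  simp only [hfd2] at h2
  have h3 : ∫ x, fderiv ℝ (fderiv ℝ U) x v v ∂(gibbs U) ≤ L * ‖v‖ ^ 2 := by
    have := integral_mono ((hU'.eg_snd_h v v).integrable_gibbs hκ hU)
      (integrable_const (L * ‖v‖ ^ 2)) fun x => by
        have := (hU'.2 x v).2
        rwa [itd_two] at this
    simpa using this
  have h4 : 0 ≤ ∫ x, ((⟪x - z, v⟫ - m) - lam * fderiv ℝ U x v) ^ 2 ∂(gibbs U) :=
    integral_nonneg fun x => sq_nonneg _
  have e : ∀ x, ((⟪x - z, v⟫ - m) - lam * fderiv ℝ U x v) ^ 2 = ((⟪x - z, v⟫ - m) ^ 2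
      - (2 * lam) * ((⟪x - z, v⟫ - m) * fderiv ℝ U x v))
      + lam ^ 2 * (fderiv ℝ U x v * fderiv ℝ U x v) := fun x => by ring
  have i1 := hl.sq.integrable_gibbs hκ hU
  have i2 := ((hl.mul ha).integrable_gibbs hκ hU).const_mul (2 * lam)
  have i3 := ((ha.mul ha).integrable_gibbs hκ hU).const_mul (lam ^ 2)
  have i4 : Integrable (fun x => (⟪x - z, v⟫ - m) ^ 2
      - (2 * lam) * ((⟪x - z, v⟫ - m) * fderiv ℝ U x v)) (gibbs U) := i1.sub i2
  simp only [e] at h4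
  rw [integral_add i4 i3, integral_sub i1 i2, integral_const_mul, integral_const_mul, h1, h2] at h4
  nlinarith [mul_le_mul_of_nonneg_left h3 (sq_nonneg lam)]

theorem Conv.inner_KK_self_h (hW : Conv ε W) (ht : 0 < t) (z v : E d) :
    ⟪KK W t z v, v⟫ = ‖v‖ ^ 2 / t - (∫ x, (⟪x - z, v⟫ - ∫ y, ⟪y - z, v⟫ ∂(post W t z)) ^ 2
      ∂(post W t z)) / t ^ 2 := by
  haveI := hW.post_prob_h ht z
  rw [hW.inner_KK_h ht, var_expand_h (hW.int_post_h ht z (EG.inner_sub z v))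
    (hW.int_post_h ht z ((EG.inner_sub z v).mul (EG.inner_sub z v))), real_inner_self_eq_norm_sq]

theorem Conv.inner_KK_symm_h (hW : Conv ε W) (ht : 0 < t) (z v w : E d) :
    ⟪KK W t z v, w⟫ = ⟪KK W t z w, v⟫ := by
  rw [hW.inner_KK_h ht, hW.inner_KK_h ht, real_inner_comm v w,
    mul_comm (∫ x, ⟪x - z, v⟫ ∂(post W t z))]
  simp only [mul_comm ⟪_ - z, v⟫]

theorem Conv.inner_KK_le_h (hW : Conv ε W) (ht : 0 < t) (z v : E d) :
    ⟪KK W t z v, v⟫ ≤ ε * ‖v‖ ^ 2 := by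
  have h := var_lin_ge_h (inv_pos.2 ht) (hW.sconv_post_h t z) (hW.conv_post_h ht z) z v t
  rw [hW.inner_KK_self_h ht, sub_le_iff_le_add, ← sub_le_iff_le_add', le_div_iff₀ (by positivity)]
  refine le_trans (le_of_eq ?_) h
  field_simp
  ring

theorem IsPotential.le_inner_KK_h {V : E d → ℝ} (hV : IsPotential V) (ht : 0 < t)
    (ht' : t ≤ 1 / 8) (z v : E d) : 1 / 2 * ‖v‖ ^ 2 ≤ ⟪KK V t z v, v⟫ := by
  have h := (hV.sconv_h.add_quad_h t z).var_lin_h (by positivity) z v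
  rw [hV.conv_h.inner_KK_self_h ht, le_sub_iff_add_le, ← le_sub_iff_add_le', div_le_iff₀
    (by positivity)]
  refine le_trans h ?_
  have h1 : (t⁻¹ + 1)⁻¹ ≤ t - t ^ 2 / 2 := by
    have : (t⁻¹ + 1)⁻¹ = t / (1 + t) := by field_simp
    rw [this, div_le_iff₀ (by positivity)]
    nlinarith [mul_pos ht ht, mul_pos (mul_pos ht ht) ht]
  refine (mul_le_mul_of_nonneg_right h1 (sq_nonneg _)).trans (le_of_eq ?_)
  field_simp

theorem norm_le_of_inner_h {a : E d} {c : ℝ} (hc : 0 ≤ c) (h : ⟪a, a⟫ ≤ c * ‖a‖) : ‖a‖ ≤ c := by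
  rw [real_inner_self_eq_norm_sq] at h
  by_contra hlt
  push Not at hlt
  nlinarith

theorem IsPotential.norm_KK_sub_le_h {V : E d → ℝ} (hV : IsPotential V) (ht : 0 < t)
    (ht' : t ≤ 1 / 8) (z v : E d) : ‖KK V t z v - (5 / 4 : ℝ) • v‖ ≤ 3 / 4 * ‖v‖ := by
  refine norm_le_of_inner_h (by positivity) (le_trans (le_abs_self _) ?_)
  refine abs_bilin_le (fun v w => ⟪KK V t z v - (5 / 4 : ℝ) • v, w⟫) (fun u v w => ?_)
    (fun a v w => ?_) (fun v w => ?_) (fun v => ?_) v _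
  · simp only [map_add, smul_add, inner_sub_left, inner_add_left]
    ring
  · simp only [map_smul, inner_sub_left, inner_smul_left, conj_trivial]
    ring
  · simp only [inner_sub_left, inner_smul_left, conj_trivial]
    rw [hV.conv_h.inner_KK_symm_h ht, real_inner_comm v w]
  · have h1 := hV.conv_h.inner_KK_le_h ht z v
    have h2 := hV.le_inner_KK_h ht ht' z v
    simp only [inner_sub_left, inner_smul_left, conj_trivial, real_inner_self_eq_norm_sq]
    rw [abs_le]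
    constructor <;> linarith

theorem IsPotential.norm_KK_le_h {V : E d → ℝ} (hV : IsPotential V) (ht : 0 < t)
    (ht' : t ≤ 1 / 8) (z v : E d) : ‖KK V t z v‖ ≤ 2 * ‖v‖ := by
  have h := hV.norm_KK_sub_le_h ht ht' z v
  have h2 := norm_add_le (KK V t z v - (5 / 4 : ℝ) • v) ((5 / 4 : ℝ) • v)
  rw [sub_add_cancel, norm_smul, Real.norm_of_nonneg (by norm_num)] at h2
  linarith

theorem IsPotential.norm_mm_sub_sub_le_h {V : E d → ℝ} (hV : IsPotential V) (ht : 0 < t)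
    (ht' : t ≤ 1 / 8) (z z' : E d) :
    ‖mm V t z - mm V t z' - (5 / 4 : ℝ) • (z - z')‖ ≤ 3 / 4 * ‖z - z'‖ := by
  have h := Convex.norm_image_sub_le_of_norm_hasFDerivWithin_le (s := univ)
    (f := fun z => mm V t z - (5 / 4 : ℝ) • z)
    (f' := fun z => KK V t z - (5 / 4 : ℝ) • ContinuousLinearMap.id ℝ (E d)) (C := 3 / 4)
    (fun x _ => ((hV.conv_h.hasFDerivAt_mm_h ht x).sub
      ((hasFDerivAt_id x).const_smul (5 / 4 : ℝ))).hasFDerivWithinAt)
    (fun x _ => ContinuousLinearMap.opNorm_le_bound _ (by norm_num) fun v =>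
      hV.norm_KK_sub_le_h ht ht' x v) convex_univ (mem_univ z') (mem_univ z)
  refine le_trans (le_of_eq ?_) h
  congr 1
  rw [smul_sub]
  abel

theorem Conv.integral_norm_sub_le_h (hW : Conv ε W) (ht : 0 < t) (z : E d) :
    ∫ x, ‖x - (z - t • mm W t z)‖ ∂(post W t z) ≤ √t * √(d : ℝ) := by
  haveI := hW.post_prob_h ht z
  set m := z - t • mm W t z with hm
  have hn : EG fun x : E d => ‖x - m‖ := (EG.id.sub (EG.const m)).norm
  have h0 : ∀ v : E d, ∫ y, ⟪y - m, v⟫ ∂(post W t z) = 0 := fun v => by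
    have hi := hW.int_post_h ht z EG.id
    have hi2 : Integrable (fun x => x - m) (post W t z) := hi.sub (integrable_const m)
    simp only [real_inner_comm v]
    rw [integral_inner hi2, integral_sub hi (integrable_const m), hW.mean_post_h ht]
    simp [hm]
  have h1 : ∀ i : Fin d, ∫ x, ⟪x - m, ee i⟫ ^ 2 ∂(post W t z) ≤ t := fun i => by
    have h := (hW.sconv_post_h t z).var_lin_h (inv_pos.2 ht) m (ee i)
    have h' : ∫ x, (⟪x - m, ee i⟫ - ∫ y, ⟪y - m, ee i⟫ ∂(post W t z)) ^ 2 ∂(post W t z)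
        ≤ t⁻¹⁻¹ * ‖(ee i : E d)‖ ^ 2 := h
    simpa only [h0, sub_zero, inv_inv, norm_ee_h, one_pow, mul_one] using h'
  have h2 : ∫ x, ‖x - m‖ * ‖x - m‖ ∂(post W t z) ≤ t * d := by
    have e : ∀ x : E d, ‖x - m‖ * ‖x - m‖ = ∑ i, ⟪x - m, ee i⟫ ^ 2 := fun x => by
      simp only [inner_ee_h, ← pow_two, EuclideanSpace.real_norm_sq_eq]
    simp only [e]
    rw [integral_finset_sum _ fun i _ => hW.int_post_h ht z (EG.inner_sub m _).sq]
    refine (Finset.sum_le_sum fun i _ => h1 i).trans (le_of_eq ?_)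
    simp [mul_comm]
  have h3 := var_expand_h (hW.int_post_h ht z hn) (hW.int_post_h ht z (hn.mul hn))
  have h4 : 0 ≤ ∫ x, (‖x - m‖ - ∫ y, ‖y - m‖ ∂(post W t z)) ^ 2 ∂(post W t z) :=
    integral_nonneg fun x => sq_nonneg _
  rw [← Real.sqrt_mul ht.le]
  refine Real.le_sqrt_of_sq_le ?_
  nlinarith

theorem IsPotential.mm_aux_h {V : E d → ℝ} (hV : IsPotential V) (ht : 0 < t) (c : E d) :
    ‖mm V t c - gradient V c‖ ≤ 2 * (√t * √(d : ℝ)) + 2 * t * ‖mm V t c‖ := by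
  have hW := hV.conv_h
  haveI := hW.post_prob_h ht c
  have h1 : mm V t c - gradient V c = ∫ x, (gradient V x - gradient V c) ∂(post V t c) := by
    rw [integral_sub (hW.int_post_h ht c hW.eg_gradient_h) (integrable_const _), ← hW.mm_eq_h ht]
    simp
  have hn : EG fun x : E d => ‖x - (c - t • mm V t c)‖ := (EG.id.sub (EG.const _)).norm
  have h2 := hW.integral_norm_sub_le_h ht c
  rw [h1]
  refine (norm_integral_le_of_norm_le
    (g := fun x => 2 * ‖x - (c - t • mm V t c)‖ + 2 * t * ‖mm V t c‖)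
    (((hW.int_post_h ht c hn).const_mul 2).add (integrable_const _))
    (ae_of_all _ fun x => ?_)).trans ?_
  · have h3 := hW.norm_gradient_sub_le_h (by norm_num) x c
    have h4 := norm_sub_le (x - (c - t • mm V t c)) (t • mm V t c)
    rw [norm_smul, Real.norm_of_nonneg ht.le] at h4
    have h5 : x - (c - t • mm V t c) - t • mm V t c = x - c := by abel
    rw [h5] at h4
    linarith
  · rw [integral_add ((hW.int_post_h ht c hn).const_mul 2) (integrable_const _), integral_const_mul]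
    simp only [integral_const, probReal_univ, smul_eq_mul, one_mul]
    linarith

theorem sqrt_le_half_h (ht' : t ≤ 1 / 8) : √t ≤ 1 / 2 := by
  refine Real.sqrt_le_iff.2 ⟨by norm_num, by linarith⟩

theorem IsPotential.norm_mm_le_h {V : E d → ℝ} (hV : IsPotential V) (ht : 0 < t)
    (ht' : t ≤ 1 / 8) (c : E d) : ‖mm V t c‖ ≤ 3 * RR c := by
  have h1 := hV.mm_aux_h ht c
  have h2 := hV.conv_h.norm_gradient_sub_le_h (by norm_num) c 0
  rw [hV.2.2.1, sub_zero, sub_zero] at h2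
  have h3 := norm_add_le (mm V t c - gradient V c) (gradient V c)
  rw [sub_add_cancel] at h3
  have h4 := mul_le_mul_of_nonneg_right (sqrt_le_half_h ht') (Real.sqrt_nonneg (d : ℝ))
  have h5 := mul_le_mul_of_nonneg_right ht' (norm_nonneg (mm V t c))
  have h6 := Real.sqrt_nonneg (d : ℝ)
  have h7 := norm_nonneg c
  rw [RR]
  linarith

theorem IsPotential.norm_mm_sub_gradient_le_h {V : E d → ℝ} (hV : IsPotential V)
    (ht : 0 < t) (ht' : t ≤ 1 / 8) (c : E d) :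
    ‖mm V t c - gradient V c‖ ≤ 6 * √t * RR c := by
  have h1 := hV.mm_aux_h ht c
  have h2 := hV.norm_mm_le_h ht ht' c
  have hs := Real.sqrt_nonneg t
  have hR : √(d : ℝ) ≤ RR c := le_add_of_nonneg_right (norm_nonneg c)
  have hR0 : 0 ≤ RR c := (Real.sqrt_nonneg _).trans hR
  have h3 : t ≤ √t * (1 / 2) := by
    have := mul_le_mul_of_nonneg_left (sqrt_le_half_h ht') hs
    rwa [Real.mul_self_sqrt ht.le] at this
  have h4 := mul_le_mul_of_nonneg_left hR hs
  have h5 := mul_le_mul h3 h2 (norm_nonneg _) (by positivity)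
  have h6 := mul_nonneg hs hR0
  nlinarith

theorem Conv.mm_scale_h {V : E d → ℝ} (hV : Conv 2 V) (c : E d) {τ : ℝ} (hτ : 0 < τ) (ht : 0 < t)
    (z : E d) :
    mm (fun x => V (c + √τ • x)) t z = √τ • mm V (τ * t) (c + √τ • z) := by
  have hA : HasFDerivAt (fun x : E d => c + √τ • x) (√τ • ContinuousLinearMap.id ℝ (E d)) z :=
    ((hasFDerivAt_id z).const_smul √τ).const_add c
  have hd := ((hV.contDiff_Wt_h (mul_pos hτ ht)).differentiable (by simp)
    (c + √τ • z)).hasFDerivAt.comp z hA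
  have h1 : Wt (fun x => V (c + √τ • x)) t = Wt V (τ * t) ∘ fun x => c + √τ • x :=
    funext fun z => Wt_scale_h V c hτ t z
  refine ext_inner_right ℝ fun v => ?_
  rw [inner_smul_left, mm, mm, inner_gradient, inner_gradient, h1, hd.fderiv]
  simp

theorem Conv.KK_scale_h {V : E d → ℝ} (hV : Conv 2 V) (c : E d) {τ : ℝ} (hτ : 0 < τ) (ht : 0 < t)
    (z v : E d) :
    KK (fun x => V (c + √τ • x)) t z v = τ • KK V (τ * t) (c + √τ • z) v := by
  have hA : HasFDerivAt (fun x : E d => c + √τ • x) (√τ • ContinuousLinearMap.id ℝ (E d)) z :=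
    ((hasFDerivAt_id z).const_smul √τ).const_add c
  have hd := ((hV.hasFDerivAt_mm_h (mul_pos hτ ht) (c + √τ • z)).comp z hA).const_smul √τ
  have h1 : mm (fun x => V (c + √τ • x)) t = √τ • (mm V (τ * t) ∘ fun x => c + √τ • x) :=
    funext fun z => hV.mm_scale_h c hτ ht z
  rw [KK, h1, hd.fderiv]
  simp only [ContinuousLinearMap.smul_apply, ContinuousLinearMap.comp_apply,
    ContinuousLinearMap.id_apply, map_smul, smul_smul, Real.mul_self_sqrt hτ.le]

end

end Vale.Agent.P347
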