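import Vale.Agent.P347.Poincare
import Vale.Agent.P347.Gauss
import Vale.Agent.P347.Heat4

open MeasureTheory ProbabilityTheory Filter Set
open scoped ENNReal ContDiff RealInnerProductSpace

namespace Vale.Agent.P347

variable {d : ℕ}

theorem IsPotential.conv {V : E d → ℝ} (hV : IsPotential V) : Conv 2 V := by
  exact hV.conv_h

theorem IsPotential.sconv {V : E d → ℝ} (hV : IsPotential V) : SConv 1 V := by
  exact hV.sconv_h

theorem Conv.norm_gradient_sub_le {ε : ℝ} {W : E d → ℝ} (hW : Conv ε W) (hε : 0 ≤ ε)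
    (x y : E d) : ‖gradient W x - gradient W y‖ ≤ ε * ‖x - y‖ := by
  exact hW.norm_gradient_sub_le_h hε x y

theorem Conv.sconv_post {ε : ℝ} {W : E d → ℝ} (hW : Conv ε W) {t : ℝ} (ht : 0 < t) (z : E d) :
    SConv t⁻¹ fun x => ‖x - z‖ ^ 2 / (2 * t) + W x := by
  have _ := ht
  exact hW.sconv_post_h t z

theorem uu_contDiff : ContDiff ℝ ∞ uu := by
  exact uu_contDiff_h

theorem uu_eq {s : ℝ} (hs : |s| ≤ 3 / 5) : uu s = s := by
  exact uu_eq_h hs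

theorem deriv_uu_eq {s : ℝ} (hs : |s| < 3 / 5) : deriv uu s = 1 := by
  exact deriv_uu_eq_h hs

theorem abs_uu_le (s : ℝ) : |uu s| ≤ 4 / 5 := by
  exact abs_uu_le_h s

/-- the Gaussian average as a Lebesgue integral -/
theorem Conv.exp_neg_Wt {ε : ℝ} {W : E d → ℝ} (hW : Conv ε W) {t : ℝ} (ht : 0 < t) (z : E d) :
    Real.exp (-Wt W t z) = (2 * Real.pi * t) ^ (-(d : ℝ) / 2) *
      ∫ x, Real.exp (-(‖x - z‖ ^ 2 / (2 * t) + W x)) := by
  exact hW.exp_neg_Wt_h ht z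

theorem Conv.contDiffOn_Wt {ε : ℝ} {W : E d → ℝ} (hW : Conv ε W) :
    ContDiffOn ℝ ∞ (fun p : ℝ × E d => Wt W p.1 p.2) (Ioi 0 ×ˢ univ) := by
  exact hW.contDiffOn_Wt_h

theorem Conv.contDiff_Wt {ε : ℝ} {W : E d → ℝ} (hW : Conv ε W) {t : ℝ} (ht : 0 < t) :
    ContDiff ℝ ∞ (Wt W t) := by
  exact hW.contDiff_Wt_h ht

theorem Conv.contDiff_PhiOf {ε : ℝ} {W : E d → ℝ} (hW : Conv ε W) :
    ContDiff ℝ ∞ (PhiOf W) := by
  exact hW.contDiff_PhiOf_h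

theorem Conv.pde_PhiOf {ε : ℝ} {W : E d → ℝ} (hW : Conv ε W) (p : ℝ × E d) :
    Dt (PhiOf W) p = -(uu p.1 * deriv uu p.1) *
      (∑ i, Dz i (Dz i (PhiOf W)) p - ∑ i, (Dz i (PhiOf W) p) ^ 2) := by
  exact hW.pde_PhiOf_h p

/-- the gradient of W_t is the posterior mean of the gradient -/
theorem Conv.mm_eq {ε : ℝ} {W : E d → ℝ} (hW : Conv ε W) {t : ℝ} (ht : 0 < t) (z : E d) :
    mm W t z = ∫ x, gradient W x ∂(post W t z) := by
  exact hW.mm_eq_h ht z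

theorem Conv.mean_post {ε : ℝ} {W : E d → ℝ} (hW : Conv ε W) {t : ℝ} (ht : 0 < t) (z : E d) :
    ∫ x, x ∂(post W t z) = z - t • mm W t z := by
  exact hW.mean_post_h ht z

/-- the posterior at a shifted center is an exponential tilt -/
theorem Conv.integral_post_add {ε : ℝ} {W : E d → ℝ} (hW : Conv ε W) {t : ℝ} (ht : 0 < t)
    (z α : E d) (f : E d → ℝ) :
    ∫ x, f x ∂(post W t (z + α)) = (∫ x, f x * Real.exp (⟪α, x⟫ / t) ∂(post W t z)) /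
      ∫ x, Real.exp (⟪α, x⟫ / t) ∂(post W t z) := by
  exact hW.integral_post_add_h ht z α f

theorem Conv.continuous_mm {ε : ℝ} {W : E d → ℝ} (hW : Conv ε W) {t : ℝ} (ht : 0 < t) :
    Continuous (mm W t) := by
  exact (hW.contDiff_mm_h ht).continuous

theorem Conv.continuous_KK {ε : ℝ} {W : E d → ℝ} (hW : Conv ε W) {t : ℝ} (ht : 0 < t) :
    Continuous (KK W t) := by
  exact (hW.contDiff_mm_h ht).continuous_fderiv (by norm_num)

theorem IsPotential.norm_KK_sub_le {V : E d → ℝ} (hV : IsPotential V) {t : ℝ} (ht : 0 < t)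
    (ht' : t ≤ 1 / 8) (z v : E d) : ‖KK V t z v - (5 / 4 : ℝ) • v‖ ≤ 3 / 4 * ‖v‖ := by
  exact hV.norm_KK_sub_le_h ht ht' z v

theorem IsPotential.norm_KK_le {V : E d → ℝ} (hV : IsPotential V) {t : ℝ} (ht : 0 < t)
    (ht' : t ≤ 1 / 8) (z v : E d) : ‖KK V t z v‖ ≤ 2 * ‖v‖ := by
  exact hV.norm_KK_le_h ht ht' z v

theorem IsPotential.norm_mm_sub_sub_le {V : E d → ℝ} (hV : IsPotential V) {t : ℝ} (ht : 0 < t)
    (ht' : t ≤ 1 / 8) (z z' : E d) :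
    ‖mm V t z - mm V t z' - (5 / 4 : ℝ) • (z - z')‖ ≤ 3 / 4 * ‖z - z'‖ := by
  exact hV.norm_mm_sub_sub_le_h ht ht' z z'

theorem IsPotential.norm_mm_le {V : E d → ℝ} (hV : IsPotential V) {t : ℝ} (ht : 0 < t)
    (ht' : t ≤ 1 / 8) (c : E d) : ‖mm V t c‖ ≤ 3 * RR c := by
  exact hV.norm_mm_le_h ht ht' c

theorem IsPotential.norm_mm_sub_gradient_le {V : E d → ℝ} (hV : IsPotential V) {t : ℝ}
    (ht : 0 < t) (ht' : t ≤ 1 / 8) (c : E d) :
    ‖mm V t c - gradient V c‖ ≤ 6 * √t * RR c := by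
  exact hV.norm_mm_sub_gradient_le_h ht ht' c

/-! ### scaling -/

theorem Conv.scale {V : E d → ℝ} (hV : Conv 2 V) (c : E d) {τ : ℝ} (hτ : 0 < τ) :
    Conv (2 * τ) fun x => V (c + √τ • x) := by
  exact hV.scale_h c hτ

theorem Wt_scale (V : E d → ℝ) (c : E d) {τ : ℝ} (hτ : 0 < τ) (t : ℝ) (z : E d) :
    Wt (fun x => V (c + √τ • x)) t z = Wt V (τ * t) (c + √τ • z) := by
  exact Wt_scale_h V c hτ t z

theorem Conv.Dz_PhiOf_scale {V : E d → ℝ} (hV : Conv 2 V) (c : E d) {τ : ℝ} (hτ : 0 < τ)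
    (i : Fin d) (s : ℝ) (z : E d) :
    Dz i (PhiOf fun x => V (c + √τ • x)) (s, z)
      = √τ * mm V (τ * (1 - uu s ^ 2)) (c + √τ • z) i := by
  rw [(hV.scale_h c hτ).Dz_PhiOf_h, hV.mm_scale_h c hτ (one_sub_uu_pos_h s)]
  simp

theorem Conv.Dz_Dz_PhiOf_scale {V : E d → ℝ} (hV : Conv 2 V) (c : E d) {τ : ℝ} (hτ : 0 < τ)
    (i j : Fin d) (s : ℝ) (z : E d) :
    Dz i (Dz j (PhiOf fun x => V (c + √τ • x))) (s, z)
      = τ * KK V (τ * (1 - uu s ^ 2)) (c + √τ • z) (ee i) j := by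
  rw [(hV.scale_h c hτ).Dz_Dz_PhiOf_h, hV.KK_scale_h c hτ (one_sub_uu_pos_h s)]
  simp

end Vale.Agent.P347
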