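import Vale.Agent.P347.Poincare
import Vale.Agent.P347.Gauss

open MeasureTheory ProbabilityTheory Filter Set
open scoped ENNReal ContDiff RealInnerProductSpace

namespace Vale.Agent.P347

variable {d : ℕ}

namespace Heat

theorem itd_two (W : E d → ℝ) (x v w : E d) :
    iteratedFDeriv ℝ 2 W x ![v, w] = fderiv ℝ (fderiv ℝ W) x v w := by
  rw [iteratedFDeriv_two_apply]; simp

/-- polarization for symmetric bilinear forms -/
theorem abs_bilin_le (B : E d → E d → ℝ) (hadd : ∀ u v w, B (u + v) w = B u w + B v w)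
    (hsm : ∀ (a : ℝ) v w, B (a • v) w = a * B v w) (hsym : ∀ v w, B v w = B w v) {c : ℝ}
    (hc : ∀ v, |B v v| ≤ c * ‖v‖ ^ 2) (v w : E d) : |B v w| ≤ c * ‖v‖ * ‖w‖ := by
  have hadd' : ∀ u v w, B u (v + w) = B u v + B u w := fun u v w => by
    rw [hsym, hadd, hsym v, hsym w]
  have hsm' : ∀ (a : ℝ) v w, B v (a • w) = a * B v w := fun a v w => by
    rw [hsym, hsm, hsym]
  have key : ∀ v w : E d, |B v w| ≤ c * (‖v‖ ^ 2 + ‖w‖ ^ 2) / 2 := by
    intro v w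
    have h1 := hc (v + w)
    have h2 := hc (v + (-1 : ℝ) • w)
    simp only [hadd, hadd', hsm, hsm'] at h1 h2
    have h3 : ‖v + w‖ ^ 2 + ‖v + (-1 : ℝ) • w‖ ^ 2 = 2 * (‖v‖ ^ 2 + ‖w‖ ^ 2) := by
      have := parallelogram_law_with_norm ℝ v w
      rw [neg_one_smul, ← sub_eq_add_neg]
      nlinarith [this]
    have h4 : c * ‖v + w‖ ^ 2 + c * ‖v + (-1 : ℝ) • w‖ ^ 2 = 2 * (c * (‖v‖ ^ 2 + ‖w‖ ^ 2)) := by
      rw [← mul_add, h3]; ring
    rw [hsym w v] at h1 h2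
    rw [abs_le] at h1 h2 ⊢
    constructor <;> linarith [h1.1, h1.2, h2.1, h2.2]
  by_cases hv : v = 0
  · subst hv
    have : B 0 w = 0 := by
      have := hsm 0 0 w
      simpa using this
    simp [this]
  by_cases hw : w = 0
  · subst hw
    have : B v 0 = 0 := by
      have := hsm' 0 v 0
      simpa using this
    simp [this]
  have hv' : 0 < ‖v‖ := norm_pos_iff.2 hv
  have hw' : 0 < ‖w‖ := norm_pos_iff.2 hw
  have h := key (‖w‖ • v) (‖v‖ • w)
  rw [hsm, hsm', norm_smul, norm_smul, norm_norm, norm_norm, abs_mul, abs_mul, abs_of_pos hv',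
    abs_of_pos hw'] at h
  have h2 : (‖v‖ * ‖w‖) * |B v w| ≤ (‖v‖ * ‖w‖) * (c * ‖v‖ * ‖w‖) := by nlinarith [h]
  exact le_of_mul_le_mul_left h2 (mul_pos hv' hw')

theorem inner_gradient (W : E d → ℝ) (x v : E d) : ⟪gradient W x, v⟫ = fderiv ℝ W x v := by
  simp [gradient]

theorem norm_gradient (W : E d → ℝ) (x : E d) : ‖gradient W x‖ = ‖fderiv ℝ W x‖ := by
  simp [gradient]

theorem hasFDerivAt_quad (t : ℝ) (z x : E d) :
    HasFDerivAt (fun x : E d => ‖x - z‖ ^ 2 / (2 * t)) (t⁻¹ • innerSL ℝ (x - z)) x := by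
  have h1 : HasFDerivAt (fun x : E d => x - z) (ContinuousLinearMap.id ℝ (E d)) x :=
    (hasFDerivAt_id x).sub_const z
  have h2 := (h1.norm_sq).mul_const (2 * t)⁻¹
  refine HasFDerivAt.congr_fderiv (by simpa [div_eq_mul_inv] using h2) ?_
  ext v
  simp
  by_cases ht : t = 0
  · simp [ht]
  · field_simp

theorem fderiv_quad (t : ℝ) (z : E d) :
    fderiv ℝ (fun x : E d => ‖x - z‖ ^ 2 / (2 * t)) = fun x => t⁻¹ • innerSL ℝ (x - z) :=
  funext fun x => (hasFDerivAt_quad t z x).fderiv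

theorem contDiff_quad {n : ℕ∞ω} (t : ℝ) (z : E d) :
    ContDiff ℝ n (fun x : E d => ‖x - z‖ ^ 2 / (2 * t)) :=
  ((contDiff_id.sub contDiff_const).norm_sq ℝ).div_const _

theorem snd_quad_add {W : E d → ℝ} (hW : ContDiff ℝ 2 W) (t : ℝ) (z x v : E d) :
    iteratedFDeriv ℝ 2 (fun x => ‖x - z‖ ^ 2 / (2 * t) + W x) x ![v, v]
      = t⁻¹ * ‖v‖ ^ 2 + iteratedFDeriv ℝ 2 W x ![v, v] := by
  have hq : ContDiff ℝ 2 (fun x : E d => ‖x - z‖ ^ 2 / (2 * t)) := contDiff_quad t z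
  have h := iteratedFDeriv_add_apply (𝕜 := ℝ) (i := 2) (x := x) hq.contDiffAt hW.contDiffAt
  have h' : iteratedFDeriv ℝ 2 (fun x => ‖x - z‖ ^ 2 / (2 * t) + W x) x
      = iteratedFDeriv ℝ 2 (fun x : E d => ‖x - z‖ ^ 2 / (2 * t)) x
        + iteratedFDeriv ℝ 2 W x := h
  rw [h', ContinuousMultilinearMap.add_apply, itd_two, fderiv_quad]
  have h3 : HasFDerivAt (fun x : E d => t⁻¹ • innerSL ℝ (x - z))
      (t⁻¹ • (innerSL ℝ : E d →L[ℝ] E d →L[ℝ] ℝ)) x := by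
    have h1 : HasFDerivAt (fun x : E d => x - z) (ContinuousLinearMap.id ℝ (E d)) x :=
      (hasFDerivAt_id x).sub_const z
    have h2 := ((innerSL ℝ : E d →L[ℝ] E d →L[ℝ] ℝ).hasFDerivAt.comp x h1).const_smul t⁻¹
    rw [ContinuousLinearMap.comp_id] at h2
    exact h2
  rw [h3.fderiv]
  have h4 : (innerSL ℝ : E d →L[ℝ] E d →L[ℝ] ℝ) v v = ‖v‖ ^ 2 := real_inner_self_eq_norm_sq v
  simp only [ContinuousLinearMap.smul_apply, smul_eq_mul, h4]

end Heat

open Heat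

theorem IsPotential.conv_h {V : E d → ℝ} (hV : IsPotential V) : Conv 2 V :=
  ⟨hV.1, fun x v => ⟨le_trans (sq_nonneg _) (hV.2.2.2 x v).1, (hV.2.2.2 x v).2⟩⟩

theorem IsPotential.sconv_h {V : E d → ℝ} (hV : IsPotential V) : SConv 1 V :=
  ⟨hV.1, fun x v => by simpa using (hV.2.2.2 x v).1⟩

theorem Conv.sconv_zero_h {ε : ℝ} {W : E d → ℝ} (hW : Conv ε W) : SConv 0 W :=
  ⟨hW.1, fun x v => by simpa using (hW.2 x v).1⟩

theorem Conv.norm_snd_le_h {ε : ℝ} {W : E d → ℝ} (hW : Conv ε W) (hε : 0 ≤ ε) (x : E d) :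
    ‖fderiv ℝ (fderiv ℝ W) x‖ ≤ ε := by
  refine ContinuousLinearMap.opNorm_le_bound₂ _ hε fun v w => ?_
  rw [Real.norm_eq_abs]
  refine abs_bilin_le (fun v w => fderiv ℝ (fderiv ℝ W) x v w) (fun u v w => by simp)
    (fun a v w => by simp) (fun v w => ?_) (fun v => ?_) v w
  · exact (hW.1.contDiffAt.isSymmSndFDerivAt (by simp)) v w
  · have := hW.2 x v
    rw [itd_two] at this
    rw [abs_of_nonneg this.1]
    exact this.2

theorem Conv.norm_fderiv_sub_le_h {ε : ℝ} {W : E d → ℝ} (hW : Conv ε W) (hε : 0 ≤ ε)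
    (x y : E d) : ‖fderiv ℝ W x - fderiv ℝ W y‖ ≤ ε * ‖x - y‖ := by
  have hd : Differentiable ℝ (fderiv ℝ W) :=
    (hW.1.fderiv_right (m := 1) (by norm_num)).differentiable (by norm_num)
  exact Convex.norm_image_sub_le_of_norm_fderiv_le (s := univ) (fun x _ => hd x)
    (fun x _ => hW.norm_snd_le_h hε x) convex_univ (mem_univ y) (mem_univ x)

theorem Conv.norm_gradient_sub_le_h {ε : ℝ} {W : E d → ℝ} (hW : Conv ε W) (hε : 0 ≤ ε)
    (x y : E d) : ‖gradient W x - gradient W y‖ ≤ ε * ‖x - y‖ := by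
  have := hW.norm_fderiv_sub_le_h hε x y
  simp only [gradient]
  rw [← map_sub, LinearIsometryEquiv.norm_map]
  exact this

theorem Conv.mono_h {ε ε' : ℝ} {W : E d → ℝ} (hW : Conv ε W) (h : ε ≤ ε') : Conv ε' W :=
  ⟨hW.1, fun x v => ⟨(hW.2 x v).1, (hW.2 x v).2.trans
    (mul_le_mul_of_nonneg_right h (sq_nonneg _))⟩⟩

theorem Conv.abs_h {ε : ℝ} {W : E d → ℝ} (hW : Conv ε W) : Conv |ε| W := hW.mono_h (le_abs_self ε)

theorem SConv.add_quad_h {κ : ℝ} {W : E d → ℝ} (hW : SConv κ W) (t : ℝ) (z : E d) :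
    SConv (t⁻¹ + κ) fun x => ‖x - z‖ ^ 2 / (2 * t) + W x :=
  ⟨(contDiff_quad t z).add hW.1, fun x v => by
    rw [snd_quad_add hW.1]
    have := hW.2 x v
    linarith⟩

theorem Conv.sconv_post_h {ε : ℝ} {W : E d → ℝ} (hW : Conv ε W) (t : ℝ) (z : E d) :
    SConv t⁻¹ fun x => ‖x - z‖ ^ 2 / (2 * t) + W x := by
  simpa using hW.sconv_zero_h.add_quad_h t z

theorem Conv.conv_post_h {ε : ℝ} {W : E d → ℝ} (hW : Conv ε W) {t : ℝ} (ht : 0 < t) (z : E d) :
    Conv (t⁻¹ + ε) fun x => ‖x - z‖ ^ 2 / (2 * t) + W x :=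
  ⟨(contDiff_quad t z).add hW.1, fun x v => by
    rw [snd_quad_add hW.1]
    have := hW.2 x v
    have h2 : 0 ≤ t⁻¹ * ‖v‖ ^ 2 := by positivity
    constructor <;> linarith [this.1, this.2]⟩

theorem uu_contDiff_h : ContDiff ℝ ∞ uu := contDiff_id.mul bump.contDiff

theorem uu_eq_h {s : ℝ} (hs : |s| ≤ 3 / 5) : uu s = s := by
  have : bump s = 1 := bump.one_of_mem_closedBall (by simpa [bump] using hs)
  simp [uu, this]

theorem deriv_uu_eq_h {s : ℝ} (hs : |s| < 3 / 5) : deriv uu s = 1 := by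
  have h : uu =ᶠ[nhds s] id := by
    have ho : IsOpen {s : ℝ | |s| < 3 / 5} := isOpen_lt continuous_abs continuous_const
    filter_upwards [ho.mem_nhds hs] with y hy
    exact uu_eq_h (le_of_lt hy)
  rw [h.deriv_eq]
  simp

theorem abs_uu_le_h (s : ℝ) : |uu s| ≤ 4 / 5 := by
  by_cases h : |s| ≤ 4 / 5
  · rw [uu, abs_mul, abs_of_nonneg bump.nonneg]
    have := bump.le_one (x := s)
    have h0 := bump.nonneg (x := s)
    nlinarith [abs_nonneg s]
  · have : bump s = 0 := bump.zero_of_le_dist (by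
      simp only [bump, dist_zero_right, Real.norm_eq_abs]; linarith [not_le.1 h])
    simp [uu, this]
    norm_num

theorem one_sub_uu_pos_h (s : ℝ) : 0 < 1 - uu s ^ 2 := by
  have := abs_uu_le_h s
  have h2 : uu s ^ 2 ≤ (4 / 5) ^ 2 := by
    rw [← sq_abs]; exact pow_le_pow_left₀ (abs_nonneg _) this 2
  linarith

theorem Conv.scale_h {V : E d → ℝ} (hV : Conv 2 V) (c : E d) {τ : ℝ} (hτ : 0 < τ) :
    Conv (2 * τ) fun x => V (c + √τ • x) := by
  have hA : ∀ x : E d, HasFDerivAt (fun x : E d => c + √τ • x)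
      (√τ • ContinuousLinearMap.id ℝ (E d)) x := fun x =>
    ((hasFDerivAt_id x).const_smul √τ).const_add c
  have hd1 : Differentiable ℝ V := hV.1.differentiable (by norm_num)
  have hd2 : Differentiable ℝ (fderiv ℝ V) :=
    (hV.1.fderiv_right (m := 1) (by norm_num)).differentiable (by norm_num)
  have h1 : fderiv ℝ (fun x => V (c + √τ • x)) = fun x => √τ • fderiv ℝ V (c + √τ • x) := by
    funext x
    have := ((hd1 (c + √τ • x)).hasFDerivAt.comp x (hA x)).fderiv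
    refine this.trans ?_
    ext v; simp
  refine ⟨hV.1.comp (contDiff_const.add (contDiff_id.const_smul _)), fun x v => ?_⟩
  have h2 : iteratedFDeriv ℝ 2 (fun x => V (c + √τ • x)) x ![v, v]
      = τ * iteratedFDeriv ℝ 2 V (c + √τ • x) ![v, v] := by
    rw [itd_two, itd_two, h1]
    have := (((hd2 (c + √τ • x)).hasFDerivAt.comp x (hA x)).const_smul √τ).fderiv
    have h3 : fderiv ℝ (fun x => √τ • fderiv ℝ V (c + √τ • x)) x = _ := this
    rw [h3]
    simp only [ContinuousLinearMap.smul_apply, ContinuousLinearMap.comp_apply,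
      ContinuousLinearMap.id_apply, map_smul, smul_eq_mul]
    rw [← mul_assoc, Real.mul_self_sqrt hτ.le]
  rw [h2]
  have := hV.2 (c + √τ • x) v
  constructor
  · exact mul_nonneg hτ.le this.1
  · nlinarith [this.2]

theorem Wt_scale_h (V : E d → ℝ) (c : E d) {τ : ℝ} (hτ : 0 < τ) (t : ℝ) (z : E d) :
    Wt (fun x => V (c + √τ • x)) t z = Wt V (τ * t) (c + √τ • z) := by
  simp only [Wt, Real.sqrt_mul hτ.le, smul_add, smul_smul, add_assoc]

theorem integral_gam_shift_h (F : E d → ℝ) {t : ℝ} (ht : 0 < t) (z : E d) :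
    ∫ ξ, F (z + √t • ξ) ∂(gam d) = (2 * Real.pi * t) ^ (-(d : ℝ) / 2) *
      ∫ x, Real.exp (-(‖x - z‖ ^ 2 / (2 * t))) * F x := by
  have hs : 0 < √t := Real.sqrt_pos.2 ht
  rw [gam_eq_withDensity, integral_withDensity_eq_integral_toReal_smul (by fun_prop)
    (by simp)]
  have h1 : ∀ ξ : E d, (ENNReal.ofReal ((2 * Real.pi) ^ (-(d : ℝ) / 2) *
      Real.exp (-‖ξ‖ ^ 2 / 2))).toReal • F (z + √t • ξ) = (2 * Real.pi) ^ (-(d : ℝ) / 2) *
      (fun y : E d => Real.exp (-(‖y‖ ^ 2 / (2 * t))) * F (z + y)) (√t • ξ) := by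
    intro ξ
    rw [ENNReal.toReal_ofReal (by positivity)]
    simp only [norm_smul, Real.norm_eq_abs, abs_of_pos hs, mul_pow, Real.sq_sqrt ht.le,
      smul_eq_mul, mul_assoc]
    congr 3
    field_simp
  simp_rw [h1]
  rw [integral_const_mul, Measure.integral_comp_smul_of_nonneg volume
    (fun y : E d => Real.exp (-(‖y‖ ^ 2 / (2 * t))) * F (z + y)) √t (hR := hs.le)]
  have h2 : ∫ y : E d, Real.exp (-(‖y‖ ^ 2 / (2 * t))) * F (z + y)
      = ∫ x, Real.exp (-(‖x - z‖ ^ 2 / (2 * t))) * F x := by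
    rw [← integral_add_left_eq_self (fun x => Real.exp (-(‖x - z‖ ^ 2 / (2 * t))) * F x) z]
    simp
  rw [h2, smul_eq_mul, ← mul_assoc]
  congr 1
  rw [Real.mul_rpow (by positivity) ht.le, finrank_euclideanSpace, Fintype.card_fin,
    Real.sqrt_eq_rpow, ← Real.rpow_natCast, ← Real.rpow_mul ht.le, ← Real.rpow_neg ht.le]
  congr 2
  ring

theorem Conv.exp_neg_Wt_h {ε : ℝ} {W : E d → ℝ} (hW : Conv ε W) {t : ℝ} (ht : 0 < t) (z : E d) :
    Real.exp (-Wt W t z) = (2 * Real.pi * t) ^ (-(d : ℝ) / 2) *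
      ∫ x, Real.exp (-(‖x - z‖ ^ 2 / (2 * t) + W x)) := by
  have h := integral_gam_shift_h (fun x => Real.exp (-W x)) ht z
  have h2 : ∀ x : E d, Real.exp (-(‖x - z‖ ^ 2 / (2 * t))) * Real.exp (-W x)
      = Real.exp (-(‖x - z‖ ^ 2 / (2 * t) + W x)) := fun x => by
    rw [← Real.exp_add]; congr 1; ring
  simp_rw [h2] at h
  have hp := (hW.sconv_post_h t z).integral_exp_pos (inv_pos.2 ht)
  rw [Wt, neg_neg, h, Real.exp_log (by positivity)]

end Vale.Agent.P347
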