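import Vale.Agent.P347.Heat1

open MeasureTheory ProbabilityTheory Filter Set
open scoped ENNReal ContDiff RealInnerProductSpace

namespace Vale.Agent.P347

variable {d : ℕ}

namespace Heat

section Laplace

variable {X P : Type} [MeasurableSpace X] {μ : Measure X} [NormedAddCommGroup P]
  [NormedSpace ℝ P]

/-- domination condition for Laplace type integrals -/
def LapOK (μ : Measure X) (L : X → P →L[ℝ] ℝ) (U : Set P) {F : Type} [NormedAddCommGroup F]
    (f : X → F) : Prop :=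
  AEStronglyMeasurable f μ ∧ ∀ p ∈ U, ∃ ε : ℝ, 0 < ε ∧
    Integrable (fun x => Real.exp (L x p + ε * ‖L x‖) * ‖f x‖) μ

theorem meas_exp {L : X → P →L[ℝ] ℝ} (hL : AEStronglyMeasurable L μ) (p : P) :
    AEStronglyMeasurable (fun x => Real.exp (L x p)) μ :=
  Real.continuous_exp.comp_aestronglyMeasurable (hL.apply_continuousLinearMap p)

theorem meas_smulRight {L : X → P →L[ℝ] ℝ} {F : Type} [NormedAddCommGroup F] [NormedSpace ℝ F]
    {f : X → F} (hL : AEStronglyMeasurable L μ) (hf : AEStronglyMeasurable f μ) :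
    AEStronglyMeasurable (fun x => (L x).smulRight (f x)) μ :=
  (ContinuousLinearMap.smulRightL ℝ P F).aestronglyMeasurable_comp₂ hL hf

theorem le_exp_half {ε a : ℝ} (hε : 0 < ε) : a ≤ 2 / ε * Real.exp (ε / 2 * a) := by
  have h := Real.add_one_le_exp (ε / 2 * a)
  have h2 : a = 2 / ε * (ε / 2 * a) := by field_simp
  calc a = 2 / ε * (ε / 2 * a) := h2
    _ ≤ _ := mul_le_mul_of_nonneg_left (by linarith) (by positivity)

theorem LapOK.deriv {L : X → P →L[ℝ] ℝ} {U : Set P} {F : Type} [NormedAddCommGroup F]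
    [NormedSpace ℝ F] {f : X → F} (hL : AEStronglyMeasurable L μ) (hf : LapOK μ L U f) :
    LapOK μ L U (fun x => (L x).smulRight (f x)) := by
  refine ⟨meas_smulRight hL hf.1, fun p hp => ?_⟩
  obtain ⟨ε, hε, hi⟩ := hf.2 p hp
  refine ⟨ε / 2, by positivity, ?_⟩
  refine (hi.const_mul (2 / ε)).mono' ?_ (ae_of_all _ fun x => ?_)
  · exact (Real.continuous_exp.comp_aestronglyMeasurable
      ((hL.apply_continuousLinearMap p).add (hL.norm.const_mul _))).mul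
      (meas_smulRight hL hf.1).norm
  · rw [Real.norm_of_nonneg (by positivity), ContinuousLinearMap.norm_smulRight_apply]
    have h1 := le_exp_half (a := ‖L x‖) hε
    have h2 : Real.exp (L x p + ε * ‖L x‖)
        = Real.exp (L x p + ε / 2 * ‖L x‖) * Real.exp (ε / 2 * ‖L x‖) := by
      rw [← Real.exp_add]; congr 1; ring
    rw [h2]
    have h3 := mul_le_mul_of_nonneg_left (mul_le_mul_of_nonneg_right h1 (norm_nonneg (f x)))
      (Real.exp_pos (L x p + ε / 2 * ‖L x‖)).le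
    linarith

theorem LapOK.integrable {L : X → P →L[ℝ] ℝ} {U : Set P} {F : Type} [NormedAddCommGroup F]
    [NormedSpace ℝ F] {f : X → F} (hL : AEStronglyMeasurable L μ) (hf : LapOK μ L U f)
    {p : P} (hp : p ∈ U) : Integrable (fun x => Real.exp (L x p) • f x) μ := by
  obtain ⟨ε, hε, hi⟩ := hf.2 p hp
  refine hi.mono' ((meas_exp hL p).smul hf.1) (ae_of_all _ fun x => ?_)
  rw [norm_smul, Real.norm_of_nonneg (Real.exp_pos _).le]
  refine mul_le_mul_of_nonneg_right (Real.exp_le_exp.2 ?_) (norm_nonneg _)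
  have : 0 ≤ ε * ‖L x‖ := by positivity
  linarith

theorem LapOK.hasFDerivAt {L : X → P →L[ℝ] ℝ} {U : Set P} {F : Type} [NormedAddCommGroup F]
    [NormedSpace ℝ F] {f : X → F} (hL : AEStronglyMeasurable L μ) (hf : LapOK μ L U f)
    {p : P} (hp : p ∈ U) :
    HasFDerivAt (fun p => ∫ x, Real.exp (L x p) • f x ∂μ)
      (∫ x, Real.exp (L x p) • (L x).smulRight (f x) ∂μ) p := by
  obtain ⟨ε, hε, hi⟩ := (hf.deriv hL).2 p hp
  refine hasFDerivAt_integral_of_dominated_of_fderiv_le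
    (F' := fun q x => Real.exp (L x q) • (L x).smulRight (f x)) (Metric.ball_mem_nhds p hε)
    (Eventually.of_forall fun q => (meas_exp hL q).smul hf.1) (hf.integrable hL hp)
    ((meas_exp hL p).smul (meas_smulRight hL hf.1)) (ae_of_all _ fun x q hq => ?_) hi
    (ae_of_all _ fun x q _ => ?_)
  · rw [norm_smul, Real.norm_of_nonneg (Real.exp_pos _).le]
    refine mul_le_mul_of_nonneg_right (Real.exp_le_exp.2 ?_) (norm_nonneg _)
    have h1 : L x q = L x p + L x (q - p) := by simp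
    have h2 : L x (q - p) ≤ ‖L x‖ * ‖q - p‖ := (le_abs_self _).trans ((L x).le_opNorm _)
    have h3 : ‖q - p‖ ≤ ε := by rw [← dist_eq_norm]; exact le_of_lt hq
    nlinarith [norm_nonneg (L x)]
  · have h := ((L x).hasFDerivAt (x := q)).exp.smul_const (f x)
    refine h.congr_fderiv ?_
    ext v
    simp [smul_smul]

theorem LapOK.contDiffOn_nat {L : X → P →L[ℝ] ℝ} {U : Set P} (hU : IsOpen U)
    (hL : AEStronglyMeasurable L μ) (n : ℕ) : ∀ {F : Type} [NormedAddCommGroup F]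
    [NormedSpace ℝ F] {f : X → F}, LapOK μ L U f →
    ContDiffOn ℝ n (fun p => ∫ x, Real.exp (L x p) • f x ∂μ) U := by
  induction n with
  | zero =>
    intro F _ _ f hf
    simp only [Nat.cast_zero, contDiffOn_zero]
    exact fun p hp => (hf.hasFDerivAt hL hp).continuousAt.continuousWithinAt
  | succ n ih =>
    intro F _ _ f hf
    rw [Nat.cast_succ, contDiffOn_succ_iff_fderiv_of_isOpen hU]
    refine ⟨fun p hp => (hf.hasFDerivAt hL hp).differentiableAt.differentiableWithinAt,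
      by simp, ?_⟩
    exact (ih (hf.deriv hL)).congr fun p hp => (hf.hasFDerivAt hL hp).fderiv

theorem LapOK.contDiffOn {L : X → P →L[ℝ] ℝ} {U : Set P} (hU : IsOpen U)
    (hL : AEStronglyMeasurable L μ) {F : Type} [NormedAddCommGroup F]
    [NormedSpace ℝ F] {f : X → F} (hf : LapOK μ L U f) :
    ContDiffOn ℝ ∞ (fun p => ∫ x, Real.exp (L x p) • f x ∂μ) U :=
  contDiffOn_infty.2 fun n => LapOK.contDiffOn_nat hU hL n hf

end Laplace

/-- the linear functional (a, b, θ) ↦ a - b |x|^2 / 2 + ⟪x, θ⟫ -/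
noncomputable def LL (x : E d) : ℝ × ℝ × E d →L[ℝ] ℝ :=
  ContinuousLinearMap.fst ℝ ℝ (ℝ × E d) +
    (-(‖x‖ ^ 2 / 2)) • ((ContinuousLinearMap.fst ℝ ℝ (E d)).comp
      (ContinuousLinearMap.snd ℝ ℝ (ℝ × E d))) +
    (innerSL ℝ x).comp ((ContinuousLinearMap.snd ℝ ℝ (E d)).comp
      (ContinuousLinearMap.snd ℝ ℝ (ℝ × E d)))

theorem LL_apply (x : E d) (q : ℝ × ℝ × E d) :
    LL x q = q.1 - ‖x‖ ^ 2 / 2 * q.2.1 + ⟪x, q.2.2⟫ := by
  simp [LL]; ring

theorem continuous_LL : Continuous (LL (d := d)) := by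
  refine continuous_clm_apply.2 fun q => ?_
  simp only [LL_apply]
  fun_prop

theorem norm_LL_le (x : E d) : ‖LL x‖ ≤ 1 + ‖x‖ ^ 2 / 2 + ‖x‖ := by
  refine ContinuousLinearMap.opNorm_le_bound _ (by positivity) fun q => ?_
  rw [LL_apply, Real.norm_eq_abs]
  have h1 : |q.1| ≤ ‖q‖ := norm_fst_le q
  have h2 : |q.2.1| ≤ ‖q‖ := (norm_fst_le q.2).trans (norm_snd_le q)
  have h3 : ‖q.2.2‖ ≤ ‖q‖ := (norm_snd_le q.2).trans (norm_snd_le q)
  have h4 : |⟪x, q.2.2⟫| ≤ ‖x‖ * ‖q‖ :=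
    (abs_real_inner_le_norm _ _).trans (mul_le_mul_of_nonneg_left h3 (norm_nonneg _))
  have h5 : |‖x‖ ^ 2 / 2 * q.2.1| ≤ ‖x‖ ^ 2 / 2 * ‖q‖ := by
    rw [abs_mul, abs_of_nonneg (by positivity)]
    exact mul_le_mul_of_nonneg_left h2 (by positivity)
  have h6 := abs_add_le (q.1 - ‖x‖ ^ 2 / 2 * q.2.1) ⟪x, q.2.2⟫
  have h7 := abs_sub q.1 (‖x‖ ^ 2 / 2 * q.2.1)
  linarith

/-- the parameter map -/
noncomputable def gg (p : ℝ × E d) : ℝ × ℝ × E d :=
  (-(‖p.2‖ ^ 2 / (2 * p.1)), p.1⁻¹, p.1⁻¹ • p.2)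

theorem LL_gg (x : E d) {p : ℝ × E d} (hp : p.1 ≠ 0) :
    LL x (gg p) = -(‖x - p.2‖ ^ 2 / (2 * p.1)) := by
  rw [LL_apply, norm_sub_sq_real]
  simp only [gg, inner_smul_right]
  field_simp
  ring

theorem contDiffOn_gg : ContDiffOn ℝ ∞ (gg (d := d)) (Ioi 0 ×ˢ univ) := by
  have h0 : ∀ p ∈ (Ioi (0 : ℝ) ×ˢ (univ : Set (E d))), p.1 ≠ 0 := fun p hp => ne_of_gt hp.1
  have h1 : ContDiffOn ℝ ∞ (fun p : ℝ × E d => p.1⁻¹) (Ioi 0 ×ˢ univ) :=
    contDiffOn_fst.inv h0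
  refine ContDiffOn.prodMk ?_ (h1.prodMk (h1.smul contDiffOn_snd))
  refine ContDiffOn.neg (ContDiffOn.div (contDiff_snd.norm_sq ℝ).contDiffOn
    (contDiffOn_const.mul contDiffOn_fst) fun p hp => mul_ne_zero two_ne_zero (h0 p hp))

/-- measurable functions of exponential growth -/
def EG {F : Type} [NormedAddCommGroup F] (h : E d → F) : Prop :=
  AEStronglyMeasurable h volume ∧ ∃ A B : ℝ, 0 ≤ A ∧ 0 ≤ B ∧ ∀ x, ‖h x‖ ≤ A * Real.exp (B * ‖x‖)

theorem sconv_quad (t : ℝ) (z : E d) : SConv t⁻¹ fun x : E d => ‖x - z‖ ^ 2 / (2 * t) := by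
  have h0 : SConv 0 (fun _ : E d => (0 : ℝ)) := ⟨contDiff_const, fun x v => by
    rw [itd_two]; simp⟩
  simpa using h0.add_quad_h t z

theorem EG.lapOK {h : E d → ℝ} (hh : EG h) :
    LapOK volume LL {q : ℝ × ℝ × E d | 0 < q.2.1} h := by
  obtain ⟨hm, A, B, hA, hB, hb⟩ := hh
  refine ⟨hm, fun q hq => ⟨q.2.1 / 2, half_pos hq, ?_⟩⟩
  have hq' : 0 < q.2.1 := hq
  have hs := sconv_quad (d := d) (2 / q.2.1) 0
  have hi := hs.integrable_exp (inv_pos.2 (by positivity))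
    (f := fun x : E d => A * Real.exp (q.1 + q.2.1 / 2) *
      Real.exp ((B + ‖q.2.2‖ + q.2.1 / 2) * ‖x‖)) (by fun_prop)
    (A := A * Real.exp (q.1 + q.2.1 / 2)) (B := B + ‖q.2.2‖ + q.2.1 / 2)
    (fun x => le_of_eq (Real.norm_of_nonneg (by positivity)))
  refine hi.mono' ?_ (ae_of_all _ fun x => ?_)
  · refine AEStronglyMeasurable.mul (Continuous.aestronglyMeasurable ?_) hm.norm
    exact Real.continuous_exp.comp ((continuous_LL.clm_apply continuous_const).add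
      (continuous_const.mul continuous_LL.norm))
  · rw [Real.norm_of_nonneg (by positivity), smul_eq_mul]
    have h1 : LL x q + q.2.1 / 2 * ‖LL x‖ ≤ -(‖x - 0‖ ^ 2 / (2 * (2 / q.2.1)))
        + (q.1 + q.2.1 / 2) + (‖q.2.2‖ + q.2.1 / 2) * ‖x‖ := by
      rw [LL_apply, sub_zero]
      have h2 := mul_le_mul_of_nonneg_left (norm_LL_le x) (half_pos hq').le
      have h3 := real_inner_le_norm x q.2.2
      have h4 : ‖x‖ ^ 2 / (2 * (2 / q.2.1)) = ‖x‖ ^ 2 * q.2.1 / 4 := by field_simp; norm_num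
      rw [h4]
      nlinarith
    calc Real.exp (LL x q + q.2.1 / 2 * ‖LL x‖) * ‖h x‖
        ≤ Real.exp (-(‖x - 0‖ ^ 2 / (2 * (2 / q.2.1)))
          + (q.1 + q.2.1 / 2) + (‖q.2.2‖ + q.2.1 / 2) * ‖x‖) * (A * Real.exp (B * ‖x‖)) :=
          mul_le_mul (Real.exp_le_exp.2 h1) (hb x) (norm_nonneg _) (Real.exp_pos _).le
      _ = _ := by
          have : (B + ‖q.2.2‖ + q.2.1 / 2) * ‖x‖ = (‖q.2.2‖ + q.2.1 / 2) * ‖x‖ + B * ‖x‖ := by
            ring
          rw [this]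
          simp only [Real.exp_add]
          ring

/-- unnormalized Gaussian averages -/
noncomputable def MM (h : E d → ℝ) (p : ℝ × E d) : ℝ :=
  ∫ x, Real.exp (-(‖x - p.2‖ ^ 2 / (2 * p.1))) * h x

theorem MM_eq (h : E d → ℝ) {p : ℝ × E d} (hp : p.1 ≠ 0) :
    MM h p = ∫ x, Real.exp (LL x (gg p)) • h x := by
  simp only [MM, LL_gg _ hp, smul_eq_mul]

theorem isOpen_dom : IsOpen (Ioi (0 : ℝ) ×ˢ (univ : Set (E d))) := isOpen_Ioi.prod isOpen_univ

theorem EG.contDiffOn_MM {h : E d → ℝ} (hh : EG h) :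
    ContDiffOn ℝ ∞ (MM h) (Ioi 0 ×ˢ univ) := by
  have hU : IsOpen {q : ℝ × ℝ × E d | 0 < q.2.1} := isOpen_lt continuous_const (by fun_prop)
  have h1 := LapOK.contDiffOn hU continuous_LL.aestronglyMeasurable hh.lapOK
  refine (h1.comp contDiffOn_gg fun p hp => ?_).congr fun p hp => MM_eq h (ne_of_gt hp.1)
  have h0 : (0 : ℝ) < p.1 := hp.1
  exact inv_pos.2 h0

theorem hasFDerivAt_ker (x : E d) {p : ℝ × E d} (hp : p.1 ≠ 0) :
    ∃ D : ℝ × E d →L[ℝ] ℝ, HasFDerivAt (fun p : ℝ × E d => -(‖x - p.2‖ ^ 2 / (2 * p.1))) D p ∧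
      ∀ v, D v = ⟪x - p.2, v.2⟫ / p.1 + v.1 * ‖x - p.2‖ ^ 2 / (2 * p.1 ^ 2) := by
  have h1 := (hasFDerivAt_snd (𝕜 := ℝ) (p := p)).const_sub x
  have h2 := (hasFDerivAt_inv (𝕜 := ℝ) (mul_ne_zero two_ne_zero hp)).comp p
      ((hasFDerivAt_fst (𝕜 := ℝ) (p := p)).const_mul 2)
  have h3 := (h1.norm_sq.mul h2).neg
  refine ⟨_, h3, fun v => ?_⟩
  simp [inner_sub_left]
  field_simp
  ring

theorem EG.fderiv_MM_h {h : E d → ℝ} (hh : EG h) {p : ℝ × E d} (hp : 0 < p.1) (v : ℝ × E d) :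
    fderiv ℝ (MM h) p v = ∫ x, Real.exp (-(‖x - p.2‖ ^ 2 / (2 * p.1))) *
      ((⟪x - p.2, v.2⟫ / p.1 + v.1 * ‖x - p.2‖ ^ 2 / (2 * p.1 ^ 2)) * h x) := by
  have hmem : (Ioi (0 : ℝ) ×ˢ (univ : Set (E d))) ∈ nhds p :=
    isOpen_dom.mem_nhds ⟨hp, mem_univ _⟩
  have hg : HasFDerivAt gg (fderiv ℝ gg p) p :=
    ((contDiffOn_gg.contDiffAt hmem).differentiableAt (by simp)).hasFDerivAt
  have hq : gg p ∈ {q : ℝ × ℝ × E d | 0 < q.2.1} := inv_pos.2 hp
  have hL := (continuous_LL (d := d)).aestronglyMeasurable (μ := volume)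
  have h1 := (hh.lapOK.hasFDerivAt hL hq).comp p hg
  have h2 : MM h =ᶠ[nhds p] (fun q => ∫ x, Real.exp (LL x q) • h x) ∘ gg := by
    filter_upwards [hmem] with p' hp'
    exact MM_eq h (ne_of_gt hp'.1)
  rw [h2.fderiv_eq, h1.fderiv, ContinuousLinearMap.comp_apply,
    ContinuousLinearMap.integral_apply ((hh.lapOK.deriv hL).integrable hL hq)]
  refine integral_congr_ae (ae_of_all _ fun x => ?_)
  obtain ⟨D, hD, hDv⟩ := hasFDerivAt_ker x hp.ne'
  have h3 : (fun p : ℝ × E d => -(‖x - p.2‖ ^ 2 / (2 * p.1))) =ᶠ[nhds p] LL x ∘ gg := by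
    filter_upwards [hmem] with p' hp'
    exact (LL_gg x (ne_of_gt hp'.1)).symm
  have h4 := (hD.congr_of_eventuallyEq h3.symm).unique ((LL x).hasFDerivAt.comp p hg)
  have h5 : LL x (fderiv ℝ gg p v) = D v := by rw [h4]; rfl
  simp only [ContinuousLinearMap.smul_apply, ContinuousLinearMap.smulRight_apply, smul_eq_mul,
    h5, hDv, LL_gg x hp.ne']

end Heat

end Vale.Agent.P347
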