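import Vale.Agent.P347.Heat2

open MeasureTheory ProbabilityTheory Filter Set
open scoped ENNReal ContDiff RealInnerProductSpace

namespace Vale.Agent.P347

variable {d : ℕ}

namespace Heat

section EG

variable {F : Type} [NormedAddCommGroup F]

theorem EG.of_lin {h : E d → F} (hc : Continuous h) {a b : ℝ} (ha : 0 ≤ a) (hb : 0 ≤ b)
    (hh : ∀ x, ‖h x‖ ≤ a + b * ‖x‖) : EG h := by
  refine ⟨hc.aestronglyMeasurable, a + b, 1, by positivity, zero_le_one, fun x => (hh x).trans ?_⟩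
  have h1 := Real.add_one_le_exp (1 * ‖x‖)
  have h2 := norm_nonneg x
  nlinarith [mul_nonneg ha h2, mul_le_mul_of_nonneg_left h1 ha, mul_le_mul_of_nonneg_left h1 hb]

theorem EG.const (c : F) : EG (fun _ : E d => c) :=
  EG.of_lin continuous_const (norm_nonneg c) le_rfl fun x => by simp

theorem EG.id : EG (fun x : E d => x) :=
  EG.of_lin continuous_id le_rfl zero_le_one fun x => by simp

theorem EG.add {f g : E d → F} (hf : EG f) (hg : EG g) : EG (fun x => f x + g x) := by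
  obtain ⟨hm, A, B, hA, hB, hb⟩ := hf
  obtain ⟨hm', A', B', hA', hB', hb'⟩ := hg
  refine ⟨hm.add hm', A + A', B + B', by positivity, by positivity, fun x => ?_⟩
  have h1 : Real.exp (B * ‖x‖) ≤ Real.exp ((B + B') * ‖x‖) :=
    Real.exp_le_exp.2 (by nlinarith [norm_nonneg x])
  have h2 : Real.exp (B' * ‖x‖) ≤ Real.exp ((B + B') * ‖x‖) :=
    Real.exp_le_exp.2 (by nlinarith [norm_nonneg x])
  have := norm_add_le (f x) (g x)
  nlinarith [hb x, hb' x, mul_le_mul_of_nonneg_left h1 hA, mul_le_mul_of_nonneg_left h2 hA']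

theorem EG.neg {f : E d → F} (hf : EG f) : EG (fun x => -f x) := by
  obtain ⟨hm, A, B, hA, hB, hb⟩ := hf
  exact ⟨hm.neg, A, B, hA, hB, fun x => by simpa using hb x⟩

theorem EG.sub {f g : E d → F} (hf : EG f) (hg : EG g) : EG (fun x => f x - g x) := by
  simpa only [sub_eq_add_neg] using hf.add hg.neg

theorem EG.of_le_mul {G H : Type} [NormedAddCommGroup G] [NormedAddCommGroup H] {f : E d → F}
    {g : E d → G} {h : E d → H} (hf : EG f) (hg : EG g) (hm : AEStronglyMeasurable h volume)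
    (hh : ∀ x, ‖h x‖ ≤ ‖f x‖ * ‖g x‖) : EG h := by
  obtain ⟨-, A, B, hA, hB, hb⟩ := hf
  obtain ⟨-, A', B', hA', hB', hb'⟩ := hg
  refine ⟨hm, A * A', B + B', by positivity, by positivity, fun x => (hh x).trans ?_⟩
  refine (mul_le_mul (hb x) (hb' x) (norm_nonneg _) (by positivity)).trans (le_of_eq ?_)
  rw [add_mul, Real.exp_add]
  ring

theorem EG.mul {f g : E d → ℝ} (hf : EG f) (hg : EG g) : EG (fun x => f x * g x) :=
  hf.of_le_mul hg (hf.1.mul hg.1) fun x => norm_mul_le _ _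

theorem EG.sq {f : E d → ℝ} (hf : EG f) : EG (fun x => f x ^ 2) := by
  simpa only [pow_two] using hf.mul hf

theorem EG.div_const {f : E d → ℝ} (hf : EG f) (c : ℝ) : EG (fun x => f x / c) := by
  simpa only [div_eq_mul_inv] using hf.mul (EG.const c⁻¹)

theorem EG.inner {f g : E d → E d} (hf : EG f) (hg : EG g) : EG (fun x => ⟪f x, g x⟫) :=
  hf.of_le_mul hg (hf.1.inner hg.1) fun x => norm_inner_le_norm _ _

theorem EG.norm {f : E d → F} (hf : EG f) : EG (fun x => ‖f x‖) := by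
  obtain ⟨hm, A, B, hA, hB, hb⟩ := hf
  exact ⟨hm.norm, A, B, hA, hB, fun x => by simpa using hb x⟩

theorem EG.inner_sub (z v : E d) : EG (fun x : E d => ⟪x - z, v⟫) :=
  (EG.id.sub (EG.const z)).inner (EG.const v)

theorem EG.normsq_sub (z : E d) : EG (fun x : E d => ‖x - z‖ ^ 2) :=
  (EG.id.sub (EG.const z)).norm.sq

theorem EG.integrable_gibbs [NormedSpace ℝ F] {κ : ℝ} {U : E d → ℝ} (hκ : 0 < κ)
    (hU : SConv κ U) {f : E d → F} (hf : EG f) : Integrable f (gibbs U) := by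
  obtain ⟨hm, A, B, -, -, hb⟩ := hf
  exact hU.integrable_gibbs hκ hm hb

theorem EG.integrable_exp [NormedSpace ℝ F] {κ : ℝ} {U : E d → ℝ} (hκ : 0 < κ)
    (hU : SConv κ U) {f : E d → F} (hf : EG f) :
    Integrable (fun x => Real.exp (-U x) • f x) volume := by
  obtain ⟨hm, A, B, -, -, hb⟩ := hf
  exact hU.integrable_exp hκ hm hb

end EG

theorem continuous_gradient {W : E d → ℝ} (hW : ContDiff ℝ 2 W) : Continuous (gradient W) :=
  (InnerProductSpace.toDual ℝ (E d)).symm.continuous.comp (hW.continuous_fderiv (by norm_num))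

end Heat

open Heat

theorem Conv.eg_gradient_h {ε : ℝ} {W : E d → ℝ} (hW : Conv ε W) : EG (gradient W) := by
  refine EG.of_lin (continuous_gradient hW.1) (norm_nonneg (gradient W 0)) (abs_nonneg ε)
    fun x => ?_
  have h := hW.abs_h.norm_gradient_sub_le_h (abs_nonneg ε) x 0
  have h2 := norm_add_le (gradient W 0) (gradient W x - gradient W 0)
  simp only [add_sub_cancel, sub_zero] at h h2
  linarith

theorem Conv.eg_fderiv_h {ε : ℝ} {W : E d → ℝ} (hW : Conv ε W) (v : E d) :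
    EG (fun x => fderiv ℝ W x v) := by
  simpa only [inner_gradient] using hW.eg_gradient_h.inner (EG.const v)

theorem Conv.eg_exp_h {ε : ℝ} {W : E d → ℝ} (hW : Conv ε W) : EG (fun x => Real.exp (-W x)) := by
  refine ⟨(Real.continuous_exp.comp hW.1.continuous.neg).aestronglyMeasurable,
    Real.exp (-W 0), ‖gradient W 0‖, by positivity, by positivity, fun x => ?_⟩
  rw [Real.norm_of_nonneg (Real.exp_pos _).le, ← Real.exp_add, Real.exp_le_exp]
  have h := hW.sconv_zero_h.lower 0 x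
  have h2 := abs_real_inner_le_norm (gradient W 0) x
  simp only [sub_zero] at h
  have := neg_abs_le ⟪gradient W 0, x⟫
  linarith

theorem Conv.eg_snd_h {ε : ℝ} {W : E d → ℝ} (hW : Conv ε W) (v w : E d) :
    EG (fun x => fderiv ℝ (fderiv ℝ W) x v w) := by
  have hc : Continuous (fderiv ℝ (fderiv ℝ W)) :=
    (hW.1.fderiv_right (m := 1) (by norm_num)).continuous_fderiv (by norm_num)
  refine EG.of_lin ((hc.clm_apply continuous_const).clm_apply continuous_const)
    (a := |ε| * ‖v‖ * ‖w‖) (by positivity) le_rfl fun x => ?_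
  rw [zero_mul, add_zero]
  refine (ContinuousLinearMap.le_opNorm₂ _ _ _).trans ?_
  have := hW.abs_h.norm_snd_le_h (abs_nonneg ε) x
  gcongr

/-- integration by parts for Gibbs laws -/
theorem gibbs_ibp_h {κ ε : ℝ} {U : E d → ℝ} (hκ : 0 < κ) (hU : SConv κ U) (hU' : Conv ε U)
    {f : E d → ℝ} (hf : Differentiable ℝ f) (v : E d) (h1 : EG f)
    (h2 : EG fun x => fderiv ℝ f x v) :
    ∫ x, f x * fderiv ℝ U x v ∂(gibbs U) = ∫ x, fderiv ℝ f x v ∂(gibbs U) := by
  rw [hU.integral_gibbs hκ, hU.integral_gibbs hκ]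
  congr 1
  have hd : Differentiable ℝ U := hU.1.differentiable (by norm_num)
  have hg : ∀ x, HasFDerivAt (fun x => Real.exp (-U x))
      (Real.exp (-U x) • -fderiv ℝ U x) x := fun x => (hd x).hasFDerivAt.neg.exp
  have hg' : ∀ x, fderiv ℝ (fun x => Real.exp (-U x)) x v
      = -(Real.exp (-U x) * fderiv ℝ U x v) := fun x => by rw [(hg x).fderiv]; simp
  have h := integral_mul_fderiv_eq_neg_fderiv_mul_of_integrable (μ := volume) (f := f)
    (g := fun x => Real.exp (-U x)) (v := v) ?_ ?_ ?_ (fun x _ => hf x)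
    (fun x _ => (hg x).differentiableAt)
  · simp only [hg', mul_neg, integral_neg, neg_inj] at h
    simp only [smul_eq_mul]
    have e1 : ∀ x, Real.exp (-U x) * (f x * fderiv ℝ U x v)
        = f x * (Real.exp (-U x) * fderiv ℝ U x v) := fun x => by ring
    have e2 : ∀ x, Real.exp (-U x) * fderiv ℝ f x v = fderiv ℝ f x v * Real.exp (-U x) :=
      fun x => by ring
    simp only [e1, e2]
    exact h
  · simpa only [smul_eq_mul, mul_comm] using h2.integrable_exp hκ hU
  · have := ((h1.mul (hU'.eg_fderiv_h v)).integrable_exp hκ hU).neg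
    refine this.congr (ae_of_all _ fun x => ?_)
    simp only [hg', smul_eq_mul, Pi.neg_apply]
    ring
  · simpa only [smul_eq_mul, mul_comm] using h1.integrable_exp hκ hU

section Post

variable {ε : ℝ} {W : E d → ℝ} {t : ℝ}

theorem Conv.post_prob_h (hW : Conv ε W) (ht : 0 < t) (z : E d) :
    IsProbabilityMeasure (post W t z) :=
  (hW.sconv_post_h t z).gibbs_prob (inv_pos.2 ht)

theorem Conv.int_post_h (hW : Conv ε W) (ht : 0 < t) (z : E d) {F : Type} [NormedAddCommGroup F]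
    [NormedSpace ℝ F] {f : E d → F} (hf : EG f) : Integrable f (post W t z) :=
  hf.integrable_gibbs (inv_pos.2 ht) (hW.sconv_post_h t z)

theorem MM_exp_h (W : E d → ℝ) (t : ℝ) (z : E d) (f : E d → ℝ) :
    MM (fun x => Real.exp (-W x) * f x) (t, z)
      = ∫ x, Real.exp (-(‖x - z‖ ^ 2 / (2 * t) + W x)) * f x := by
  simp only [MM, neg_add, Real.exp_add, mul_assoc]

theorem MM_exp_one_h (W : E d → ℝ) (t : ℝ) (z : E d) :
    MM (fun x => Real.exp (-W x)) (t, z) = ∫ x, Real.exp (-(‖x - z‖ ^ 2 / (2 * t) + W x)) := by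
  simp only [MM, neg_add, Real.exp_add]

theorem Conv.MM_pos_h (hW : Conv ε W) (ht : 0 < t) (z : E d) :
    0 < MM (fun x => Real.exp (-W x)) (t, z) := by
  rw [MM_exp_one_h]
  exact (hW.sconv_post_h t z).integral_exp_pos (inv_pos.2 ht)

theorem Conv.integral_post_h (hW : Conv ε W) (ht : 0 < t) (z : E d) (f : E d → ℝ) :
    ∫ x, f x ∂(post W t z) = MM (fun x => Real.exp (-W x) * f x) (t, z) /
      MM (fun x => Real.exp (-W x)) (t, z) := by
  rw [post, (hW.sconv_post_h t z).integral_gibbs (inv_pos.2 ht), MM_exp_h, MM_exp_one_h]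
  simp only [smul_eq_mul]
  ring

theorem Conv.Wt_eq_h (hW : Conv ε W) (ht : 0 < t) (z : E d) :
    Wt W t z = (d : ℝ) / 2 * Real.log (2 * Real.pi * t)
      - Real.log (MM (fun x => Real.exp (-W x)) (t, z)) := by
  have h := hW.exp_neg_Wt_h ht z
  rw [← MM_exp_one_h] at h
  have hp := hW.MM_pos_h ht z
  have h2 := congrArg Real.log h
  rw [Real.log_exp, Real.log_mul (by positivity) hp.ne', Real.log_rpow (by positivity)] at h2
  linarith

theorem Conv.contDiffOn_Wt_h (hW : Conv ε W) :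
    ContDiffOn ℝ ∞ (fun p : ℝ × E d => Wt W p.1 p.2) (Ioi 0 ×ˢ univ) := by
  refine ContDiffOn.congr (f := fun p : ℝ × E d => (d : ℝ) / 2 * Real.log (2 * Real.pi * p.1)
      - Real.log (MM (fun x => Real.exp (-W x)) p)) ?_ fun p hp => hW.Wt_eq_h hp.1 p.2
  refine (contDiffOn_const.mul ((contDiffOn_const.mul contDiffOn_fst).log fun p hp => ?_)).sub
    (hW.eg_exp_h.contDiffOn_MM.log fun p hp => (hW.MM_pos_h hp.1 p.2).ne')
  have : (0 : ℝ) < p.1 := hp.1
  positivity

theorem Conv.contDiff_Wt_h (hW : Conv ε W) (ht : 0 < t) : ContDiff ℝ ∞ (Wt W t) :=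
  hW.contDiffOn_Wt_h.comp_contDiff (f := fun z : E d => (t, z))
    (contDiff_const.prodMk contDiff_id) fun z => ⟨ht, mem_univ _⟩

theorem Conv.contDiff_PhiOf_h (hW : Conv ε W) : ContDiff ℝ ∞ (PhiOf W) :=
  hW.contDiffOn_Wt_h.comp_contDiff (f := fun p : ℝ × E d => (1 - uu p.1 ^ 2, p.2))
    ((contDiff_const.sub ((uu_contDiff_h.comp contDiff_fst).pow 2)).prodMk contDiff_snd)
    fun p => ⟨one_sub_uu_pos_h p.1, mem_univ _⟩

theorem Heat.EG.diffAt_MM {h : E d → ℝ} (hh : EG h) {p : ℝ × E d} (hp : 0 < p.1) :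
    DifferentiableAt ℝ (MM h) p :=
  (hh.contDiffOn_MM.contDiffAt (isOpen_dom.mem_nhds ⟨hp, mem_univ _⟩)).differentiableAt (by simp)

theorem Conv.fderiv_MM_h (hW : Conv ε W) (ht : 0 < t) (z : E d) {f : E d → ℝ} (hf : EG f)
    (v : ℝ × E d) :
    fderiv ℝ (MM fun x => Real.exp (-W x) * f x) (t, z) v
      = (∫ x, (⟪x - z, v.2⟫ / t + v.1 * ‖x - z‖ ^ 2 / (2 * t ^ 2)) * f x ∂(post W t z))
        * MM (fun x => Real.exp (-W x)) (t, z) := by
  rw [(hW.eg_exp_h.mul hf).fderiv_MM_h (p := (t, z)) ht, hW.integral_post_h ht,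
    div_mul_cancel₀ _ (hW.MM_pos_h ht z).ne', MM]
  refine integral_congr_ae (ae_of_all _ fun x => ?_)
  simp only
  ring

theorem Conv.fderiv_Wt2_h (hW : Conv ε W) (ht : 0 < t) (z : E d) (v : ℝ × E d) :
    fderiv ℝ (fun p : ℝ × E d => Wt W p.1 p.2) (t, z) v = (d : ℝ) / 2 * (v.1 / t)
      - ∫ x, (⟪x - z, v.2⟫ / t + v.1 * ‖x - z‖ ^ 2 / (2 * t ^ 2)) ∂(post W t z) := by
  have hmem : (Ioi (0 : ℝ) ×ˢ (univ : Set (E d))) ∈ nhds (t, z) :=
    isOpen_dom.mem_nhds ⟨ht, mem_univ _⟩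
  have h1 : (fun p : ℝ × E d => Wt W p.1 p.2) =ᶠ[nhds (t, z)] fun p : ℝ × E d =>
      (d : ℝ) / 2 * Real.log (2 * Real.pi * p.1)
        - Real.log (MM (fun x => Real.exp (-W x)) p) := by
    filter_upwards [hmem] with p hp
    exact hW.Wt_eq_h hp.1 p.2
  have hp := hW.MM_pos_h ht z
  have h2 := (((hasFDerivAt_fst (𝕜 := ℝ) (p := (t, z))).const_mul (2 * Real.pi)).log
    (show 2 * Real.pi * t ≠ 0 by positivity)).const_mul ((d : ℝ) / 2)
  have h3 := (hW.eg_exp_h.diffAt_MM (p := (t, z)) ht).hasFDerivAt.log hp.ne'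
  have h4 := (h2.sub h3).fderiv
  rw [h1.fderiv_eq]
  refine (congrArg (fun D : ℝ × E d →L[ℝ] ℝ => D v) h4).trans ?_
  have h5 := hW.fderiv_MM_h ht z (EG.const 1) v
  simp only [mul_one] at h5
  simp only [ContinuousLinearMap.sub_apply, ContinuousLinearMap.smul_apply, smul_eq_mul,
    ContinuousLinearMap.coe_fst', h5]
  field_simp

theorem fderiv_slice_h {F : ℝ × E d → ℝ} {t : ℝ} {z : E d} (hF : DifferentiableAt ℝ F (t, z))
    (v : E d) : fderiv ℝ (fun z => F (t, z)) z v = fderiv ℝ F (t, z) (0, v) := by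
  have h := hF.hasFDerivAt.comp z (hasFDerivAt_prodMk_right (𝕜 := ℝ) t z)
  have h2 : fderiv ℝ (fun z => F (t, z)) z = _ := h.fderiv
  rw [h2]
  simp

theorem Conv.inner_mm_h (hW : Conv ε W) (ht : 0 < t) (z v : E d) :
    ⟪mm W t z, v⟫ = -(∫ x, ⟪x - z, v⟫ ∂(post W t z)) / t := by
  have hmem : (Ioi (0 : ℝ) ×ˢ (univ : Set (E d))) ∈ nhds (t, z) :=
    isOpen_dom.mem_nhds ⟨ht, mem_univ _⟩
  have hd : DifferentiableAt ℝ (fun p : ℝ × E d => Wt W p.1 p.2) (t, z) :=
    (hW.contDiffOn_Wt_h.contDiffAt hmem).differentiableAt (by simp)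
  have h := fderiv_slice_h hd v
  rw [hW.fderiv_Wt2_h ht] at h
  rw [mm, inner_gradient]
  refine h.trans ?_
  simp only [zero_div, mul_zero, zero_mul, add_zero, zero_sub, integral_div, neg_div]

theorem Conv.mean_post_h (hW : Conv ε W) (ht : 0 < t) (z : E d) :
    ∫ x, x ∂(post W t z) = z - t • mm W t z := by
  haveI := hW.post_prob_h ht z
  refine ext_inner_right ℝ fun v => ?_
  have hi := hW.int_post_h ht z EG.id
  rw [inner_sub_left, inner_smul_left, hW.inner_mm_h ht]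
  have h1 : ∫ x, ⟪x - z, v⟫ ∂(post W t z) = ⟪∫ x, x ∂(post W t z), v⟫ - ⟪z, v⟫ := by
    simp only [real_inner_comm v]
    have hi2 : Integrable (fun x => x - z) (post W t z) := hi.sub (integrable_const z)
    rw [integral_inner hi2, integral_sub hi (integrable_const z), inner_sub_right]
    simp
  rw [h1]
  simp only [conj_trivial]
  field_simp
  ring

theorem fderiv_quad_add_h {W : E d → ℝ} (hW : ContDiff ℝ 2 W) (t : ℝ) (z x v : E d) :
    fderiv ℝ (fun x => ‖x - z‖ ^ 2 / (2 * t) + W x) x v = ⟪x - z, v⟫ / t + fderiv ℝ W x v := by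
  have h := ((hasFDerivAt_quad t z x).add
    (hW.differentiable (by norm_num) x).hasFDerivAt).fderiv
  have h2 : fderiv ℝ (fun x => ‖x - z‖ ^ 2 / (2 * t) + W x) x = _ := h
  rw [h2]
  simp only [ContinuousLinearMap.add_apply, ContinuousLinearMap.smul_apply, smul_eq_mul,
    innerSL_apply_apply]
  ring

theorem Conv.mm_eq_h (hW : Conv ε W) (ht : 0 < t) (z : E d) :
    mm W t z = ∫ x, gradient W x ∂(post W t z) := by
  refine ext_inner_right ℝ fun v => ?_
  have h := gibbs_ibp_h (inv_pos.2 ht) (hW.sconv_post_h t z) (hW.conv_post_h ht z)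
    (f := fun _ => 1) (differentiable_const _) v (EG.const 1) (by simpa using EG.const (0 : ℝ))
  simp only [one_mul, fderiv_quad_add_h hW.1, fderiv_fun_const, Pi.zero_apply,
    ContinuousLinearMap.zero_apply, integral_zero] at h
  have h2 : ∫ x, ⟪x - z, v⟫ / t + fderiv ℝ W x v ∂(post W t z) = 0 := h
  rw [integral_add (hW.int_post_h ht z ((EG.inner_sub z v).div_const t))
    (hW.int_post_h ht z (hW.eg_fderiv_h v)), integral_div] at h2
  rw [hW.inner_mm_h ht, real_inner_comm, ← integral_inner (hW.int_post_h ht z hW.eg_gradient_h)]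
  simp only [real_inner_comm _ v, inner_gradient]
  rw [neg_div]
  linarith

theorem Conv.integral_post_add_h (hW : Conv ε W) (ht : 0 < t) (z α : E d) (f : E d → ℝ) :
    ∫ x, f x ∂(post W t (z + α)) = (∫ x, f x * Real.exp (⟪α, x⟫ / t) ∂(post W t z)) /
      ∫ x, Real.exp (⟪α, x⟫ / t) ∂(post W t z) := by
  have key : ∀ g : E d → ℝ, MM (fun x => Real.exp (-W x) * g x) (t, z + α)
      = Real.exp (-((‖α‖ ^ 2 + 2 * ⟪α, z⟫) / (2 * t))) *
        MM (fun x => Real.exp (-W x) * (g x * Real.exp (⟪α, x⟫ / t))) (t, z) := by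
    intro g
    simp only [MM]
    rw [← integral_const_mul]
    refine integral_congr_ae (ae_of_all _ fun x => ?_)
    have h1 : -(‖x - (z + α)‖ ^ 2 / (2 * t)) = -((‖α‖ ^ 2 + 2 * ⟪α, z⟫) / (2 * t))
        + -(‖x - z‖ ^ 2 / (2 * t)) + ⟪α, x⟫ / t := by
      rw [← sub_sub, norm_sub_sq_real (x - z) α, inner_sub_left, real_inner_comm α x,
        real_inner_comm α z]
      field_simp
      ring
    simp only [h1, Real.exp_add]
    ring
  have h1 := key f
  have h2 := key fun _ => 1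
  simp only [mul_one, one_mul] at h2
  have hp := hW.MM_pos_h ht z
  rw [hW.integral_post_h ht, hW.integral_post_h ht, hW.integral_post_h ht, h1, h2]
  rw [mul_div_mul_left _ _ (Real.exp_pos _).ne', div_div_div_cancel_right₀ hp.ne']

theorem Conv.contDiff_mm_h (hW : Conv ε W) (ht : 0 < t) : ContDiff ℝ 1 (mm W t) :=
  (InnerProductSpace.toDual ℝ (E d)).symm.contDiff.comp
    ((hW.contDiff_Wt_h ht).fderiv_right (m := 1) (by
      rw [one_add_one_eq_two]; exact ENat.LEInfty.out))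

/-- derivative of posterior expectations with respect to the center -/
theorem Conv.hasFDerivAt_post_h (hW : Conv ε W) (ht : 0 < t) (z : E d) {f : E d → ℝ} (hf : EG f) :
    ∃ D : E d →L[ℝ] ℝ, HasFDerivAt (fun z => ∫ x, f x ∂(post W t z)) D z ∧ ∀ w, D w =
      ((∫ x, ⟪x - z, w⟫ * f x ∂(post W t z))
        - (∫ x, ⟪x - z, w⟫ ∂(post W t z)) * ∫ x, f x ∂(post W t z)) / t := by
  have hp := hW.MM_pos_h ht z
  have hr := hasFDerivAt_prodMk_right (𝕜 := ℝ) t z
  have h1 := ((hW.eg_exp_h.mul hf).diffAt_MM (p := (t, z)) ht).hasFDerivAt.comp z hr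
  have h2 := (hW.eg_exp_h.diffAt_MM (p := (t, z)) ht).hasFDerivAt.comp z hr
  have h3 := (hasFDerivAt_inv (𝕜 := ℝ) hp.ne').comp z h2
  have h4 := h1.mul h3
  refine ⟨_, h4.congr_of_eventuallyEq (Eventually.of_forall fun z => ?_), fun w => ?_⟩
  · simp only [hW.integral_post_h ht, div_eq_mul_inv, Pi.mul_apply, Function.comp_apply]
  · have h5 := hW.fderiv_MM_h ht z (EG.const 1) (0, w)
    have h6 := hW.fderiv_MM_h ht z hf (0, w)
    simp only [mul_one, zero_mul, zero_div, add_zero, integral_div] at h5 h6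
    have h7 : ∫ x, ⟪x - z, w⟫ / t * f x ∂(post W t z)
        = (∫ x, ⟪x - z, w⟫ * f x ∂(post W t z)) / t := by
      rw [← integral_div]
      exact integral_congr_ae (ae_of_all _ fun x => by simp only; ring)
    rw [h7] at h6
    simp only [ContinuousLinearMap.add_apply, ContinuousLinearMap.smul_apply, smul_eq_mul,
      ContinuousLinearMap.comp_apply, ContinuousLinearMap.inr_apply, Function.comp_apply,
      ContinuousLinearMap.toSpanSingleton_apply, h5, h6]
    rw [hW.integral_post_h ht z f]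
    field_simp
    ring

theorem Conv.inner_KK_h (hW : Conv ε W) (ht : 0 < t) (z w v : E d) :
    ⟪KK W t z w, v⟫ = ⟪w, v⟫ / t - ((∫ x, ⟪x - z, w⟫ * ⟪x - z, v⟫ ∂(post W t z))
      - (∫ x, ⟪x - z, w⟫ ∂(post W t z)) * ∫ x, ⟪x - z, v⟫ ∂(post W t z)) / t ^ 2 := by
  haveI := fun z => hW.post_prob_h ht z
  have hv : EG fun x : E d => ⟪x, v⟫ := EG.id.inner (EG.const v)
  have hsub : ∀ z' : E d, ∫ x, ⟪x - z', v⟫ ∂(post W t z')
      = ∫ x, ⟪x, v⟫ ∂(post W t z') - ⟪z', v⟫ := fun z' => by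
    simp only [inner_sub_left]
    rw [integral_sub (hW.int_post_h ht z' hv) (integrable_const _)]
    simp
  obtain ⟨D, hD, hDw⟩ := hW.hasFDerivAt_post_h ht z hv
  have hm : HasFDerivAt (mm W t) (KK W t z) z :=
    ((hW.contDiff_mm_h ht).differentiable (by norm_num) z).hasFDerivAt
  have h1 : HasFDerivAt (fun z => ⟪v, mm W t z⟫) ((innerSL ℝ v).comp (KK W t z)) z :=
    (innerSL ℝ v).hasFDerivAt.comp z hm
  have h2 : HasFDerivAt (fun z => ⟪v, z⟫) (innerSL ℝ v) z := (innerSL ℝ v).hasFDerivAt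
  have h3 := (h2.sub hD).mul_const t⁻¹
  have h4 : (fun z => ⟪v, mm W t z⟫) = fun z =>
      (⟪v, z⟫ - ∫ x, ⟪x, v⟫ ∂(post W t z)) * t⁻¹ := by
    funext z'
    rw [real_inner_comm, hW.inner_mm_h ht, hsub, real_inner_comm z' v]
    ring
  rw [h4] at h1
  have h5 := congrArg (fun D : E d →L[ℝ] ℝ => D w) (h1.unique h3)
  simp only [ContinuousLinearMap.comp_apply, innerSL_apply_apply, ContinuousLinearMap.smul_apply,
    ContinuousLinearMap.sub_apply, smul_eq_mul, hDw] at h5
  rw [real_inner_comm, h5, real_inner_comm w v, hsub]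
  have h6 : ∫ x, ⟪x - z, w⟫ * ⟪x - z, v⟫ ∂(post W t z) = ∫ x, ⟪x - z, w⟫ * ⟪x, v⟫ ∂(post W t z)
      - (∫ x, ⟪x - z, w⟫ ∂(post W t z)) * ⟪z, v⟫ := by
    rw [← integral_mul_const, ← integral_sub (hW.int_post_h ht z ((EG.inner_sub z w).mul hv))
      (hW.int_post_h ht z ((EG.inner_sub z w).mul (EG.const _)))]
    refine integral_congr_ae (ae_of_all _ fun x => ?_)
    simp only [inner_sub_left x z v]
    ring
  rw [h6]
  field_simp
  ring

end Post

end Vale.Agent.P347
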