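import Vale.Agent.P347.SimCalc
import Vale.Agent.P347.Flow

open MeasureTheory ProbabilityTheory Filter Set
open scoped ENNReal ContDiff RealInnerProductSpace

namespace Vale.Agent.P347

variable {d : ℕ}

/-- parameters of the recursion -/
structure Par (d : ℕ) where
  n : ℕ
  Cw : ℝ
  Cf : ℝ
  Cm : ℝ
  w : Fin (n + 1) → Fin (n + 1) → ℝ
  w' : Fin (n + 1) → Fin (n + 1) → ℝ
  d1 : Fin (n + 1) → ℝ
  d2 : Fin (n + 1) → ℝ
  β : ℝ
  g : ℝ
  om : ℝ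
  μ : ℝ
  ρ : ℝ
  h : ℝ
  Lc : ℕ
  M : ℕ
  J : ℕ
  k : ℕ
  hn : 2 ≤ n
  hw : Weights n Cw w w' d1 d2
  hCw : 1 ≤ Cw
  hCf : 1 ≤ Cf
  hCm : 1 ≤ Cm
  flow : ∀ V : E d → ℝ, IsPotential V → ∀ (c : E d) (τ : ℝ), 0 < τ → τ ≤ 1 / 8 →
    ∃ Xi : E d → E d, ∀ a : ℝ, |a| * √τ ≤ 1 → ∃ Yc Hn : Fin (n + 1) → E d × E d → E d,
      FlowData n w w' d1 d2 Cf V c τ β a Xi Yc Hn
  mom : ∀ V : E d → ℝ, IsPotential V → ∀ (c : E d) (τ u : ℝ), 0 < τ → τ ≤ 1 / 8 → 0 ≤ u →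
    u ≤ 1 / 4 → ∫⁻ w, ‖w‖ₑ ∂(rho V c τ u) ≤ ENNReal.ofReal (Cm * RR c)
  hβ : 0 < β
  hβ' : β ≤ 1 / 4
  hg : 0 < g
  hg1 : g ≤ 1
  hρ : 0 < ρ
  hh : 0 < h
  hh' : h ≤ 1 / 8
  hhμ : h ≤ μ
  hμ1 : μ ≤ 1
  hL : 1 ≤ Lc
  hJ : 1 ≤ J
  hJk : J ≤ k
  hM : 1 ≤ M
  hθ : Cm * β * √h ≤ 1 / (10 * Lc)
  hstrong : 6 * Cw * (100 * Cw * (n + 1)) * μ ≤ 1 / (10 * Lc) * g ^ J
  hfloor : 2 * Cf * β ^ (n + 1) ≤ 1 / (10 * Lc) * g ^ k
  hcost : 80 * (n + 1) * M * (100 * Cw * (n + 1)) * (Lc : ℝ) ^ 2 ≤ om ^ J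
  havg : (96 * Cw * (100 * Cw * (n + 1)) * μ) ^ 2 ≤ M * ρ ^ 2 * ((1 / 32 : ℝ) ^ k) ^ 2
  hweak : 20 * (Lc : ℝ) ^ 2 * ρ * Cw * (100 * Cw * (n + 1)) ≤ μ * g
  hom : 8 * (n + 1) * (100 * Cw * (n + 1)) * Lc ≤ om
  hbase : 8 * √(h * (1 - β ^ 2) ^ Lc) ≤ g ^ k

namespace Par

variable (p : Par d)

noncomputable def C1 : ℝ := 100 * p.Cw * (p.n + 1)
noncomputable def δ : ℝ := 1 / (10 * p.Lc)
noncomputable def qD : ℝ := 1 / (16 * (p.Lc : ℝ) ^ 2)
noncomputable def NM : ℝ := 4 * p.Lc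
/-- noise threshold at level j -/
noncomputable def thr (j : ℕ) (τ : ℝ) : ℝ := (1 / 32) ^ j * p.β * √τ
/-- output noise of the increments -/
noncomputable def smin (τ : ℝ) : ℝ := p.thr p.k τ / 32

theorem L1 : (1 : ℝ) ≤ p.Lc := by exact_mod_cast p.hL
theorem n2 : (2 : ℝ) ≤ p.n := by exact_mod_cast p.hn
theorem C1_ge : 300 ≤ p.C1 := by
  have := p.hCw; have := p.n2; unfold C1; nlinarith
theorem C1_pos : 0 < p.C1 := by linarith [p.C1_ge]
theorem δ_pos : 0 < p.δ := by have := p.L1; unfold δ; positivity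
theorem δ_le : p.δ ≤ 1 / 10 := by
  have := p.L1; unfold δ; rw [div_le_div_iff₀ (by positivity) (by norm_num)]; linarith
theorem δ_mul : p.δ * p.Lc = 1 / 10 := by have := p.L1; unfold δ; field_simp
theorem qD_pos : 0 < p.qD := by have := p.L1; unfold qD; positivity
theorem NM_pos : 0 < p.NM := by have := p.L1; unfold NM; positivity
theorem NM_qD : p.NM * p.qD * p.Lc = 1 / 4 := by have := p.L1; unfold NM qD; field_simp; ring
theorem NM_qD_le : p.NM * p.qD ≤ 1 := by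
  have h1 := p.NM_qD; have := p.L1; have := mul_pos p.NM_pos p.qD_pos; nlinarith
theorem om_ge : 2 ≤ p.om := by
  have h := p.hom; have := p.C1_ge; have := p.L1; have := p.n2
  have h2 : 8 * (p.n + 1) * p.C1 * p.Lc ≤ p.om := h
  have : (300 : ℝ) * 1 ≤ p.C1 * p.Lc := by gcongr
  nlinarith
theorem om_pos : 0 < p.om := by linarith [p.om_ge]
theorem μ_pos : 0 < p.μ := lt_of_lt_of_le p.hh p.hhμ
theorem gpow_pos (j : ℕ) : 0 < p.g ^ j := pow_pos p.hg j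
theorem gpow_anti {i j : ℕ} (h : i ≤ j) : p.g ^ j ≤ p.g ^ i :=
  pow_le_pow_of_le_one p.hg.le p.hg1 h
theorem thr_nonneg (j : ℕ) (τ : ℝ) : 0 ≤ p.thr j τ := by
  have := p.hβ; unfold thr; positivity
theorem thr_anti {i j : ℕ} (h : i ≤ j) (τ : ℝ) : p.thr j τ ≤ p.thr i τ := by
  have := p.hβ; unfold thr
  have : ((1 : ℝ) / 32) ^ j ≤ (1 / 32) ^ i := pow_le_pow_of_le_one (by norm_num) (by norm_num) h
  gcongr
theorem thr_succ (j : ℕ) (τ : ℝ) : p.thr (j + 1) τ = p.thr j τ / 32 := by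
  unfold thr; rw [pow_succ]; ring
theorem thr_zero (τ : ℝ) : p.thr 0 τ = p.β * √τ := by simp [thr]
theorem smin_nonneg (τ : ℝ) : 0 ≤ p.smin τ := by
  have := p.thr_nonneg p.k τ; unfold smin; positivity
theorem smin_le {j : ℕ} (hj : j ≤ p.k) (τ : ℝ) : p.smin τ ≤ p.thr j τ / 32 := by
  have := p.thr_anti hj τ; unfold smin; linarith

theorem nod_nonneg (l : Fin (p.n + 1)) : 0 ≤ nod p.n p.β l := by
  have := p.hβ; unfold nod; positivity
theorem frac_le (l : Fin (p.n + 1)) : (l : ℝ) / p.n ≤ 1 := by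
  have := p.n2
  rw [div_le_one (by linarith)]
  exact_mod_cast Nat.lt_succ_iff.mp l.2
theorem nod_le (l : Fin (p.n + 1)) : nod p.n p.β l ≤ p.β := by
  have := p.hβ; have := p.frac_le l; unfold nod; nlinarith
theorem nod_last : nod p.n p.β (Fin.last p.n) = p.β := by
  have := p.n2; unfold nod; simp only [Fin.val_last]; field_simp
theorem nod_zero : nod p.n p.β 0 = 0 := by simp [nod]
theorem tn_zero (τ : ℝ) : tn p.n p.β τ 0 = τ := by simp [tn, nod]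
theorem tn_le {τ : ℝ} (hτ : 0 < τ) (l : Fin (p.n + 1)) : tn p.n p.β τ l ≤ τ := by
  unfold tn; nlinarith [sq_nonneg (nod p.n p.β l)]
theorem tn_ge {τ : ℝ} (hτ : 0 < τ) (l : Fin (p.n + 1)) : τ / 4 ≤ tn p.n p.β τ l := by
  have h1 := p.nod_nonneg l; have h2 := p.nod_le l; have h3 := p.hβ'
  have : nod p.n p.β l ^ 2 ≤ 1 / 16 := by nlinarith
  unfold tn; nlinarith
theorem tn_pos {τ : ℝ} (hτ : 0 < τ) (l : Fin (p.n + 1)) : 0 < tn p.n p.β τ l := by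
  linarith [p.tn_ge hτ l]
theorem sqrt_tn_ge {τ : ℝ} (hτ : 0 < τ) (l : Fin (p.n + 1)) :
    √τ / 2 ≤ √(tn p.n p.β τ l) := by
  have h := p.tn_ge hτ l
  apply Real.le_sqrt_of_sq_le
  rw [div_pow, Real.sq_sqrt hτ.le]; linarith
theorem sqrt_tn_le {τ : ℝ} (hτ : 0 < τ) (l : Fin (p.n + 1)) : √(tn p.n p.β τ l) ≤ √τ :=
  Real.sqrt_le_sqrt (p.tn_le hτ l)
theorem thr_tn_ge {τ : ℝ} (hτ : 0 < τ) (j : ℕ) (l : Fin (p.n + 1)) :
    p.thr j τ / 2 ≤ p.thr j (tn p.n p.β τ l) := by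
  have h := p.sqrt_tn_ge hτ l; have := p.hβ
  unfold thr
  have : (0 : ℝ) ≤ (1 / 32) ^ j * p.β := by positivity
  nlinarith
theorem sqrt_le_one {τ : ℝ} (hτ : τ ≤ p.h) : √τ ≤ 1 := by
  exact Real.sqrt_le_one.mpr (by linarith [p.hh'])

end Par

theorem RR_nonneg (c : E d) : 0 ≤ RR c := by unfold RR; positivity
theorem sqrt_le_RR (c : E d) : √(d : ℝ) ≤ RR c := by unfold RR; linarith [norm_nonneg c]

/-- Gaussian inputs, the same for all grades -/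
noncomputable def cf {P : Type} (v : P → E d) (ν : P → ℝ) : P → ℕ → Measure (E d) :=
  fun q _ => Nm (v q) (ν q)

theorem allProb_cf {P : Type} (v : P → E d) (ν : P → ℝ) : AllProb (cf v ν) :=
  fun q _ => Nm_prob (v q) (ν q)

theorem ext2_cf {P : Type} (A z : E d) (v : P → E d) (ν : P → ℝ) :
    ext2 A z (cf v ν) = cf (Sum.elim v fun b => if b then A else z) (Sum.elim ν fun _ => 0) := by
  funext o j
  cases o with
  | inl q => rfl
  | inr b => simp [ext2, cf, Nm_zero]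

/-- the product of two standard Gaussians -/
noncomputable abbrev gg (d : ℕ) : Measure (E d × E d) := (gam d).prod (gam d)

/-- a linear combination of two ports -/
theorem sim_lin2 {g om : ℝ} {P : Type} (p₁ p₂ : P) (c₁ c₂ s : ℝ) :
    ∃ L : Pot d → (P → ℕ → Measure (E d)) → Measure (E d),
      Sim g om P 0 (|c₁| + |c₂|) 2 L ∧ ∀ V (v : P → E d) (ν : P → ℝ) (t : ℝ),
        t ^ 2 = c₁ ^ 2 * ν p₁ ^ 2 + c₂ ^ 2 * ν p₂ ^ 2 + s ^ 2 →
        L V (cf v ν) = Nm (c₁ • v p₁ + c₂ • v p₂) t := by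
  obtain ⟨L, hL, hL'⟩ := sim_sum (d := d) (g := g) (om := om) (κ := Bool)
    (fun b => sim_port (d := d) (g := g) (om := om) (if b then p₁ else p₂) 0)
    (fun b => if b then c₁ else c₂) s
  refine ⟨L, hL.mono (by simp) (by simp) (by norm_num), fun V v ν t ht => ?_⟩
  have := (hL' V (cf v ν) (allProb_cf v ν) (fun b => v (if b then p₁ else p₂))
    (fun b => ν (if b then p₁ else p₂)) t (by simpa using ht)).2 (fun b => rfl)
  simpa using this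

/-- pure noise -/
theorem sim_noise {g om : ℝ} {P : Type} (s : ℝ) :
    ∃ L : Pot d → (P → ℕ → Measure (E d)) → Measure (E d),
      Sim g om P 0 0 0 L ∧ ∀ V μ, AllProb μ → L V μ = Nm 0 s := by
  obtain ⟨L, hL, hL'⟩ := sim_sum (d := d) (g := g) (om := om) (P := P) (κ := Empty)
    (q := fun _ => 0) (Λ := fun _ => 0) (N := fun _ => 0) (L := fun k => k.elim)
    (fun k => k.elim) (fun k => k.elim) s
  refine ⟨L, hL.mono (by simp) (by simp) (by simp), fun V μ hμ => ?_⟩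
  have := (hL' V μ hμ (fun k => k.elim) (fun k => k.elim) s (by simp)).2 (fun k => k.elim)
  simpa using this

theorem sq_sum_le {κ : Type} [Fintype κ] (c : κ → ℝ) : ∑ k, c k ^ 2 ≤ (∑ k, |c k|) ^ 2 := by
  have h := Finset.sum_sq_le_sq_sum_of_nonneg (s := Finset.univ) (f := fun k => |c k|)
    (fun i _ => abs_nonneg _)
  simpa [sq_abs] using h

/-- averaged linear combination with a common inner noise -/
theorem sim_comb {g om : ℝ} {P κ : Type} [Fintype κ] {q Λ N : κ → ℝ}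
    {L : κ → Pot d → (P → ℕ → Measure (E d)) → Measure (E d)}
    (h : ∀ k, Sim g om P (q k) (Λ k) (N k) (L k)) (c σ : κ → ℝ) (t : ℝ)
    (ht : ∑ k, c k ^ 2 * σ k ^ 2 ≤ t ^ 2) :
    ∃ L' : Pot d → (P → ℕ → Measure (E d)) → Measure (E d),
      Sim g om P (∑ k, q k) (∑ k, |c k| * Λ k) (∑ k, N k) L' ∧
      ∀ (X : Type) [TopologicalSpace X] [MeasurableSpace X] [OpensMeasurableSpace X]
        (m : Measure X) (V : Pot d) (v : X → P → E d) (ν : P → ℝ) (T : κ → X → E d)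
        (tgt : X → E d) (e : κ → ℝ) (e₀ : ℝ), (∀ r, Continuous fun x => v x r) →
        (∀ k, Continuous (T k)) → (∀ k, 0 ≤ e k) → 0 ≤ e₀ →
        (∀ k, ∫⁻ x, Wd (L k V (cf (v x) ν)) (Nm (T k x) (σ k)) ∂m ≤ ENNReal.ofReal (e k)) →
        ∫⁻ x, ‖tgt x - ∑ k, c k • T k x‖ₑ ∂m ≤ ENNReal.ofReal e₀ →
        ∫⁻ x, Wd (L' V (cf (v x) ν)) (Nm (tgt x) t) ∂m
          ≤ ENNReal.ofReal (∑ k, |c k| * e k + e₀) := by
  obtain ⟨L', hL, hL'⟩ := sim_sum h c √(t ^ 2 - ∑ k, c k ^ 2 * σ k ^ 2)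
  refine ⟨L', hL, fun X _ _ _ m V v ν T tgt e e₀ hv hT he he₀ hk h0 => ?_⟩
  have hmeas : ∀ k, Measurable fun x => Wd (L k V (cf (v x) ν)) (Nm (T k x) (σ k)) :=
    fun k => (h k).measurable_Wd V v hv ν (T k) (hT k) (σ k)
  calc ∫⁻ x, Wd (L' V (cf (v x) ν)) (Nm (tgt x) t) ∂m
      ≤ ∫⁻ x, (∑ k, ENNReal.ofReal |c k| * Wd (L k V (cf (v x) ν)) (Nm (T k x) (σ k))
          + ‖tgt x - ∑ k, c k • T k x‖ₑ) ∂m := by
        refine lintegral_mono fun x => ?_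
        refine (Wd_triangle _ (Nm (∑ k, c k • T k x) t) _).trans (add_le_add ?_ ?_)
        · refine (hL' V _ (allProb_cf _ _) (fun k => T k x) σ t ?_).1
          rw [Real.sq_sqrt (by linarith)]; ring
        · rw [Wd_comm]; exact Wd_Nm_Nm _ _ _
    _ = ∑ k, ENNReal.ofReal |c k| * ∫⁻ x, Wd (L k V (cf (v x) ν)) (Nm (T k x) (σ k)) ∂m
          + ∫⁻ x, ‖tgt x - ∑ k, c k • T k x‖ₑ ∂m := by
        rw [lintegral_add_left (Finset.measurable_fun_sum _ fun k _ => (hmeas k).const_mul _),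
          lintegral_finsetSum _ fun k _ => (hmeas k).const_mul _]
        congr 1
        exact Finset.sum_congr rfl fun k _ => lintegral_const_mul _ (hmeas k)
    _ ≤ ∑ k, ENNReal.ofReal (|c k| * e k) + ENNReal.ofReal e₀ := by
        refine add_le_add (Finset.sum_le_sum fun k _ => ?_) h0
        rw [ENNReal.ofReal_mul (abs_nonneg _)]
        gcongr; exact hk k
    _ = ENNReal.ofReal (∑ k, |c k| * e k + e₀) := by
        rw [ENNReal.ofReal_add (Finset.sum_nonneg fun k _ => mul_nonneg (abs_nonneg _) (he k)) he₀,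
          ENNReal.ofReal_sum_of_nonneg fun k _ => mul_nonneg (abs_nonneg _) (he k)]

/-- feeding a simulator with graded approximate Gaussian inputs -/
theorem sim_feed_err {g om : ℝ} {P P' : Type} {q Λ N Q Λ' N' : ℝ}
    {L : Pot d → (P → ℕ → Measure (E d)) → Measure (E d)}
    {L' : P → ℕ → Pot d → (P' → ℕ → Measure (E d)) → Measure (E d)}
    (hg : 0 < g) (h : Sim g om P q Λ N L) (h' : ∀ r j, Sim g om P' (Q * om⁻¹ ^ j) Λ' N' (L' r j))
    {X : Type} [TopologicalSpace X] [MeasurableSpace X] [OpensMeasurableSpace X]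
    (m : Measure X) (V : Pot d) (v' : X → P' → E d) (ν' : P' → ℝ) (v : X → P → E d) (ν : P → ℝ)
    (tgt : X → E d) (σ B e : ℝ) (hv' : ∀ r, Continuous fun x => v' x r)
    (hv : ∀ r, Continuous fun x => v x r) (htgt : Continuous tgt) (hB0 : 0 ≤ B) (he0 : 0 ≤ e)
    (hB : ∀ r j, ∫⁻ x, Wd (L' r j V (cf (v' x) ν')) (Nm (v x r) (ν r)) ∂m
      ≤ ENNReal.ofReal (B * g⁻¹ ^ j))
    (he : ∫⁻ x, Wd (L V (cf (v x) ν)) (Nm (tgt x) σ) ∂m ≤ ENNReal.ofReal e) (hom : 0 < om) :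
    ∫⁻ x, Wd (L V fun r j => L' r j V fun r' i => cf (v' x) ν' r' (j + i)) (Nm (tgt x) σ) ∂m
      ≤ ENNReal.ofReal (Λ * B + e) := by
  have hΛ := (h.nonneg hg hom).2.1
  have hst := h.stab m hg V (fun x r j => L' r j V (cf (v' x) ν')) (fun x => cf (v x) ν)
    (fun x r j => (h' r j).prob V (allProb_cf _ _)) (fun x => allProb_cf _ _)
    (fun r j => (h' r j).measurable_Wd V v' hv' ν' (fun x => v x r) (hv r) (ν r))
    (ENNReal.ofReal B) (fun r j => by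
      rw [← ENNReal.ofReal_mul hB0]; exact hB r j)
  calc ∫⁻ x, Wd (L V fun r j => L' r j V fun r' i => cf (v' x) ν' r' (j + i)) (Nm (tgt x) σ) ∂m
      ≤ ∫⁻ x, (Wd (L V fun r j => L' r j V (cf (v' x) ν')) (L V (cf (v x) ν))
          + Wd (L V (cf (v x) ν)) (Nm (tgt x) σ)) ∂m :=
        lintegral_mono fun x => Wd_triangle _ _ _
    _ = _ := lintegral_add_right _ (h.measurable_Wd V v hv ν tgt htgt σ)
    _ ≤ ENNReal.ofReal Λ * ENNReal.ofReal B + ENNReal.ofReal e := add_le_add hst he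
    _ = _ := by rw [← ENNReal.ofReal_mul hΛ, ← ENNReal.ofReal_add (mul_nonneg hΛ hB0) he0]

end Vale.Agent.P347
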