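import Vale.Agent.P347.Rec1

open MeasureTheory ProbabilityTheory Filter Set
open scoped ENNReal ContDiff RealInnerProductSpace

namespace Vale.Agent.P347

variable {d : ℕ}

namespace Par

variable (p : Par d)

/-- the ideal vectors of the flow ports -/
noncomputable def vF (c : E d) (τ : ℝ) (x : E d × E d) : Option (Fin (p.n + 1)) → E d :=
  fun o => o.elim ((p.β * √τ) • x.2) fun l => c + (√τ * nod p.n p.β l) • x.1

theorem continuous_vF (c : E d) (τ : ℝ) (o : Option (Fin (p.n + 1))) :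
    Continuous fun x => p.vF c τ x o := by
  cases o <;> simp only [vF, Option.elim] <;> fun_prop

abbrev Tgt : Type := Pot d → E d → (Fin (p.n + 1) → E d × E d → E d) →
  (Fin (p.n + 1) → E d × E d → E d) → E d × E d → E d

abbrev FD (V : Pot d) (c : E d) (τ a : ℝ) (Xi : E d → E d)
    (Yc Hn : Fin (p.n + 1) → E d × E d → E d) : Prop :=
  FlowData p.n p.w p.w' p.d1 p.d2 p.Cf V.1 c τ p.β a Xi Yc Hn

/-- simulation of a function of the flow -/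
def FlowSim (q Λ N e τ a ν σ : ℝ) (T : p.Tgt) : Prop :=
  ∃ L : Pot d → (Option (Fin (p.n + 1)) → ℕ → Measure (E d)) → Measure (E d),
    Sim p.g p.om (Option (Fin (p.n + 1))) q Λ N L ∧ ∀ V c Xi Yc Hn, p.FD V c τ a Xi Yc Hn →
      ∫⁻ x, Wd (L V (cf (p.vF c τ x) fun _ => ν)) (Nm (T V c Yc Hn x) σ) ∂(gg d)
        ≤ ENNReal.ofReal (e * RR c)

def TCont (τ a : ℝ) (T : p.Tgt) : Prop :=
  ∀ V c Xi Yc Hn, p.FD V c τ a Xi Yc Hn → Continuous (T V c Yc Hn)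

noncomputable def tV (τ : ℝ) (o : Option (Fin (p.n + 1))) : p.Tgt :=
  fun _ c _ _ x => p.vF c τ x o
noncomputable def tD (τ : ℝ) (i : Fin (p.n + 1)) : p.Tgt :=
  fun _ c Yc _ x => c + (√τ * nod p.n p.β i) • x.1 - Yc i x
noncomputable def tE (τ : ℝ) (i : Fin (p.n + 1)) : p.Tgt :=
  fun _ _ _ Hn x => (p.β * √τ) • Hn i x - (p.β * √τ) • x.2
noncomputable def tY (i : Fin (p.n + 1)) : p.Tgt := fun _ _ Yc _ x => Yc i x
noncomputable def tH (τ : ℝ) (i : Fin (p.n + 1)) : p.Tgt :=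
  fun _ _ _ Hn x => (p.β * √(tn p.n p.β τ i)) • Hn i x
noncomputable def tG (τ : ℝ) (l : Fin (p.n + 1)) : p.Tgt :=
  fun V _ Yc _ x => mm V.1 (tn p.n p.β τ l) (Yc l x)
noncomputable def tP (τ : ℝ) (l : Fin (p.n + 1)) : p.Tgt :=
  fun V _ Yc Hn x => (p.β * √τ) • KK V.1 (tn p.n p.β τ l) (Yc l x) (Hn l x)
noncomputable def tQ (τ : ℝ) (l : Fin (p.n + 1)) : p.Tgt :=
  fun V _ Yc Hn x => (p.μ * p.β * (p.β * √τ)) •
    KK V.1 (tn p.n p.β τ l) (Yc l x) (KK V.1 (tn p.n p.β τ l) (Yc l x) (Hn l x))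

theorem tcont_V (τ a : ℝ) (o) : p.TCont τ a (p.tV τ o) :=
  fun _ c _ _ _ _ => p.continuous_vF c τ o
theorem tcont_D (τ a : ℝ) (i) : p.TCont τ a (p.tD τ i) := fun _ c _ _ _ h => by
  have := h.contY i; unfold tD; fun_prop
theorem tcont_E (τ a : ℝ) (i) : p.TCont τ a (p.tE τ i) := fun _ c _ _ _ h => by
  have := h.contH i; unfold tE; fun_prop
theorem tcont_G {τ : ℝ} (hτ : 0 < τ) (a : ℝ) (l) : p.TCont τ a (p.tG τ l) :=
  fun V _ _ _ _ h => (V.2.conv.continuous_mm (p.tn_pos hτ l)).comp (h.contY l)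
theorem tcont_P {τ : ℝ} (hτ : 0 < τ) (a : ℝ) (l) : p.TCont τ a (p.tP τ l) :=
  fun V _ _ _ _ h => by
    have h1 := (V.2.conv.continuous_KK (p.tn_pos hτ l)).comp (h.contY l)
    exact (h1.clm_apply (h.contH l)).const_smul (p.β * √τ)
theorem tcont_Q {τ : ℝ} (hτ : 0 < τ) (a : ℝ) (l) : p.TCont τ a (p.tQ τ l) :=
  fun V _ _ _ _ h => by
    have h1 := (V.2.conv.continuous_KK (p.tn_pos hτ l)).comp (h.contY l)
    exact (h1.clm_apply (h1.clm_apply (h.contH l))).const_smul (p.μ * p.β * (p.β * √τ))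

variable {p}

theorem FlowSim.mono {q Λ N e q' Λ' N' e' τ a ν σ : ℝ} {T : p.Tgt}
    (h : p.FlowSim q Λ N e τ a ν σ T) (hq : q ≤ q') (hΛ : Λ ≤ Λ') (hN : N ≤ N') (he : e ≤ e') :
    p.FlowSim q' Λ' N' e' τ a ν σ T := by
  obtain ⟨L, hL, hL'⟩ := h
  refine ⟨L, hL.mono hq hΛ hN, fun V c Xi Yc Hn hf => (hL' V c Xi Yc Hn hf).trans ?_⟩
  exact ENNReal.ofReal_le_ofReal (mul_le_mul_of_nonneg_right he (RR_nonneg c))

theorem FlowSim.shift {q Λ N e τ a ν σ : ℝ} {T : p.Tgt}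
    (h : p.FlowSim q Λ N e τ a ν σ T) (J : ℕ) :
    p.FlowSim q (Λ * p.g⁻¹ ^ J) (N * p.om⁻¹ ^ J) e τ a ν σ T := by
  obtain ⟨L, hL, hL'⟩ := h
  exact ⟨_, hL.shift p.hg p.om_pos J, hL'⟩

theorem flowSim_port (τ a ν : ℝ) (o : Option (Fin (p.n + 1))) :
    p.FlowSim 0 1 1 0 τ a ν ν (p.tV τ o) := by
  refine ⟨_, (sim_port (d := d) (g := p.g) (om := p.om) o 0).mono le_rfl (by simp) (by simp),
    fun V c Xi Yc Hn _ => ?_⟩
  simp [cf, tV, Wd_self]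

theorem flowSim_comb {κ : Type} [Fintype κ] {q Λ N e σ : κ → ℝ} {τ a ν : ℝ} {T : κ → p.Tgt}
    (h : ∀ k, p.FlowSim (q k) (Λ k) (N k) (e k) τ a ν (σ k) (T k)) (hT : ∀ k, p.TCont τ a (T k))
    (he : ∀ k, 0 ≤ e k) (c : κ → ℝ) (t e₀ : ℝ) (he₀ : 0 ≤ e₀)
    (ht : ∑ k, c k ^ 2 * σ k ^ 2 ≤ t ^ 2) (T₀ : p.Tgt)
    (h₀ : ∀ V c₀ Xi Yc Hn, p.FD V c₀ τ a Xi Yc Hn →
      ∫⁻ x, ‖T₀ V c₀ Yc Hn x - ∑ k, c k • T k V c₀ Yc Hn x‖ₑ ∂(gg d)
        ≤ ENNReal.ofReal (e₀ * RR c₀)) :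
    p.FlowSim (∑ k, q k) (∑ k, |c k| * Λ k) (∑ k, N k) (∑ k, |c k| * e k + e₀) τ a ν t T₀ := by
  choose L hL hL' using h
  obtain ⟨L', h1, h2⟩ := sim_comb hL c σ t ht
  refine ⟨L', h1, fun V c₀ Xi Yc Hn hf => ?_⟩
  have := h2 (E d × E d) (gg d) V (fun x => p.vF c₀ τ x) (fun _ => ν)
    (fun k => T k V c₀ Yc Hn) (T₀ V c₀ Yc Hn) (fun k => e k * RR c₀) (e₀ * RR c₀)
    (p.continuous_vF c₀ τ) (fun k => hT k V c₀ Xi Yc Hn hf)
    (fun k => mul_nonneg (he k) (RR_nonneg _)) (mul_nonneg he₀ (RR_nonneg _))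
    (fun k => hL' k V c₀ Xi Yc Hn hf) (h₀ V c₀ Xi Yc Hn hf)
  refine this.trans (le_of_eq ?_)
  congr 1
  rw [add_mul, Finset.sum_mul]
  congr 1
  exact Finset.sum_congr rfl fun k _ => by ring

variable (p)

/-- simulators for the increments of the center and of the budget variable -/
def SDj (q Λ N e : ℝ) (j : ℕ) : Prop :=
  ∀ τ, 0 < τ → τ ≤ p.h → ∀ a, |a| * √τ ≤ p.μ → ∀ i ν σ, 0 ≤ ν → ν ≤ p.thr j τ → p.smin τ ≤ σ →
    p.FlowSim q Λ N e τ a ν σ (p.tD τ i) ∧ p.FlowSim q Λ N e τ a ν σ (p.tE τ i)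

def SD (j : ℕ) : Prop := p.SDj (p.qD * p.om ^ j) p.δ p.δ (p.δ * p.g ^ j) j

def SDg (j : ℕ) : Prop := ∀ r : ℕ,
  p.SDj (p.qD * p.om ^ j * p.om⁻¹ ^ r) p.δ p.δ (p.δ * p.g ^ j * p.g⁻¹ ^ r) j

/-- simulators for the posterior mean -/
def SM (j : ℕ) : Prop :=
  ∀ τ, 0 < τ → τ ≤ p.h → ∀ σ, √τ ≤ p.ρ * σ → ∀ ν, 0 ≤ ν → ν ≤ p.thr j τ →
    ∃ L : Pot d → (Unit → ℕ → Measure (E d)) → Measure (E d),
      Sim p.g p.om Unit (p.om ^ j) 4 p.NM L ∧ ∀ V c,
        Wd (L V (cf (fun _ => c) fun _ => ν)) (Nm (mm V.1 τ c) σ)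
          ≤ ENNReal.ofReal (4 * p.g ^ j * RR c)

/-- simulators for the gradient at the nodes -/
def SG (j : ℕ) : Prop :=
  ∀ τ, 0 < τ → τ ≤ p.h → ∀ a, |a| * √τ ≤ p.μ → ∀ l ν σ, 0 ≤ ν → ν ≤ p.thr j τ / 4 →
    √τ ≤ p.ρ * σ → p.FlowSim (2 * p.om ^ j) 8 (2 * p.NM) (12 * p.g ^ j) τ a ν σ (p.tG τ l)

/-- simulators for all node quantities -/
def SN (j : ℕ) : Prop :=
  ∀ τ, 0 < τ → τ ≤ p.h → ∀ a, |a| * √τ ≤ p.μ → ∀ l ν σ, 0 ≤ ν → ν ≤ p.thr j τ / 32 →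
    p.C1 * √τ ≤ p.ρ * σ →
    p.FlowSim (p.C1 * p.om ^ j) p.C1 (p.C1 * p.NM) (p.C1 * p.g ^ j) τ a ν σ (p.tG τ l) ∧
    p.FlowSim (p.C1 * p.om ^ j) p.C1 (p.C1 * p.NM) (p.C1 * p.g ^ j) τ a ν σ (p.tP τ l) ∧
    p.FlowSim (p.C1 * p.om ^ j) p.C1 (p.C1 * p.NM) (p.C1 * p.g ^ j) τ a ν σ (p.tQ τ l)

variable {p}

theorem SDj.mono {q Λ N e q' Λ' N' e' : ℝ} {i j : ℕ} (h : p.SDj q Λ N e i) (hij : i ≤ j)
    (hq : q ≤ q') (hΛ : Λ ≤ Λ') (hN : N ≤ N') (he : e ≤ e') : p.SDj q' Λ' N' e' j := by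
  intro τ hτ hτ' a ha l ν σ hν hν' hσ
  obtain ⟨h1, h2⟩ := h τ hτ hτ' a ha l ν σ hν (hν'.trans (p.thr_anti hij τ)) hσ
  exact ⟨h1.mono hq hΛ hN he, h2.mono hq hΛ hN he⟩

theorem sdg_of {j : ℕ} (h0 : p.SDj 0 0 0 (p.δ * p.g ^ p.J) 0) (h : ∀ i, i ≤ j → p.SD i) :
    p.SDg j := by
  intro r
  have hδ := p.δ_pos; have hq := p.qD_pos; have hom := p.om_pos; have hg := p.hg
  by_cases hr : r ≤ j
  · obtain ⟨i, rfl⟩ := Nat.exists_eq_add_of_le hr
    refine (h i (by omega)).mono (by omega) (le_of_eq ?_) le_rfl le_rfl (le_of_eq ?_)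
    · rw [pow_add, inv_pow]; field_simp
    · rw [pow_add, inv_pow]; field_simp
  · refine h0.mono (Nat.zero_le _) (by positivity) hδ.le hδ.le ?_
    obtain ⟨i, rfl⟩ := Nat.exists_eq_add_of_le (le_of_lt (not_le.mp hr))
    have h1 : p.g ^ p.J ≤ 1 := pow_le_one₀ hg.le p.hg1
    have h2 : 1 ≤ p.g⁻¹ ^ i := one_le_pow₀ ((one_le_inv₀ hg).mpr p.hg1)
    have h3 : p.g ^ j * p.g⁻¹ ^ (j + i) = p.g⁻¹ ^ i := by
      rw [pow_add, inv_pow, inv_pow]; field_simp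
    rw [mul_assoc, h3]
    exact mul_le_mul_of_nonneg_left (h1.trans h2) hδ.le

/-- integrals of functions of the node state -/
theorem FD.lintegral_node {V : Pot d} {c : E d} {τ a : ℝ} {Xi : E d → E d}
    {Yc Hn : Fin (p.n + 1) → E d × E d → E d} (h : p.FD V c τ a Xi Yc Hn) (hτ : 0 < τ)
    (hτ' : τ ≤ p.h) (l : Fin (p.n + 1)) (F : E d × E d → ℝ≥0∞) (hF : Measurable F) :
    ∫⁻ x, F (Yc l x, Hn l x) ∂(gg d) = ∫⁻ w, (∫⁻ η, F (c + (√τ * nod p.n p.β l) • w, η) ∂(gam d))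
      ∂(rho V.1 c τ (nod p.n p.β l)) := by
  haveI := rho_prob V.2 c hτ (hτ'.trans p.hh') (p.nod_nonneg l) ((p.nod_le l).trans p.hβ')
  have hm : Measurable fun x => (Yc l x, Hn l x) :=
    (h.contY l).measurable.prodMk (h.contH l).measurable
  rw [← lintegral_map hF hm, h.law l, lintegral_prod _ hF.aemeasurable,
    lintegral_map hF.lintegral_prod_right' (by fun_prop)]

theorem lintegral_RR_rho (V : Pot d) (c : E d) {τ : ℝ} (hτ : 0 < τ) (hτ' : τ ≤ p.h)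
    {u : ℝ} (hu : 0 ≤ u) (hu' : u ≤ p.β) (e : ℝ) (he : 0 ≤ e) :
    ∫⁻ w, ENNReal.ofReal (e * RR (c + (√τ * u) • w)) ∂(rho V.1 c τ u)
      ≤ ENNReal.ofReal (e * (1 + p.δ) * RR c) := by
  haveI := rho_prob V.2 c hτ (hτ'.trans p.hh') hu (hu'.trans p.hβ')
  have hm := p.mom V.1 V.2 c τ u hτ (hτ'.trans p.hh') hu (hu'.trans p.hβ')
  have hs : 0 ≤ √τ * u := by positivity
  have hR := RR_nonneg c
  have hθ : √τ * u * p.Cm ≤ p.δ := by
    have h1 : √τ ≤ √p.h := Real.sqrt_le_sqrt hτ'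
    have h2 := p.hθ; have h3 := p.hCm; have h4 := p.hβ
    calc √τ * u * p.Cm ≤ √p.h * p.β * p.Cm := by gcongr
      _ = p.Cm * p.β * √p.h := by ring
      _ ≤ p.δ := h2
  calc ∫⁻ w, ENNReal.ofReal (e * RR (c + (√τ * u) • w)) ∂(rho V.1 c τ u)
      ≤ ∫⁻ w, (ENNReal.ofReal (e * RR c) + ENNReal.ofReal (e * (√τ * u)) * ‖w‖ₑ)
          ∂(rho V.1 c τ u) := by
        refine lintegral_mono fun w => ?_
        rw [← ofReal_norm_eq_enorm, ← ENNReal.ofReal_mul (by positivity),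
          ← ENNReal.ofReal_add (by positivity) (by positivity)]
        apply ENNReal.ofReal_le_ofReal
        have : RR (c + (√τ * u) • w) ≤ RR c + √τ * u * ‖w‖ := by
          unfold RR
          have := norm_add_le c ((√τ * u) • w)
          rw [norm_smul, Real.norm_of_nonneg hs] at this
          linarith
        nlinarith
    _ = ENNReal.ofReal (e * RR c) + ENNReal.ofReal (e * (√τ * u)) *
          ∫⁻ w, ‖w‖ₑ ∂(rho V.1 c τ u) := by
        rw [lintegral_add_left measurable_const, lintegral_const, measure_univ, mul_one,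
          lintegral_const_mul _ (by fun_prop)]
    _ ≤ ENNReal.ofReal (e * RR c) + ENNReal.ofReal (e * (√τ * u)) *
          ENNReal.ofReal (p.Cm * RR c) := by gcongr
    _ ≤ _ := by
        have := p.hCm
        rw [← ENNReal.ofReal_mul (by positivity),
          ← ENNReal.ofReal_add (by positivity) (by positivity)]
        apply ENNReal.ofReal_le_ofReal
        have : e * (√τ * u * p.Cm) * RR c ≤ e * p.δ * RR c := by gcongr
        nlinarith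

theorem FD.lintegral_RR {V : Pot d} {c : E d} {τ a : ℝ} {Xi : E d → E d}
    {Yc Hn : Fin (p.n + 1) → E d × E d → E d} (h : p.FD V c τ a Xi Yc Hn) (hτ : 0 < τ)
    (hτ' : τ ≤ p.h) (l : Fin (p.n + 1)) (e : ℝ) (he : 0 ≤ e) :
    ∫⁻ x, ENNReal.ofReal (e * RR (Yc l x)) ∂(gg d) ≤ ENNReal.ofReal (e * (1 + p.δ) * RR c) := by
  have := h.lintegral_node hτ hτ' l (fun y => ENNReal.ofReal (e * RR y.1))
    (by unfold RR; fun_prop)
  simp only [lintegral_const, measure_univ, mul_one] at this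
  rw [this]
  exact lintegral_RR_rho V c hτ hτ' (p.nod_nonneg l) (p.nod_le l) e he

theorem FD.lintegral_H {V : Pot d} {c : E d} {τ a : ℝ} {Xi : E d → E d}
    {Yc Hn : Fin (p.n + 1) → E d × E d → E d} (h : p.FD V c τ a Xi Yc Hn) (hτ : 0 < τ)
    (hτ' : τ ≤ p.h) (l : Fin (p.n + 1)) :
    ∫⁻ x, ‖Hn l x‖ₑ ∂(gg d) ≤ ENNReal.ofReal (RR c) := by
  haveI := rho_prob V.2 c hτ (hτ'.trans p.hh') (p.nod_nonneg l) ((p.nod_le l).trans p.hβ')
  have := h.lintegral_node hτ hτ' l (fun y => ‖y.2‖ₑ) (by fun_prop)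
  simp only [lintegral_const, measure_univ, mul_one] at this
  rw [this]
  exact (lintegral_enorm_gam d).trans (ENNReal.ofReal_le_ofReal (sqrt_le_RR c))

/-- graded simulators for the center at a node -/
theorem SDg.center {j : ℕ} (h : p.SDg j) (r : ℕ) {τ : ℝ} (hτ : 0 < τ) (hτ' : τ ≤ p.h) {a : ℝ}
    (ha : |a| * √τ ≤ p.μ) (l : Fin (p.n + 1)) {ν t : ℝ} (hν : 0 ≤ ν) (hν' : ν ≤ p.thr j τ)
    (ht : ν ^ 2 + p.smin τ ^ 2 ≤ t ^ 2) :
    p.FlowSim (p.qD * p.om ^ j * p.om⁻¹ ^ r) (1 + p.δ) (1 + p.δ) (p.δ * p.g ^ j * p.g⁻¹ ^ r)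
      τ a ν t (p.tY l) := by
  have hδ := p.δ_pos; have hg := p.hg
  have h1 := (h r τ hτ hτ' a ha l ν (p.smin τ) hν hν' le_rfl).1
  have := flowSim_comb (p := p) (κ := Bool)
    (q := fun b => if b then 0 else p.qD * p.om ^ j * p.om⁻¹ ^ r)
    (Λ := fun b => if b then 1 else p.δ) (N := fun b => if b then 1 else p.δ)
    (e := fun b => if b then 0 else p.δ * p.g ^ j * p.g⁻¹ ^ r)
    (σ := fun b => if b then ν else p.smin τ) (τ := τ) (a := a) (ν := ν)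
    (T := fun b => if b then p.tV τ (some l) else p.tD τ l)
    (fun b => by cases b; exacts [h1, flowSim_port τ a ν (some l)])
    (fun b => by cases b; exacts [p.tcont_D τ a l, p.tcont_V τ a _])
    (fun b => by cases b <;> simp <;> positivity)
    (fun b => if b then 1 else -1) t 0 le_rfl (by simpa using ht) (p.tY l)
    (fun V c Xi Yc Hn _ => by simp [tY, tV, tD, vF])
  exact this.mono (by simp) (by simp) (by simp) (by simp)

/-- graded simulators for the budget variable at a node -/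
theorem SDg.eta {j : ℕ} (h : p.SDg j) (r : ℕ) {τ : ℝ} (hτ : 0 < τ) (hτ' : τ ≤ p.h) {a : ℝ}
    (ha : |a| * √τ ≤ p.μ) (l : Fin (p.n + 1)) {ν t : ℝ} (hν : 0 ≤ ν) (hν' : ν ≤ p.thr j τ)
    (ht : ν ^ 2 + p.smin τ ^ 2 ≤ t ^ 2) :
    p.FlowSim (p.qD * p.om ^ j * p.om⁻¹ ^ r) (1 + p.δ) (1 + p.δ) (p.δ * p.g ^ j * p.g⁻¹ ^ r)
      τ a ν t (p.tH τ l) := by
  have hδ := p.δ_pos; have hg := p.hg
  have h1 := (h r τ hτ hτ' a ha l ν (p.smin τ) hν hν' le_rfl).2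
  have hs : 0 < √τ := Real.sqrt_pos.mpr hτ
  set s : ℝ := √(tn p.n p.β τ l) / √τ with hsdef
  have hs0 : 0 ≤ s := by positivity
  have hs1 : s ≤ 1 := by rw [hsdef, div_le_one hs]; exact p.sqrt_tn_le hτ l
  have hs2 : s ^ 2 ≤ 1 := pow_le_one₀ hs0 hs1
  have := flowSim_comb (p := p) (κ := Bool)
    (q := fun b => if b then 0 else p.qD * p.om ^ j * p.om⁻¹ ^ r)
    (Λ := fun b => if b then 1 else p.δ) (N := fun b => if b then 1 else p.δ)
    (e := fun b => if b then 0 else p.δ * p.g ^ j * p.g⁻¹ ^ r)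
    (σ := fun b => if b then ν else p.smin τ) (τ := τ) (a := a) (ν := ν)
    (T := fun b => if b then p.tV τ none else p.tE τ l)
    (fun b => by cases b; exacts [h1, flowSim_port τ a ν none])
    (fun b => by cases b; exacts [p.tcont_E τ a l, p.tcont_V τ a _])
    (fun b => by cases b <;> simp <;> positivity)
    (fun _ => s) t 0 le_rfl
    (by simp only [Fintype.sum_bool, if_true, Bool.false_eq_true, if_false]
        nlinarith [sq_nonneg ν, sq_nonneg (p.smin τ)]) (p.tH τ l)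
    (fun V c Xi Yc Hn _ => by
      have e : s * (p.β * √τ) = p.β * √(tn p.n p.β τ l) := by rw [hsdef]; field_simp
      simp [tH, tV, tE, vF, smul_sub, smul_smul, e])
  have he : 0 ≤ p.δ * p.g ^ j * p.g⁻¹ ^ r := by positivity
  refine this.mono (by simp) ?_ (by simp) ?_
  · simp only [Fintype.sum_bool, if_true, Bool.false_eq_true, if_false, abs_of_nonneg hs0]
    nlinarith
  · simp only [Fintype.sum_bool, if_true, Bool.false_eq_true, if_false, abs_of_nonneg hs0]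
    nlinarith

/-- node gradients from the mean simulators -/
theorem sg_of {j : ℕ} (hj : j ≤ p.k) (hM : p.SM j) (hD : p.SDg j) : p.SG j := by
  intro τ hτ hτ' a ha l ν σ hν hν' hσ
  have hδ := p.δ_pos; have hδ1 := p.δ_le; have hg := p.hg; have hom := p.om_pos
  have hthr := p.thr_nonneg j τ
  have hgj := p.gpow_pos j
  obtain ⟨L, hL, hL'⟩ := hM (tn p.n p.β τ l) (p.tn_pos hτ l) ((p.tn_le hτ l).trans hτ') σ
    ((p.sqrt_tn_le hτ l).trans hσ) (p.thr j τ / 2) (by positivity) (p.thr_tn_ge hτ j l)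
  have hC := fun r => hD.center r hτ hτ' ha l hν (by linarith) (t := p.thr j τ / 2)
    (by have := p.smin_le hj τ; have := p.smin_nonneg τ; nlinarith)
  choose L' hS hS' using hC
  have hq := p.qD_pos; have hNM := p.NM_pos
  refine ⟨_, (hL.feed (L' := fun _ r => L' r) hg hom (Q := p.qD * p.om ^ j) (by positivity)
    (by positivity) (by positivity) (fun _ r => hS r)).mono ?_ (by linarith) (by nlinarith),
    fun V c Xi Yc Hn hf => ?_⟩
  · have := p.NM_qD_le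
    have h2 : 0 < p.om ^ j := by positivity
    nlinarith
  · have hR := RR_nonneg c
    refine (sim_feed_err hg hL (L' := fun _ r => L' r) (fun _ r => hS r) (gg d) V
      (fun x => p.vF c τ x) (fun _ => ν) (fun x _ => Yc l x) (fun _ => p.thr j τ / 2)
      (p.tG τ l V c Yc Hn) σ (p.δ * p.g ^ j * RR c) (4 * p.g ^ j * (1 + p.δ) * RR c)
      (p.continuous_vF c τ) (fun _ => hf.contY l) (p.tcont_G hτ a l V c Xi Yc Hn hf)
      (by positivity) (by positivity) (fun _ r => ?_) ?_ hom).trans ?_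
    · refine (hS' r V c Xi Yc Hn hf).trans (le_of_eq ?_); congr 1; ring
    · exact (lintegral_mono fun x => hL' V (Yc l x)).trans
        (hf.lintegral_RR hτ hτ' l _ (by positivity))
    · apply ENNReal.ofReal_le_ofReal
      have : 0 ≤ p.g ^ j * RR c := by positivity
      nlinarith

end Par

end Vale.Agent.P347
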