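import Vale.Agent.P347.Rec2

open MeasureTheory ProbabilityTheory Filter Set
open scoped ENNReal ContDiff RealInnerProductSpace

namespace Vale.Agent.P347

variable {d : ℕ}

namespace Par

variable (p : Par d)

/-- the ideal vectors of the ports of a Hessian vector product -/
noncomputable def vH (c : E d) (τ : ℝ) (η : E d) : Bool → E d :=
  fun b => if b then c else (p.β * √τ) • η

/-- simulation of a function of the center and of a Gaussian vector -/
def HSim (q Λ N e τ ν σ : ℝ) (T : Pot d → E d → E d → E d) : Prop :=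
  ∃ L : Pot d → (Bool → ℕ → Measure (E d)) → Measure (E d),
    Sim p.g p.om Bool q Λ N L ∧ ∀ V c,
      ∫⁻ η, Wd (L V (cf (p.vH c τ η) fun _ => ν)) (Nm (T V c η) σ) ∂(gam d)
        ≤ ENNReal.ofReal (e * RR c)

noncomputable def hP (τ : ℝ) : Pot d → E d → E d → E d :=
  fun V c η => (p.β * √τ) • KK V.1 τ c η

noncomputable def hQ (τ : ℝ) : Pot d → E d → E d → E d :=
  fun V c η => (p.μ * p.β * (p.β * √τ)) • KK V.1 τ c (KK V.1 τ c η)

theorem continuous_hP {τ : ℝ} (hτ : 0 < τ) (V : Pot d) :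
    Continuous fun y : E d × E d => p.hP τ V y.1 y.2 := by
  have h1 := (V.2.conv.continuous_KK hτ).comp (continuous_fst (X := E d) (Y := E d))
  exact (h1.clm_apply continuous_snd).const_smul (p.β * √τ)

theorem continuous_hQ {τ : ℝ} (hτ : 0 < τ) (V : Pot d) :
    Continuous fun y : E d × E d => p.hQ τ V y.1 y.2 := by
  have h1 := (V.2.conv.continuous_KK hτ).comp (continuous_fst (X := E d) (Y := E d))
  exact (h1.clm_apply (h1.clm_apply continuous_snd)).const_smul (p.μ * p.β * (p.β * √τ))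

/-- simulators for Hessian vector products -/
def SH (j : ℕ) : Prop :=
  ∀ τ, 0 < τ → τ ≤ p.h → ∀ σ, p.Cw * √τ ≤ p.ρ * σ → ∀ ν, 0 ≤ ν → ν ≤ p.thr j τ / 8 →
    p.HSim (4 * (p.n + 1) * p.om ^ j) (16 * p.Cw) (8 * (p.n + 1) * p.NM) (13 * p.Cw * p.g ^ j)
      τ ν σ (p.hP τ) ∧
    p.HSim (4 * (p.n + 1) * p.om ^ j) (16 * p.Cw) (8 * (p.n + 1) * p.NM) (13 * p.Cw * p.g ^ j)
      τ ν σ (p.hQ τ)

variable {p}

theorem toPorts {q Λ N τ ν ν' σ : ℝ}
    {L : Pot d → (Option (Fin (p.n + 1)) → ℕ → Measure (E d)) → Measure (E d)}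
    (hL : Sim p.g p.om _ q Λ N L) (sw : Bool) (hν : 2 * ν ^ 2 ≤ ν' ^ 2) :
    ∃ L' : Pot d → (Bool → ℕ → Measure (E d)) → Measure (E d),
      Sim p.g p.om Bool q (2 * Λ) (2 * N) L' ∧ ∀ V c (tgt : E d → E d), Continuous tgt →
        ∫⁻ η, Wd (L' V (cf (p.vH c τ η) fun _ => ν)) (Nm (tgt η) σ) ∂(gam d)
          ≤ ∫⁻ x, Wd (L V (cf (p.vF c τ x) fun _ => ν')) (Nm (tgt (if sw then x.2 else x.1)) σ)
            ∂(gg d) := by
  have hg := p.hg; have hom := p.om_pos
  have hfr := p.frac_le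
  have hfr0 : ∀ l : Fin (p.n + 1), 0 ≤ (l : ℝ) / p.n := fun l => by positivity
  set νP : Bool ⊕ Bool → ℝ := Sum.elim (fun _ => ν) fun _ => 0 with hνP
  set P1 : Bool ⊕ Bool := if sw then Sum.inr false else Sum.inl false with hP1
  set P2 : Bool ⊕ Bool := if sw then Sum.inl false else Sum.inr false with hP2
  have hν1 : νP P1 ^ 2 ≤ ν ^ 2 := by
    cases sw <;> simp [hP1, hνP, sq_nonneg]
  have hν2 : νP P2 ^ 2 ≤ ν ^ 2 := by
    cases sw <;> simp [hP2, hνP, sq_nonneg]
  have hlin : ∀ o : Option (Fin (p.n + 1)),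
      ∃ L₁ : Pot d → (Bool ⊕ Bool → ℕ → Measure (E d)) → Measure (E d),
        Sim p.g p.om (Bool ⊕ Bool) 0 2 2 L₁ ∧ ∀ V (v : Bool ⊕ Bool → E d),
          L₁ V (cf v νP) = Nm (o.elim (v P2) fun l => v (Sum.inl true) + ((l : ℝ) / p.n) • v P1)
            ν' := by
    intro o
    cases o with
    | none =>
      obtain ⟨L₁, h1, h2⟩ := sim_lin2 (d := d) (g := p.g) (om := p.om) P2 P2 1 0
        √(ν' ^ 2 - νP P2 ^ 2)
      refine ⟨L₁, h1.mono le_rfl (by norm_num) le_rfl, fun V v => ?_⟩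
      have := h2 V v νP ν' (by rw [Real.sq_sqrt (by nlinarith [sq_nonneg ν])]; ring)
      simpa using this
    | some l =>
      obtain ⟨L₁, h1, h2⟩ := sim_lin2 (d := d) (g := p.g) (om := p.om) (Sum.inl true) P1 1
        ((l : ℝ) / p.n) √(ν' ^ 2 - ν ^ 2 - ((l : ℝ) / p.n) ^ 2 * νP P1 ^ 2)
      have h3 : ((l : ℝ) / p.n) ^ 2 * νP P1 ^ 2 ≤ 1 * ν ^ 2 := by
        have : ((l : ℝ) / p.n) ^ 2 ≤ 1 := pow_le_one₀ (hfr0 l) (hfr l)
        gcongr
      refine ⟨L₁, h1.mono le_rfl ?_ le_rfl, fun V v => ?_⟩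
      · rw [abs_one, abs_of_nonneg (hfr0 l)]; linarith [hfr l]
      · have := h2 V v νP ν' (by
          rw [Real.sq_sqrt (by nlinarith [sq_nonneg ν])]; simp [hνP])
        simpa using this
  choose L₁ hL₁ hL₁' using hlin
  have hF := hL.feed (L' := fun o _ => L₁ o) hg hom (Q := 0) le_rfl (by norm_num) (by norm_num)
    (fun o j => (hL₁ o).mono (by simp) le_rfl le_rfl)
  obtain ⟨L₀, hL₀, hL₀'⟩ := sim_noise (d := d) (g := p.g) (om := p.om) (P := Bool) 0
  obtain ⟨L', hL', hL''⟩ := Sim.share2 hg p.hg1 hom hL₀ hF (p.β * √τ) 0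
  refine ⟨L', hL'.mono (by simp) (by simp [mul_comm]) (by simp [mul_comm]),
    fun V c tgt htgt => ?_⟩
  set F : E d × E d → ℝ≥0∞ := fun x =>
    Wd (L V (cf (p.vF c τ x) fun _ => ν')) (Nm (tgt (if sw then x.2 else x.1)) σ) with hFdef
  have hFm : Measurable F := by
    refine hL.measurable_Wd V (fun x => p.vF c τ x) (p.continuous_vF c τ) (fun _ => ν') _ ?_ σ
    cases sw
    · exact htgt.comp continuous_fst
    · exact htgt.comp continuous_snd
  have key : ∀ η, Wd (L' V (cf (p.vH c τ η) fun _ => ν)) (Nm (tgt η) σ)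
      ≤ ∫⁻ z, F (if sw then (z, η) else (η, z)) ∂(gam d) := by
    intro η
    have hpr := allProb_cf (p.vH c τ η) fun _ => ν
    have h1 := hL'' V _ hpr (fun _ => tgt η) σ (Nm (tgt η) σ) measurable_const (fun f hf => by
      rw [hL₀' V _ hpr]; simp)
    refine h1.trans (le_of_eq ?_)
    rw [hL₀' V _ hpr, Nm_zero, Measure.dirac_prod, lintegral_map' _ (by fun_prop)]
    · refine lintegral_congr fun z => ?_
      simp only [hFdef, ext2_cf]
      congr 2
      · funext o j
        change L₁ o V (cf _ νP) = _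
        rw [hL₁']
        cases o with
        | none => cases sw <;> simp [cf, vF, vH, hP2]
        | some l =>
          have e : (l : ℝ) / p.n * (p.β * √τ) = √τ * nod p.n p.β l := by unfold nod; ring
          cases sw <;> simp [cf, vF, vH, hP1, smul_smul, e]
      · cases sw <;> simp
    · refine Measurable.aemeasurable ?_
      simp only [ext2_cf]
      refine hF.measurable_Wd V (fun x : E d × E d => Sum.elim (p.vH c τ η)
        fun b => if b then x.1 else (p.β * √τ) • x.2) ?_ νP (fun _ => tgt η) continuous_const σ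
      rintro (b | b)
      · exact continuous_const
      · cases b <;> simp <;> fun_prop
  refine (lintegral_mono key).trans (le_of_eq ?_)
  cases sw
  · simp only [Bool.false_eq_true, if_false]
    exact (lintegral_prod _ hFm.aemeasurable).symm
  · simp only [if_true]
    exact (lintegral_prod_symm _ hFm.aemeasurable).symm

theorem sq_comb_le {κ : Type} [Fintype κ] (c : κ → ℝ) {C σ : ℝ} (hC : 0 < C)
    (hc : ∑ k, |c k| ≤ C) : ∑ k, c k ^ 2 * (σ / C) ^ 2 ≤ σ ^ 2 := by
  rw [← Finset.sum_mul]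
  have h1 : ∑ k, c k ^ 2 ≤ C ^ 2 :=
    (sq_sum_le c).trans (pow_le_pow_left₀ (Finset.sum_nonneg fun k _ => abs_nonneg _) hc 2)
  calc (∑ k, c k ^ 2) * (σ / C) ^ 2 ≤ C ^ 2 * (σ / C) ^ 2 := by gcongr
    _ = σ ^ 2 := by field_simp

theorem floor_le {j : ℕ} (hj : j ≤ p.k) {τ : ℝ} (hτ' : τ ≤ p.h) (c : E d) :
    p.Cf * √τ * p.β ^ (p.n + 1) * √(d : ℝ) ≤ p.δ / 2 * p.g ^ j * RR c := by
  have h1 := p.hfloor; have h2 := p.sqrt_le_one hτ'; have h3 := sqrt_le_RR c
  have h4 := p.gpow_anti hj; have := p.hCf; have := p.hβ; have := p.δ_pos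
  have h5 : p.Cf * p.β ^ (p.n + 1) ≤ p.δ / 2 * p.g ^ j := by
    have : p.δ * p.g ^ p.k ≤ p.δ * p.g ^ j := by gcongr
    have h6 : 2 * p.Cf * p.β ^ (p.n + 1) ≤ p.δ * p.g ^ p.k := h1
    linarith
  calc p.Cf * √τ * p.β ^ (p.n + 1) * √(d : ℝ) ≤ p.Cf * 1 * p.β ^ (p.n + 1) * RR c := by gcongr
    _ = p.Cf * p.β ^ (p.n + 1) * RR c := by ring
    _ ≤ _ := by have := RR_nonneg c; gcongr

theorem sh_of {j : ℕ} (hj : j ≤ p.k) (hG : p.SG j) : p.SH j := by
  intro τ hτ hτ' σ hσ ν hν hν'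
  have hCw := p.hCw; have hg := p.hg; have hom := p.om_pos; have hδ := p.δ_pos
  have hδ1 := p.δ_le; have hNM := p.NM_pos; have hgj := p.gpow_pos j; have hn := p.n2
  have hthr := p.thr_nonneg j τ
  have hs : 0 < √τ := Real.sqrt_pos.mpr hτ
  have hσ' : √τ ≤ p.ρ * (σ / p.Cw) := by
    rw [← mul_div_assoc, le_div_iff₀ (by linarith)]; linarith
  have hν2 : 2 * ν ^ 2 ≤ (p.thr j τ / 4) ^ 2 := by nlinarith
  have hoj : 0 < p.om ^ j := by positivity
  constructor
  · have h0 : |(0 : ℝ)| * √τ ≤ p.μ := by simpa using p.μ_pos.le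
    obtain ⟨L, hL, hL'⟩ := flowSim_comb (p := p)
      (fun l => hG τ hτ hτ' 0 h0 l (p.thr j τ / 4) (σ / p.Cw) (by positivity) le_rfl hσ')
      (fun l => p.tcont_G hτ 0 l) (fun _ => by positivity) p.d1 σ (p.δ / 2 * p.g ^ j)
      (by positivity) (sq_comb_le _ (by linarith) p.hw.bd1)
      (fun V c _ _ x => p.hP τ V c x.1)
      (fun V c Xi Yc Hn hf => hf.errP.trans (ENNReal.ofReal_le_ofReal (floor_le hj hτ' c)))
    obtain ⟨L', h1, h2⟩ := toPorts (τ := τ) (σ := σ) hL false hν2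
    refine ⟨L', h1.mono ?_ ?_ ?_, fun V c => ?_⟩
    · simp only [Finset.sum_const, Finset.card_univ, Fintype.card_fin, nsmul_eq_mul]
      push_cast; nlinarith
    · rw [← Finset.sum_mul]; nlinarith [p.hw.bd1]
    · simp only [Finset.sum_const, Finset.card_univ, Fintype.card_fin, nsmul_eq_mul]
      push_cast; nlinarith
    · obtain ⟨Xi, hXi⟩ := p.flow V.1 V.2 c τ hτ (hτ'.trans p.hh')
      obtain ⟨Yc, Hn, hf⟩ := hXi 0 (by simp)
      refine (h2 V c (p.hP τ V c) ((p.continuous_hP hτ V).comp (Continuous.prodMk_right c))).trans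
        ((hL' V c Xi Yc Hn hf).trans (ENNReal.ofReal_le_ofReal ?_))
      refine mul_le_mul_of_nonneg_right ?_ (RR_nonneg c)
      rw [← Finset.sum_mul]
      have : (∑ l, |p.d1 l|) * (12 * p.g ^ j) ≤ p.Cw * (12 * p.g ^ j) := by
        gcongr; exact p.hw.bd1
      nlinarith
  · set a : Bool → ℝ := fun b => (if b then -1 else 1) * (p.μ / √τ) with ha
    have hμ := p.μ_pos
    have ha' : ∀ b, |a b| * √τ = p.μ := fun b => by
      have : |a b| = p.μ / √τ := by
        cases b <;> simp [ha, abs_div, abs_of_pos hμ, abs_of_pos hs]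
      rw [this]; field_simp
    have hS := fun k : Bool × Fin (p.n + 1) => hG τ hτ hτ' (a k.1) (ha' k.1).le k.2
      (p.thr j τ / 4) (σ / p.Cw) (by positivity) le_rfl hσ'
    choose L₁ hL₁ hL₁' using hS
    set co : Bool × Fin (p.n + 1) → ℝ := fun k => (if k.1 then 1 else -1) * (p.d2 k.2 / 4)
      with hco
    have hco' : ∑ k, |co k| ≤ p.Cw / 2 := by
      have h1 : ∀ k, |co k| = |p.d2 k.2| / 4 := fun k => by
        obtain ⟨b, l⟩ := k
        cases b <;> simp [hco, abs_div]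
      simp only [h1, Fintype.sum_prod_type, Fintype.sum_bool, ← Finset.sum_div]
      linarith [p.hw.bd2]
    obtain ⟨L, hL, hL'⟩ := sim_comb hL₁ co (fun _ => σ / p.Cw) σ
      (sq_comb_le _ (by linarith) (by linarith))
    obtain ⟨L', h1, h2⟩ := toPorts (τ := τ) (σ := σ) hL true hν2
    refine ⟨L', h1.mono ?_ ?_ ?_, fun V c => ?_⟩
    · simp only [Finset.sum_const, Finset.card_univ, Fintype.card_prod, Fintype.card_bool,
        Fintype.card_fin, nsmul_eq_mul]
      push_cast; nlinarith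
    · rw [← Finset.sum_mul]; nlinarith
    · simp only [Finset.sum_const, Finset.card_univ, Fintype.card_prod, Fintype.card_bool,
        Fintype.card_fin, nsmul_eq_mul]
      push_cast; nlinarith
    · obtain ⟨Xi, hXi⟩ := p.flow V.1 V.2 c τ hτ (hτ'.trans p.hh')
      choose Yc Hn hf using fun b => hXi (a b) ((ha' b).le.trans p.hμ1)
      have hR := RR_nonneg c
      refine (h2 V c (p.hQ τ V c) ((p.continuous_hQ hτ V).comp (Continuous.prodMk_right c))).trans
        ((hL' (E d × E d) (gg d) V (fun x => p.vF c τ x) (fun _ => p.thr j τ / 4)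
          (fun k => p.tG τ k.2 V c (Yc k.1) (Hn k.1)) (fun x => p.hQ τ V c x.2)
          (fun _ => 12 * p.g ^ j * RR c) (p.δ / 2 * p.g ^ j * RR c) (p.continuous_vF c τ)
          (fun k => p.tcont_G hτ (a k.1) k.2 V c Xi _ _ (hf k.1)) (fun _ => by positivity)
          (by positivity) (fun k => hL₁' k V c Xi _ _ (hf k.1)) ?_).trans
            (ENNReal.ofReal_le_ofReal ?_))
      · set er : Bool → E d × E d → E d := fun b x =>
          (Xi x.1 - (2 * a b * τ * p.β ^ 2) • KK V.1 τ c (KK V.1 τ c x.2))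
            - ∑ l, p.d2 l • mm V.1 (tn p.n p.β τ l) (Yc b l x) with her
        have hem : ∀ b, Measurable fun x => ‖er b x‖ₑ := fun b => by
          have h3 := (hf b).contXi
          have h4 : ∀ l, Continuous fun x => mm V.1 (tn p.n p.β τ l) (Yc b l x) := fun l =>
            p.tcont_G hτ (a b) l V c Xi _ _ (hf b)
          have : Continuous (er b) := by simp only [her]; fun_prop
          exact this.enorm.measurable
        have heq : ∀ x, p.hQ τ V c x.2 - ∑ k, co k • p.tG τ k.2 V c (Yc k.1) (Hn k.1) x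
            = (1 / 4 : ℝ) • er true x - (1 / 4 : ℝ) • er false x := fun x => by
          have e1 : p.μ * p.β * (p.β * √τ) = 1 / 4 * (2 * a false * τ * p.β ^ 2)
              - 1 / 4 * (2 * a true * τ * p.β ^ 2) := by
            have : τ = √τ * √τ := (Real.mul_self_sqrt hτ.le).symm
            simp only [ha, if_true, Bool.false_eq_true, if_false]
            field_simp
            rw [Real.sq_sqrt hτ.le]; ring
          simp only [hQ, tG, her, hco, Fintype.sum_prod_type, Fintype.sum_bool, if_true,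
            Bool.false_eq_true, if_false, smul_sub, Finset.smul_sum, smul_smul, e1, sub_smul]
          have e2 : ∀ l, 1 * (p.d2 l / 4) = 1 / 4 * p.d2 l := fun l => by ring
          have e3 : ∀ l, -1 * (p.d2 l / 4) = -(1 / 4 * p.d2 l) := fun l => by ring
          simp only [e2, e3, neg_smul, Finset.sum_neg_distrib]
          abel
        have hb := ENNReal.ofReal_le_ofReal (floor_le hj hτ' c)
        calc ∫⁻ x, ‖p.hQ τ V c x.2 - ∑ k, co k • p.tG τ k.2 V c (Yc k.1) (Hn k.1) x‖ₑ ∂(gg d)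
            ≤ ∫⁻ x, (ENNReal.ofReal (1 / 4) * ‖er true x‖ₑ
                + ENNReal.ofReal (1 / 4) * ‖er false x‖ₑ) ∂(gg d) := by
              refine lintegral_mono fun x => ?_
              rw [heq]
              refine enorm_sub_le.trans (le_of_eq ?_)
              rw [enorm_smul, enorm_smul, Real.enorm_eq_ofReal (by norm_num)]
          _ = ENNReal.ofReal (1 / 4) * ∫⁻ x, ‖er true x‖ₑ ∂(gg d)
                + ENNReal.ofReal (1 / 4) * ∫⁻ x, ‖er false x‖ₑ ∂(gg d) := by
              rw [lintegral_add_left ((hem true).const_mul _), lintegral_const_mul _ (hem true),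
                lintegral_const_mul _ (hem false)]
          _ ≤ ENNReal.ofReal (1 / 4) * ENNReal.ofReal (p.δ / 2 * p.g ^ j * RR c)
                + ENNReal.ofReal (1 / 4) * ENNReal.ofReal (p.δ / 2 * p.g ^ j * RR c) := by
              gcongr
              · exact (hf true).errQ.trans hb
              · exact (hf false).errQ.trans hb
          _ ≤ _ := by
              rw [← ENNReal.ofReal_mul (by norm_num),
                ← ENNReal.ofReal_add (by positivity) (by positivity)]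
              apply ENNReal.ofReal_le_ofReal
              have : 0 ≤ p.δ / 2 * p.g ^ j * RR c := by positivity
              linarith
      · rw [← Finset.sum_mul]
        have h3 : 0 ≤ p.g ^ j * RR c := by positivity
        have : (∑ k, |co k|) * (12 * p.g ^ j * RR c) ≤ p.Cw / 2 * (12 * p.g ^ j * RR c) := by
          gcongr
        nlinarith

theorem node_of_HSim {j : ℕ} (hj : j ≤ p.k) (hD : p.SDg j) {τ : ℝ} (hτ : 0 < τ) (hτ' : τ ≤ p.h)
    {a : ℝ} (ha : |a| * √τ ≤ p.μ) (l : Fin (p.n + 1)) {ν σ : ℝ} (hν : 0 ≤ ν)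
    (hν' : ν ≤ p.thr j τ / 32) {T : Pot d → E d → E d → E d}
    (hT : ∀ V, Continuous fun y : E d × E d => T V y.1 y.2)
    (hH : p.HSim (4 * (p.n + 1) * p.om ^ j) (16 * p.Cw) (8 * (p.n + 1) * p.NM)
      (13 * p.Cw * p.g ^ j) (tn p.n p.β τ l) (p.thr j τ / 16) σ T) :
    p.FlowSim (12 * (p.n + 1) * p.om ^ j) (18 * p.Cw) (9 * (p.n + 1) * p.NM)
      (16 * p.Cw * p.g ^ j) τ a ν σ fun V _ Yc Hn x => T V (Yc l x) (Hn l x) := by
  have hCw := p.hCw; have hg := p.hg; have hom := p.om_pos; have hδ := p.δ_pos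
  have hδ1 := p.δ_le; have hNM := p.NM_pos; have hgj := p.gpow_pos j; have hn := p.n2
  have hthr := p.thr_nonneg j τ; have hq := p.qD_pos
  have hoj : 0 < p.om ^ j := by positivity
  obtain ⟨L, hL, hL'⟩ := hH
  have ht : ν ^ 2 + p.smin τ ^ 2 ≤ (p.thr j τ / 16) ^ 2 := by
    have := p.smin_le hj τ; have := p.smin_nonneg τ; nlinarith
  have hC : ∀ (b : Bool) (r : ℕ), p.FlowSim (p.qD * p.om ^ j * p.om⁻¹ ^ r) (1 + p.δ) (1 + p.δ)
      (p.δ * p.g ^ j * p.g⁻¹ ^ r) τ a ν (p.thr j τ / 16) (if b then p.tY l else p.tH τ l) := by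
    intro b r
    cases b
    · exact hD.eta r hτ hτ' ha l hν (by linarith) ht
    · exact hD.center r hτ hτ' ha l hν (by linarith) ht
  choose L' hS hS' using hC
  refine ⟨_, (hL.feed hg hom (Q := p.qD * p.om ^ j) (by positivity)
    (by positivity) (by positivity) hS).mono ?_ (by nlinarith) ?_, fun V c Xi Yc Hn hf => ?_⟩
  · have h1 := p.NM_qD_le
    have h2 : 0 < (p.n + 1) * p.om ^ j := by positivity
    nlinarith
  · have h2 : 0 < (p.n + 1) * p.NM := by positivity
    nlinarith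
  · have hR := RR_nonneg c
    have hv : ∀ b, Continuous fun y : E d × E d => p.vH y.1 (tn p.n p.β τ l) y.2 b := fun b => by
      cases b <;> simp only [vH, if_true, Bool.false_eq_true, if_false] <;> fun_prop
    have hY := hf.contY l; have hH := hf.contH l
    refine (sim_feed_err hg hL hS (gg d) V
      (fun x => p.vF c τ x) (fun _ => ν) (fun x => p.vH (Yc l x) (tn p.n p.β τ l) (Hn l x))
      (fun _ => p.thr j τ / 16)
      (fun x => T V (Yc l x) (Hn l x)) σ (p.δ * p.g ^ j * RR c)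
      (13 * p.Cw * p.g ^ j * (1 + p.δ) * RR c)
      (p.continuous_vF c τ) (fun b => (hv b).comp (hY.prodMk hH)) ((hT V).comp (hY.prodMk hH))
      (by positivity) (by positivity) (fun b r => ?_) ?_ hom).trans ?_
    · refine le_trans (le_of_eq ?_) ((hS' b r V c Xi Yc Hn hf).trans (le_of_eq ?_))
      · cases b <;> rfl
      · congr 1; ring
    · have hm := hL.measurable_Wd V (fun y : E d × E d => p.vH y.1 (tn p.n p.β τ l) y.2) hv
        (fun _ => p.thr j τ / 16) _ (hT V) σ
      refine (le_of_eq (hf.lintegral_node hτ hτ' l _ hm)).trans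
        ((lintegral_mono fun w => hL' V _).trans ?_)
      exact lintegral_RR_rho V c hτ hτ' (p.nod_nonneg l) (p.nod_le l) _ (by positivity)
    · apply ENNReal.ofReal_le_ofReal
      have : 0 ≤ p.Cw * p.g ^ j * RR c := by positivity
      nlinarith

theorem FlowSim.rescale {q Λ N e τ a ν σ s : ℝ} {T T₀ : p.Tgt}
    (h : p.FlowSim q Λ N e τ a ν (σ / 2) T) (hT : p.TCont τ a T) (he : 0 ≤ e) (hΛ : 0 ≤ Λ)
    (hs : |s| ≤ 2) (h₀ : ∀ V c Yc Hn x, T₀ V c Yc Hn x = s • T V c Yc Hn x) :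
    p.FlowSim q (2 * Λ) N (2 * e) τ a ν σ T₀ := by
  have := flowSim_comb (p := p) (κ := Unit) (fun _ => h) (fun _ => hT) (fun _ => he)
    (fun _ => s) σ 0 le_rfl (sq_comb_le _ two_pos (by simpa using hs)) T₀
    (fun V c Xi Yc Hn _ => by simp [h₀])
  refine this.mono (by simp) ?_ (by simp) ?_
  · simp only [Finset.univ_unique, Finset.sum_singleton]; gcongr
  · simp only [Finset.univ_unique, Finset.sum_singleton, add_zero]; gcongr

theorem sn_of {j : ℕ} (hj : j ≤ p.k) (hM : p.SM j) (hD : p.SDg j) : p.SN j := by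
  have hG := sg_of hj hM hD
  have hH := sh_of hj hG
  intro τ hτ hτ' a ha l ν σ hν hν' hσ
  have hCw := p.hCw; have hg := p.hg; have hom := p.om_pos; have hNM := p.NM_pos
  have hgj := p.gpow_pos j; have hn := p.n2; have hthr := p.thr_nonneg j τ
  have hoj : 0 < p.om ^ j := by positivity
  have hs : 0 < √τ := Real.sqrt_pos.mpr hτ
  have hC := p.C1_ge
  have hC1 : p.C1 = 100 * p.Cw * (p.n + 1) := rfl
  have hl := p.tn_pos hτ l
  have hsl : 0 < √(tn p.n p.β τ l) := Real.sqrt_pos.mpr hl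
  obtain ⟨hP', hQ'⟩ := hH (tn p.n p.β τ l) hl ((p.tn_le hτ l).trans hτ') (σ / 2)
    (by have := p.sqrt_tn_le hτ l
        have h2 : p.Cw * √(tn p.n p.β τ l) ≤ p.Cw * √τ := by gcongr
        have h3 : 2 * p.Cw * √τ ≤ p.C1 * √τ := by gcongr; nlinarith
        linarith) (p.thr j τ / 16) (by positivity) (by linarith [p.thr_tn_ge hτ j l])
  have hsc : |√τ / √(tn p.n p.β τ l)| ≤ 2 := by
    rw [abs_of_pos (by positivity), div_le_iff₀ hsl]; linarith [p.sqrt_tn_ge hτ l]
  have i1 : 12 * (p.n + 1) * p.om ^ j ≤ p.C1 * p.om ^ j := by gcongr; nlinarith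
  have i2 : 2 * (18 * p.Cw) ≤ p.C1 := by nlinarith
  have i3 : 9 * (p.n + 1) * p.NM ≤ p.C1 * p.NM := by gcongr; nlinarith
  have i4 : 2 * (16 * p.Cw * p.g ^ j) ≤ p.C1 * p.g ^ j := by nlinarith
  refine ⟨(hG τ hτ hτ' a ha l ν σ hν (by linarith) (by nlinarith)).mono (by gcongr; linarith)
    (by linarith) (by gcongr; linarith) (by gcongr; linarith), ?_, ?_⟩
  · refine ((node_of_HSim hj hD hτ hτ' ha l hν hν' (p.continuous_hP hl) hP').rescale
      (fun V c Xi Yc Hn hf => (p.continuous_hP hl V).comp ((hf.contY l).prodMk (hf.contH l)))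
      (by positivity) (by positivity) hsc (fun V c Yc Hn x => ?_)).mono i1 i2 i3 i4
    simp only [tP, hP, smul_smul]; congr 1; field_simp
  · refine ((node_of_HSim hj hD hτ hτ' ha l hν hν' (p.continuous_hQ hl) hQ').rescale
      (fun V c Xi Yc Hn hf => (p.continuous_hQ hl V).comp ((hf.contY l).prodMk (hf.contH l)))
      (by positivity) (by positivity) hsc (fun V c Yc Hn x => ?_)).mono i1 i2 i3 i4
    simp only [tQ, hQ, smul_smul]; congr 1; field_simp

end Par

end Vale.Agent.P347
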