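import Vale.Agent.P347.Rec3

open MeasureTheory ProbabilityTheory Filter Set
open scoped ENNReal ContDiff RealInnerProductSpace

namespace Vale.Agent.P347

variable {d : ℕ}

namespace Par

variable {p : Par d}

theorem avg_comb {κ : Type} [Fintype κ] (hκ : (Fintype.card κ : ℝ) ≤ 2 * (p.n + 1))
    {q Λ N e τ a ν σ e₀ : ℝ} (hq : 0 ≤ q) (hΛ : 0 ≤ Λ) (hN : 0 ≤ N) (he : 0 ≤ e) (he₀ : 0 ≤ e₀)
    (hτ : 0 < τ) (hσ : p.smin τ ≤ σ) {T : κ → p.Tgt}
    (h : ∀ k, p.FlowSim q Λ N e τ a ν (p.C1 * √τ / p.ρ) (T k)) (hT : ∀ k, p.TCont τ a (T k))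
    (c : κ → ℝ) (hc : ∑ k, |c k| ≤ 3 * p.Cw * p.μ * p.β) (T₀ : p.Tgt)
    (h₀ : ∀ V c₀ Xi Yc Hn, p.FD V c₀ τ a Xi Yc Hn →
      ∫⁻ x, ‖T₀ V c₀ Yc Hn x - ∑ k, c k • T k V c₀ Yc Hn x‖ₑ ∂(gg d)
        ≤ ENNReal.ofReal (e₀ * RR c₀)) :
    p.FlowSim (2 * (p.n + 1) * p.M * q) (3 * p.Cw * p.μ * p.β * Λ) (2 * (p.n + 1) * p.M * N)
      (3 * p.Cw * p.μ * p.β * e + e₀) τ a ν σ T₀ := by
  have hM : (1 : ℝ) ≤ p.M := by exact_mod_cast p.hM
  have hM0 : (0 : ℝ) < p.M := by linarith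
  have hρ := p.hρ; have hβ := p.hβ; have hμ := p.μ_pos; have hCw := p.hCw; have hC := p.C1_pos
  have habs : ∑ k : Fin p.M × κ, |c k.2 / p.M| = ∑ k, |c k| := by
    simp only [Fintype.sum_prod_type, Finset.sum_const, Finset.card_univ, Fintype.card_fin,
      nsmul_eq_mul, abs_div, abs_of_pos hM0, ← Finset.sum_div]
    field_simp
  have := flowSim_comb (p := p) (κ := Fin p.M × κ) (T := fun k => T k.2) (fun k => h k.2)
    (fun k => hT k.2) (fun _ => he) (fun k => c k.2 / p.M) σ e₀ he₀ ?_ T₀ ?_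
  · refine this.mono ?_ ?_ ?_ ?_
    · simp only [Finset.sum_const, Finset.card_univ, Fintype.card_prod, Fintype.card_fin,
        nsmul_eq_mul, Nat.cast_mul]
      have : (Fintype.card κ : ℝ) * (p.M * q) ≤ 2 * (p.n + 1) * (p.M * q) := by gcongr
      linarith
    · rw [← Finset.sum_mul, habs]; gcongr
    · simp only [Finset.sum_const, Finset.card_univ, Fintype.card_prod, Fintype.card_fin,
        nsmul_eq_mul, Nat.cast_mul]
      have : (Fintype.card κ : ℝ) * (p.M * N) ≤ 2 * (p.n + 1) * (p.M * N) := by gcongr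
      linarith
    · rw [← Finset.sum_mul, habs]; gcongr
  · have h1 : ∑ k : Fin p.M × κ, (c k.2 / p.M) ^ 2 * (p.C1 * √τ / p.ρ) ^ 2
        = (∑ k, c k ^ 2) * (p.C1 ^ 2 * τ) / (p.M * p.ρ ^ 2) := by
      simp only [Fintype.sum_prod_type, Finset.sum_const, Finset.card_univ, Fintype.card_fin,
        nsmul_eq_mul, div_pow, mul_pow, Real.sq_sqrt hτ.le, ← Finset.sum_mul, ← Finset.sum_div]
      field_simp
    have h2 : ∑ k, c k ^ 2 ≤ (3 * p.Cw * p.μ * p.β) ^ 2 :=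
      (sq_sum_le c).trans (pow_le_pow_left₀ (Finset.sum_nonneg fun k _ => abs_nonneg _) hc 2)
    have h3 : (96 * p.Cw * p.C1 * p.μ) ^ 2 ≤ p.M * p.ρ ^ 2 * ((1 / 32 : ℝ) ^ p.k) ^ 2 := p.havg
    have h4 : p.smin τ ^ 2 = ((1 / 32 : ℝ) ^ p.k) ^ 2 * (p.β ^ 2 * τ) / 32 ^ 2 := by
      simp only [smin, thr, div_pow, mul_pow, Real.sq_sqrt hτ.le]; ring
    have h5 : p.smin τ ^ 2 ≤ σ ^ 2 := pow_le_pow_left₀ (p.smin_nonneg τ) hσ 2
    refine le_trans ?_ h5
    rw [h1, h4, div_le_div_iff₀ (by positivity) (by positivity)]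
    calc (∑ k, c k ^ 2) * (p.C1 ^ 2 * τ) * 32 ^ 2
        ≤ (3 * p.Cw * p.μ * p.β) ^ 2 * (p.C1 ^ 2 * τ) * 32 ^ 2 := by gcongr
      _ = (96 * p.Cw * p.C1 * p.μ) ^ 2 * (p.β ^ 2 * τ) := by ring
      _ ≤ p.M * p.ρ ^ 2 * ((1 / 32 : ℝ) ^ p.k) ^ 2 * (p.β ^ 2 * τ) := by gcongr
      _ = _ := by ring
  · intro V c₀ Xi Yc Hn hf
    refine le_trans (le_of_eq ?_) (h₀ V c₀ Xi Yc Hn hf)
    refine lintegral_congr fun x => ?_
    congr 2
    simp only [Fintype.sum_prod_type, Finset.sum_const, Finset.card_univ, Fintype.card_fin]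
    rw [← Nat.cast_smul_eq_nsmul ℝ, Finset.smul_sum]
    refine Finset.sum_congr rfl fun k _ => ?_
    rw [smul_smul]; congr 1; field_simp

theorem strong_gen {j : ℕ} (hj : j ≤ p.k) {q Λ N e τ a ν σ : ℝ} (hq : 0 ≤ q) (hΛ : 0 ≤ Λ)
    (hN : 0 ≤ N) (he : 0 ≤ e) (hτ : 0 < τ) (hτ' : τ ≤ p.h) (ha : |a| * √τ ≤ p.μ)
    (hσ : p.smin τ ≤ σ)
    (h : ∀ l, p.FlowSim q Λ N e τ a ν (p.C1 * √τ / p.ρ) (p.tG τ l) ∧
      p.FlowSim q Λ N e τ a ν (p.C1 * √τ / p.ρ) (p.tP τ l) ∧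
      p.FlowSim q Λ N e τ a ν (p.C1 * √τ / p.ρ) (p.tQ τ l)) (i : Fin (p.n + 1)) :
    p.FlowSim (2 * (p.n + 1) * p.M * q) (3 * p.Cw * p.μ * p.β * Λ) (2 * (p.n + 1) * p.M * N)
      (3 * p.Cw * p.μ * p.β * e + p.δ / 2 * p.g ^ j) τ a ν σ (p.tD τ i) ∧
    p.FlowSim (2 * (p.n + 1) * p.M * q) (3 * p.Cw * p.μ * p.β * Λ) (2 * (p.n + 1) * p.M * N)
      (3 * p.Cw * p.μ * p.β * e + p.δ / 2 * p.g ^ j) τ a ν σ (p.tE τ i) := by
  have hβ := p.hβ; have hβ' := p.hβ'; have hμ := p.μ_pos; have hCw := p.hCw; have hδ := p.δ_pos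
  have hgj := p.gpow_pos j; have hn := p.n2; have hμ1 := p.hμ1
  have hs : 0 < √τ := Real.sqrt_pos.mpr hτ
  have hu0 := p.nod_nonneg i; have hu1 := p.nod_le i
  have hτμ : τ ≤ p.μ := hτ'.trans p.hhμ
  have hss : √τ * √τ = τ := Real.mul_self_sqrt hτ.le
  constructor
  · refine avg_comb (κ := Bool × Fin (p.n + 1)) (by simp) hq hΛ hN he (by positivity) hτ hσ
      (T := fun k => if k.1 then p.tG τ k.2 else p.tP τ k.2)
      (fun k => by obtain ⟨b, l⟩ := k; cases b; exacts [(h l).2.1, (h l).1])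
      (fun k => by obtain ⟨b, l⟩ := k; cases b; exacts [p.tcont_P hτ a l, p.tcont_G hτ a l])
      (fun k => (if k.1 then τ * nod p.n p.β i * p.β else a * √τ * nod p.n p.β i) * p.w i k.2)
      ?_ _ fun V c Xi Yc Hn hf => ?_
    · simp only [Fintype.sum_prod_type, Fintype.sum_bool, if_true, Bool.false_eq_true, if_false,
        abs_mul, ← Finset.mul_sum, abs_of_pos hτ, abs_of_pos hβ, abs_of_pos hs,
        abs_of_nonneg hu0]
      have h1 := p.hw.bw i
      have h2 : τ * nod p.n p.β i * p.β * ∑ l, |p.w i l| ≤ p.μ * p.β * 1 * p.Cw := by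
        gcongr; linarith
      have h3 : |a| * √τ * nod p.n p.β i * ∑ l, |p.w i l| ≤ p.μ * p.β * p.Cw := by gcongr
      have : 0 ≤ p.μ * p.β * p.Cw := by positivity
      linarith
    · refine le_trans (le_of_eq ?_)
        ((hf.errY i).trans (ENNReal.ofReal_le_ofReal (floor_le hj hτ' c)))
      refine lintegral_congr fun x => ?_
      rw [← enorm_neg]
      congr 1
      simp only [tD, tG, tP, Fintype.sum_prod_type, Fintype.sum_bool, if_true, Bool.false_eq_true,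
        if_false, smul_add, Finset.sum_add_distrib, smul_smul]
      have e : ∀ l, a * √τ * nod p.n p.β i * p.w i l * (p.β * √τ)
          = τ * nod p.n p.β i * p.β * p.w i l * a := fun l => by
        linear_combination (a * nod p.n p.β i * p.w i l * p.β) * hss
      simp only [e]
      abel
  · refine avg_comb (κ := Fin (p.n + 1) ⊕ Bool) (by simp; linarith) hq hΛ hN he (by positivity)
      hτ hσ (T := Sum.elim (fun l => p.tQ τ l) fun b => p.tG τ (if b then i else 0))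
      (fun k => by rcases k with l | b; exacts [(h l).2.2, (h _).1])
      (fun k => by rcases k with l | b; exacts [p.tcont_Q hτ a l, p.tcont_G hτ a _])
      (Sum.elim (fun l => a ^ 2 * τ * p.β / p.μ * p.w' i l)
        fun b => (if b then 1 else -1) * (p.β * √τ * a))
      ?_ _ fun V c Xi Yc Hn hf => ?_
    · have h0 : a ^ 2 * τ ≤ p.μ ^ 2 := by
        calc a ^ 2 * τ = (|a| * √τ) ^ 2 := by rw [mul_pow, sq_abs, Real.sq_sqrt hτ.le]
          _ ≤ _ := by gcongr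
      have h1 : 0 ≤ a ^ 2 * τ * p.β / p.μ := by positivity
      have h2 : a ^ 2 * τ * p.β / p.μ ≤ p.μ * p.β := by
        rw [div_le_iff₀ hμ]; nlinarith
      simp only [Fintype.sum_sum_type, Sum.elim_inl, Sum.elim_inr, Fintype.sum_bool, if_true,
        Bool.false_eq_true, if_false, abs_mul (a ^ 2 * τ * p.β / p.μ), ← Finset.mul_sum,
        abs_of_nonneg h1, one_mul, neg_mul, abs_neg]
      have h3 : |p.β * √τ * a| ≤ p.μ * p.β := by
        rw [abs_mul, abs_mul, abs_of_pos hβ, abs_of_pos hs]; nlinarith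
      have h4 : a ^ 2 * τ * p.β / p.μ * ∑ l, |p.w' i l| ≤ p.μ * p.β * p.Cw := by
        gcongr; exact p.hw.bw' i
      have : 0 ≤ p.μ * p.β := by positivity
      nlinarith
    · have hb : 0 ≤ p.β * √τ := by positivity
      have h0 : a ^ 2 * τ ≤ 1 := by
        calc a ^ 2 * τ = (|a| * √τ) ^ 2 := by rw [mul_pow, sq_abs, Real.sq_sqrt hτ.le]
          _ ≤ 1 := pow_le_one₀ (by positivity) (ha.trans hμ1)
      calc _ = ∫⁻ x, ENNReal.ofReal (p.β * √τ) * ‖Hn i x - (x.2 + ∑ l,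
              (a ^ 2 * τ * p.β ^ 2 * p.w' i l) • KK V.1 (tn p.n p.β τ l) (Yc l x)
              (KK V.1 (tn p.n p.β τ l) (Yc l x) (Hn l x))
              + a • (mm V.1 (tn p.n p.β τ i) (Yc i x) - mm V.1 τ c))‖ₑ ∂(gg d) := by
            refine lintegral_congr fun x => ?_
            rw [← Real.enorm_eq_ofReal hb, ← enorm_smul]
            congr 1
            simp only [tE, tG, tQ, Fintype.sum_sum_type, Sum.elim_inl, Sum.elim_inr,
              Fintype.sum_bool, if_true, Bool.false_eq_true, if_false, smul_add, smul_sub,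
              Finset.smul_sum, smul_smul, p.tn_zero, hf.init, one_mul, neg_mul, neg_smul]
            have e : ∀ l, a ^ 2 * τ * p.β / p.μ * p.w' i l * (p.μ * p.β * (p.β * √τ))
                = p.β * √τ * (a ^ 2 * τ * p.β ^ 2 * p.w' i l) := fun l => by field_simp
            simp only [e]
            abel
        _ ≤ ENNReal.ofReal (p.β * √τ) *
              ENNReal.ofReal (p.Cf * (a ^ 2 * τ) * p.β ^ (p.n + 1) * √(d : ℝ)) := by
            rw [lintegral_const_mul' _ _ ENNReal.ofReal_ne_top]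
            gcongr
            exact hf.errH i
        _ ≤ _ := by
            rw [← ENNReal.ofReal_mul hb]
            refine ENNReal.ofReal_le_ofReal (le_trans ?_ (floor_le hj hτ' c))
            have := p.hCf
            calc p.β * √τ * (p.Cf * (a ^ 2 * τ) * p.β ^ (p.n + 1) * √(d : ℝ))
                ≤ 1 * √τ * (p.Cf * 1 * p.β ^ (p.n + 1) * √(d : ℝ)) := by gcongr; linarith
              _ = _ := by ring

theorem strong_coef : 3 * p.Cw * p.μ * p.β * p.C1 ≤ p.δ / 2 * p.g ^ p.J := by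
  have h1 : 6 * p.Cw * p.C1 * p.μ ≤ p.δ * p.g ^ p.J := p.hstrong
  have hβ := p.hβ; have hβ' := p.hβ'; have hμ := p.μ_pos; have hCw := p.hCw; have := p.C1_pos
  have : 3 * p.Cw * p.μ * p.β * p.C1 ≤ 3 * p.Cw * p.μ * 1 * p.C1 := by gcongr; linarith
  linarith

/-- the strong step -/
theorem sd_of_sn {j : ℕ} (hj : j + p.J ≤ p.k) (h : p.SN j) : p.SD (j + p.J) := by
  intro τ hτ hτ' a ha i ν σ hν hν' hσ
  have hg := p.hg; have hom := p.om_pos; have hC := p.C1_pos; have hNM := p.NM_pos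
  have hρ := p.hρ; have hδ := p.δ_pos; have hL := p.L1; have hn := p.n2
  have hM : (1 : ℝ) ≤ p.M := by exact_mod_cast p.hM
  have hν2 : ν ≤ p.thr j τ / 32 := by
    rw [← p.thr_succ]; exact hν'.trans (p.thr_anti (by have := p.hJ; omega) τ)
  have h1 := fun l => h τ hτ hτ' a ha l ν (p.C1 * √τ / p.ρ) hν hν2 (le_of_eq (by field_simp))
  have h2 := strong_gen hj (by positivity) (by positivity) (by positivity) (by positivity) hτ hτ'
    ha hσ (fun l => ⟨(h1 l).1.shift p.J, (h1 l).2.1.shift p.J, (h1 l).2.2.shift p.J⟩) i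
  have hc : 80 * (p.n + 1) * p.M * p.C1 * (p.Lc : ℝ) ^ 2 ≤ p.om ^ p.J := p.hcost
  have hsc := strong_coef (p := p)
  have hoJ : 0 < p.om ^ p.J := by positivity
  have hgJ := p.gpow_pos p.J
  have i1 : 2 * (p.n + 1) * p.M * (p.C1 * p.om ^ j) ≤ p.qD * p.om ^ (j + p.J) := by
    rw [pow_add]
    have : 2 * (p.n + 1) * p.M * p.C1 ≤ p.qD * p.om ^ p.J := by
      unfold qD
      rw [div_mul_eq_mul_div, le_div_iff₀ (by positivity)]
      have : 0 ≤ (p.n + 1) * p.M * p.C1 * (p.Lc : ℝ) ^ 2 := by positivity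
      linarith
    calc _ = 2 * (p.n + 1) * p.M * p.C1 * p.om ^ j := by ring
      _ ≤ p.qD * p.om ^ p.J * p.om ^ j := by gcongr
      _ = _ := by ring
  have i2 : 3 * p.Cw * p.μ * p.β * (p.C1 * p.g⁻¹ ^ p.J) ≤ p.δ := by
    rw [inv_pow, ← mul_assoc, ← div_eq_mul_inv, div_le_iff₀ hgJ]
    have : 0 ≤ p.δ * p.g ^ p.J := by positivity
    linarith
  have i3 : 2 * (p.n + 1) * p.M * (p.C1 * p.NM * p.om⁻¹ ^ p.J) ≤ p.δ := by
    rw [inv_pow, ← mul_assoc, ← div_eq_mul_inv, div_le_iff₀ hoJ]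
    unfold δ NM
    rw [div_mul_eq_mul_div, le_div_iff₀ (by positivity)]
    linarith
  have i4 : 3 * p.Cw * p.μ * p.β * (p.C1 * p.g ^ j) + p.δ / 2 * p.g ^ (j + p.J)
      ≤ p.δ * p.g ^ (j + p.J) := by
    have hgj := p.gpow_pos j
    have : 3 * p.Cw * p.μ * p.β * p.C1 * p.g ^ j ≤ p.δ / 2 * p.g ^ p.J * p.g ^ j := by gcongr
    rw [pow_add]; linarith
  exact ⟨h2.1.mono i1 i2 i3 i4, h2.2.mono i1 i2 i3 i4⟩

theorem flowSim_noise {e τ a ν σ : ℝ} {T : p.Tgt}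
    (h : ∀ V c Xi Yc Hn, p.FD V c τ a Xi Yc Hn →
      ∫⁻ x, ‖T V c Yc Hn x‖ₑ ∂(gg d) ≤ ENNReal.ofReal (e * RR c)) :
    p.FlowSim 0 0 0 e τ a ν σ T := by
  obtain ⟨L, hL, hL'⟩ := sim_noise (d := d) (g := p.g) (om := p.om)
    (P := Option (Fin (p.n + 1))) σ
  refine ⟨L, hL, fun V c Xi Yc Hn hf => le_trans (lintegral_mono fun x => ?_)
    (h V c Xi Yc Hn hf)⟩
  rw [hL' V _ (allProb_cf _ _), Wd_comm]
  simpa using Wd_Nm_Nm (T V c Yc Hn x) 0 σ

/-- the trivial simulators of the increments -/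
theorem sd_triv : p.SDj 0 0 0 (p.δ * p.g ^ p.J) 0 := by
  intro τ hτ hτ' a ha i ν σ _ _ hσ
  have hC := p.C1_ge; have hδ := p.δ_pos; have hδ1 := p.δ_le
  have hβ := p.hβ; have hβ' := p.hβ'; have hμ := p.μ_pos; have hμ1 := p.hμ1
  have hs1 := p.sqrt_le_one hτ'
  have hs : 0 < √τ := Real.sqrt_pos.mpr hτ
  have hH : ∀ (V : Pot d) c Xi Yc Hn, p.FD V c τ a Xi Yc Hn → ∀ (l) (F : E d × E d → E d),
      (∀ x, ‖F x‖ ≤ 4 * ‖Hn l x‖) → ∫⁻ x, ‖F x‖ₑ ∂(gg d) ≤ ENNReal.ofReal (p.C1 * RR c) := by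
    intro V c Xi Yc Hn hf l F hF
    have hR := RR_nonneg c
    calc ∫⁻ x, ‖F x‖ₑ ∂(gg d) ≤ ∫⁻ x, ENNReal.ofReal 4 * ‖Hn l x‖ₑ ∂(gg d) := by
          refine lintegral_mono fun x => ?_
          rw [← ofReal_norm, ← ofReal_norm, ← ENNReal.ofReal_mul (by norm_num)]
          exact ENNReal.ofReal_le_ofReal (hF x)
      _ ≤ ENNReal.ofReal 4 * ENNReal.ofReal (RR c) := by
          rw [lintegral_const_mul' _ _ ENNReal.ofReal_ne_top]
          gcongr
          exact hf.lintegral_H hτ hτ' l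
      _ ≤ _ := by
          rw [← ENNReal.ofReal_mul (by norm_num)]
          exact ENNReal.ofReal_le_ofReal (by nlinarith)
  have h2 := strong_gen (ν := ν) p.hJk le_rfl le_rfl le_rfl p.C1_pos.le hτ hτ' ha hσ
    (fun l => by
      have hl := p.tn_pos hτ l
      have hl' := ((p.tn_le hτ l).trans hτ').trans p.hh'
      refine ⟨flowSim_noise fun V c Xi Yc Hn hf => ?_, flowSim_noise fun V c Xi Yc Hn hf => ?_,
        flowSim_noise fun V c Xi Yc Hn hf => ?_⟩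
      · refine le_trans (lintegral_mono fun x => ?_)
          ((hf.lintegral_RR hτ hτ' l 3 (by norm_num)).trans (ENNReal.ofReal_le_ofReal ?_))
        · rw [← ofReal_norm]
          exact ENNReal.ofReal_le_ofReal (V.2.norm_mm_le hl hl' _)
        · have := RR_nonneg c; gcongr; linarith
      · refine hH V c Xi Yc Hn hf l _ fun x => ?_
        have h1 := V.2.norm_KK_le hl hl' (Yc l x) (Hn l x)
        simp only [tP, norm_smul, Real.norm_eq_abs, abs_of_pos (mul_pos hβ hs)]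
        have h2 : p.β * √τ ≤ 1 * 1 := by gcongr; linarith
        have := norm_nonneg (Hn l x)
        calc _ ≤ 1 * 1 * (2 * ‖Hn l x‖) := by gcongr
          _ ≤ _ := by linarith
      · refine hH V c Xi Yc Hn hf l _ fun x => ?_
        have h1 := V.2.norm_KK_le hl hl' (Yc l x) (Hn l x)
        have h3 := V.2.norm_KK_le hl hl' (Yc l x) (KK V.1 (tn p.n p.β τ l) (Yc l x) (Hn l x))
        have h0 : 0 < p.μ * p.β * (p.β * √τ) := by positivity
        simp only [tQ, norm_smul, Real.norm_eq_abs, abs_of_pos h0]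
        have h2 : p.μ * p.β * (p.β * √τ) ≤ 1 * 1 * (1 * 1) := by gcongr <;> linarith
        calc _ ≤ 1 * 1 * (1 * 1) * (4 * ‖Hn l x‖) := by gcongr; linarith
          _ ≤ _ := by linarith) i
  have i4 : 3 * p.Cw * p.μ * p.β * p.C1 + p.δ / 2 * p.g ^ p.J ≤ p.δ * p.g ^ p.J := by
    linarith [strong_coef (p := p)]
  exact ⟨h2.1.mono (by simp) (by simp) (by simp) i4, h2.2.mono (by simp) (by simp) (by simp) i4⟩

theorem sd_small {j : ℕ} (hj : j ≤ p.J) : p.SD j := by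
  have hδ := p.δ_pos; have := p.qD_pos; have := p.om_pos
  refine sd_triv.mono (Nat.zero_le _) (by positivity) hδ.le hδ.le ?_
  exact mul_le_mul_of_nonneg_left (p.gpow_anti hj) hδ.le

theorem sm_zero : p.SM 0 := by
  intro τ hτ hτ' σ _ ν _ _
  obtain ⟨L, hL, hL'⟩ := sim_noise (d := d) (g := p.g) (om := p.om) (P := Unit) σ
  refine ⟨L, hL.mono (by simp) (by norm_num) p.NM_pos.le, fun V c => ?_⟩
  rw [hL' V _ (allProb_cf _ _), Wd_comm]
  refine (Wd_Nm_Nm _ _ _).trans ?_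
  rw [sub_zero, ← ofReal_norm]
  refine ENNReal.ofReal_le_ofReal ((V.2.norm_mm_le hτ (hτ'.trans p.hh') c).trans ?_)
  have := RR_nonneg c
  simp only [pow_zero]; linarith

end Par

end Vale.Agent.P347
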