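import Vale.Agent.P347.Rec4

open MeasureTheory ProbabilityTheory Filter Set
open scoped ENNReal ContDiff RealInnerProductSpace

namespace Vale.Agent.P347

variable {d : ℕ}

theorem integral_Nm (c : E d) (s : ℝ) {f : E d → ℝ} (hf : Measurable f) :
    ∫ y, f y ∂(Nm c s) = ∫ ξ, f (c + s • ξ) ∂(gam d) :=
  integral_map (by fun_prop) hf.aestronglyMeasurable

theorem measurable_integral_Nm (s : ℝ) {f : E d → ℝ} (hf : Measurable f) :
    Measurable fun c => ∫ y, f y ∂(Nm c s) := by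
  simp only [integral_Nm _ s hf]
  have : StronglyMeasurable fun x : E d × E d => f (x.1 + s • x.2) :=
    (hf.comp (by fun_prop)).stronglyMeasurable
  exact this.integral_prod_right'.measurable

theorem integral_Nm_mix (m : E d) {r s t : ℝ} (ht : t ^ 2 = r ^ 2 + s ^ 2) {f : E d → ℝ}
    (hf : Measurable f) {M : ℝ} (hM : ∀ x, |f x| ≤ M) :
    ∫ y, f y ∂(Nm m t) = ∫ η, (∫ y, f y ∂(Nm η s)) ∂(Nm m r) := by
  rw [← map_add_Nm m r s t ht, integral_map (by fun_prop) hf.aestronglyMeasurable,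
    integral_prod]
  · simp only [integral_Nm _ s hf]
  · exact Integrable.of_bound (hf.comp (by fun_prop)).aestronglyMeasurable M
      (ae_of_all _ fun x => hM _)

/-- the affine change of seeds -/
noncomputable def seedEquiv (c : E d) {s : ℝ} (hs : s ≠ 0) : E d × E d ≃ₜ E d × E d where
  toFun x := (c + s • x.1, x.2)
  invFun x := (s⁻¹ • (x.1 - c), x.2)
  left_inv x := by simp [smul_smul, hs]
  right_inv x := by simp [smul_smul, hs]
  continuous_toFun := by fun_prop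
  continuous_invFun := by fun_prop

theorem Nm_prod_gam (c : E d) {s : ℝ} (hs : s ≠ 0) :
    (Nm c s).prod (gam d) = (gg d).map (seedEquiv c hs) := by
  have h := Measure.map_prod_map (gam d) (gam d) (f := fun ξ : E d => c + s • ξ) (g := id)
    (by fun_prop) measurable_id
  rw [Measure.map_id] at h
  exact h

namespace Par

variable (p : Par d)

/-- ideal vectors: center, observation and budget seed -/
noncomputable def v3 (c : E d) (τ : ℝ) (x : E d × E d) : Unit ⊕ Bool → E d :=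
  Sum.elim (fun _ => c) fun b => if b then c + (p.β * √τ) • x.1 else (p.β * √τ) • x.2

def n3 (ν : ℝ) : Unit ⊕ Bool → ℝ := Sum.elim (fun _ => ν) fun _ => 0

theorem continuous_v3 (c : E d) (τ : ℝ) (o : Unit ⊕ Bool) :
    Continuous fun x => p.v3 c τ x o := by
  rcases o with _ | b
  · exact continuous_const
  · cases b <;> simp only [v3, Sum.elim_inr, if_true, Bool.false_eq_true, if_false] <;> fun_prop

def Sim3 (q Λ N e τ a ν σ : ℝ) (T : p.Tgt) : Prop :=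
  ∃ L : Pot d → (Unit ⊕ Bool → ℕ → Measure (E d)) → Measure (E d),
    Sim p.g p.om (Unit ⊕ Bool) q Λ N L ∧ ∀ V c Xi Yc Hn, p.FD V c τ a Xi Yc Hn →
      ∫⁻ x, Wd (L V (cf (p.v3 c τ x) (n3 ν))) (Nm (T V c Yc Hn x) σ) ∂(gg d)
        ≤ ENNReal.ofReal (e * RR c)

variable {p}

theorem Sim3.mono {q Λ N e q' Λ' N' e' τ a ν σ : ℝ} {T : p.Tgt}
    (h : p.Sim3 q Λ N e τ a ν σ T) (hq : q ≤ q') (hΛ : Λ ≤ Λ') (hN : N ≤ N') (he : e ≤ e') :
    p.Sim3 q' Λ' N' e' τ a ν σ T := by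
  obtain ⟨L, hL, hL'⟩ := h
  refine ⟨L, hL.mono hq hΛ hN, fun V c Xi Yc Hn hf => (hL' V c Xi Yc Hn hf).trans ?_⟩
  exact ENNReal.ofReal_le_ofReal (mul_le_mul_of_nonneg_right he (RR_nonneg c))

theorem FlowSim.to3 {q Λ N e τ a ν σ : ℝ} {T : p.Tgt} (h : p.FlowSim q Λ N e τ a ν σ T) :
    p.Sim3 q Λ (2 * N) e τ a ν σ T := by
  obtain ⟨L, hL, hL'⟩ := h
  have hfr := p.frac_le
  have hfr0 : ∀ l : Fin (p.n + 1), 0 ≤ (l : ℝ) / p.n := fun l => by positivity
  have hlin : ∀ o : Option (Fin (p.n + 1)),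
      ∃ L₁ : Pot d → (Unit ⊕ Bool → ℕ → Measure (E d)) → Measure (E d),
        Sim p.g p.om (Unit ⊕ Bool) 0 1 2 L₁ ∧ ∀ V c x,
          L₁ V (cf (p.v3 c τ x) (n3 ν)) = Nm (p.vF c τ x o) ν := by
    intro o
    cases o with
    | none =>
      obtain ⟨L₁, h1, h2⟩ := sim_lin2 (d := d) (g := p.g) (om := p.om) (P := Unit ⊕ Bool)
        (Sum.inr false) (Sum.inr false) 1 0 ν
      refine ⟨L₁, h1.mono le_rfl (by norm_num) le_rfl, fun V c x => ?_⟩
      have := h2 V (p.v3 c τ x) (n3 ν) ν (by simp [n3])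
      simpa [v3, vF] using this
    | some l =>
      obtain ⟨L₁, h1, h2⟩ := sim_lin2 (d := d) (g := p.g) (om := p.om) (P := Unit ⊕ Bool)
        (Sum.inl ()) (Sum.inr true) (1 - (l : ℝ) / p.n) ((l : ℝ) / p.n)
        √(ν ^ 2 - (1 - (l : ℝ) / p.n) ^ 2 * ν ^ 2)
      have h0 : 0 ≤ 1 - (l : ℝ) / p.n := by linarith [hfr l]
      have h3 : (1 - (l : ℝ) / p.n) ^ 2 * ν ^ 2 ≤ 1 * ν ^ 2 := by
        have : (1 - (l : ℝ) / p.n) ^ 2 ≤ 1 := pow_le_one₀ h0 (by linarith [hfr0 l])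
        gcongr
      refine ⟨L₁, h1.mono le_rfl ?_ le_rfl, fun V c x => ?_⟩
      · rw [abs_of_nonneg h0, abs_of_nonneg (hfr0 l)]; linarith
      · rw [h2 V (p.v3 c τ x) (n3 ν) ν (by rw [Real.sq_sqrt (by linarith)]; simp [n3])]
        congr 1
        have e : √τ * nod p.n p.β l = (l : ℝ) / p.n * (p.β * √τ) := by unfold nod; ring
        simp only [v3, vF, Sum.elim_inl, Sum.elim_inr, if_true, Option.elim, e, sub_smul,
          one_smul, smul_add, smul_smul]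
        abel
  choose L₁ hL₁ hL₁' using hlin
  have hF := hL.feed (L' := fun o _ => L₁ o) p.hg p.om_pos (Q := 0) le_rfl (by norm_num)
    (by norm_num) (fun o j => (hL₁ o).mono (by simp) le_rfl le_rfl)
  refine ⟨_, hF.mono (by simp) (by simp) (by simp [mul_comm]), fun V c Xi Yc Hn hf => ?_⟩
  refine le_trans (le_of_eq ?_) (hL' V c Xi Yc Hn hf)
  refine lintegral_congr fun x => ?_
  congr 2
  funext o j
  exact hL₁' o V c x

theorem sim3_comb {κ : Type} [Fintype κ] {q Λ N e σ : κ → ℝ} {τ a ν : ℝ} {T : κ → p.Tgt}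
    (h : ∀ k, p.Sim3 (q k) (Λ k) (N k) (e k) τ a ν (σ k) (T k)) (hT : ∀ k, p.TCont τ a (T k))
    (he : ∀ k, 0 ≤ e k) (c : κ → ℝ) (t e₀ : ℝ) (he₀ : 0 ≤ e₀)
    (ht : ∑ k, c k ^ 2 * σ k ^ 2 ≤ t ^ 2) (T₀ : p.Tgt)
    (h₀ : ∀ V c₀ Xi Yc Hn, p.FD V c₀ τ a Xi Yc Hn →
      ∫⁻ x, ‖T₀ V c₀ Yc Hn x - ∑ k, c k • T k V c₀ Yc Hn x‖ₑ ∂(gg d)
        ≤ ENNReal.ofReal (e₀ * RR c₀)) :
    p.Sim3 (∑ k, q k) (∑ k, |c k| * Λ k) (∑ k, N k) (∑ k, |c k| * e k + e₀) τ a ν t T₀ := by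
  choose L hL hL' using h
  obtain ⟨L', h1, h2⟩ := sim_comb hL c σ t ht
  refine ⟨L', h1, fun V c₀ Xi Yc Hn hf => ?_⟩
  have := h2 (E d × E d) (gg d) V (fun x => p.v3 c₀ τ x) (n3 ν)
    (fun k => T k V c₀ Yc Hn) (T₀ V c₀ Yc Hn) (fun k => e k * RR c₀) (e₀ * RR c₀)
    (p.continuous_v3 c₀ τ) (fun k => hT k V c₀ Xi Yc Hn hf)
    (fun k => mul_nonneg (he k) (RR_nonneg _)) (mul_nonneg he₀ (RR_nonneg _))
    (fun k => hL' k V c₀ Xi Yc Hn hf) (h₀ V c₀ Xi Yc Hn hf)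
  refine this.trans (le_of_eq ?_)
  congr 1
  rw [add_mul, Finset.sum_mul]
  congr 1
  exact Finset.sum_congr rfl fun k _ => by ring

theorem sim3_A (τ a ν : ℝ) :
    p.Sim3 0 1 1 0 τ a ν 0 (p.tV τ (some (Fin.last p.n))) := by
  refine ⟨_, (sim_port (d := d) (g := p.g) (om := p.om) (Sum.inr true) 0).mono le_rfl (by simp)
    (by simp), fun V c Xi Yc Hn _ => ?_⟩
  simp [cf, tV, v3, n3, vF, p.nod_last, mul_comm, Wd_self]

/-- the next center -/
theorem FlowSim.next {q Λ N e τ a ν σ : ℝ} (he : 0 ≤ e)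
    (h : p.FlowSim q Λ N e τ a ν σ (p.tD τ (Fin.last p.n))) :
    p.Sim3 q (1 + Λ) (1 + 2 * N) e τ a ν σ (p.tY (Fin.last p.n)) := by
  have := sim3_comb (p := p) (κ := Bool)
    (q := fun b => if b then 0 else q) (Λ := fun b => if b then 1 else Λ)
    (N := fun b => if b then 1 else 2 * N) (e := fun b => if b then 0 else e)
    (σ := fun b => if b then 0 else σ) (τ := τ) (a := a) (ν := ν)
    (T := fun b => if b then p.tV τ (some (Fin.last p.n)) else p.tD τ (Fin.last p.n))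
    (fun b => by cases b; exacts [h.to3, sim3_A τ a ν])
    (fun b => by cases b; exacts [p.tcont_D τ a _, p.tcont_V τ a _])
    (fun b => by cases b <;> simp [he])
    (fun b => if b then 1 else -1) σ 0 le_rfl (by simp) (p.tY (Fin.last p.n))
    (fun V c Xi Yc Hn _ => by simp [tY, tV, tD, vF])
  exact this.mono (by simp) (by simp) (by simp) (by simp)

theorem Sim3.share {q Λ N e τ a ν σ : ℝ} {T : p.Tgt} (h : p.Sim3 q Λ N e τ a ν σ T)
    (hτ : 0 < τ) (hν : 0 ≤ ν) (hν' : ν ≤ p.β * √τ) (hT : p.TCont τ a T) (c' : ℝ) :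
    ∃ L : Pot d → (Unit → ℕ → Measure (E d)) → Measure (E d),
      Sim p.g p.om Unit q Λ (1 + N) L ∧ ∀ V c Xi Yc Hn, p.FD V c τ a Xi Yc Hn →
        ∀ Tm : Measure (E d), (∀ f, BL f → ∫ y, f y ∂Tm =
          ∫ x, (∫ y, f y ∂(Nm (T V c Yc Hn x + c' • x.2) σ)) ∂(gg d)) →
        Wd (L V (cf (fun _ => c) fun _ => ν)) Tm ≤ ENNReal.ofReal (e * RR c) := by
  obtain ⟨L, hL, hL'⟩ := h
  have hs : 0 < p.β * √τ := mul_pos p.hβ (Real.sqrt_pos.mpr hτ)
  obtain ⟨L₀, h1, h2⟩ := sim_sum (d := d) (g := p.g) (om := p.om) (κ := Unit)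
    (fun _ => sim_port (d := d) (g := p.g) (om := p.om) () 0) (fun _ => 1)
    √((p.β * √τ) ^ 2 - ν ^ 2)
  obtain ⟨L', h3, h4⟩ := Sim.share2 p.hg p.hg1 p.om_pos h1 hL (p.β * √τ) c'
  refine ⟨L', h3.mono (by simp) (by simp) (by simp), fun V c Xi Yc Hn hf Tm hTm => ?_⟩
  have hpr := allProb_cf (d := d) (fun _ : Unit => c) fun _ => ν
  have h5 : L₀ V (cf (fun _ => c) fun _ => ν) = Nm c (p.β * √τ) := by
    have := (h2 V _ hpr (fun _ => c) (fun _ => ν) (p.β * √τ) (by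
      rw [Real.sq_sqrt (by nlinarith)]; simp)).2 (fun _ => rfl)
    simpa using this
  set φ := seedEquiv c hs.ne' with hφ
  have hemb : MeasurableEmbedding φ := φ.measurableEmbedding
  have hTc := hT V c Xi Yc Hn hf
  have h6 := h4 V _ hpr (fun x => T V c Yc Hn (φ.symm x)) σ Tm
    (hTc.comp φ.symm.continuous).measurable (fun f hf' => by
      rw [hTm f hf', h5, Nm_prod_gam c hs.ne', hemb.integral_map]
      refine integral_congr_ae (ae_of_all _ fun x => ?_)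
      have hm : Measurable f := hf'.1.continuous.measurable
      simp only [Homeomorph.symm_apply_apply]
      rw [integral_Nm _ _ hm, integral_Nm _ _ (f := fun y => f (y + c' • (φ x).2)) (by fun_prop)]
      refine integral_congr_ae (ae_of_all _ fun ξ => ?_)
      simp only
      congr 1
      change _ = _ + c' • x.2
      abel)
  refine h6.trans ?_
  rw [h5, Nm_prod_gam c hs.ne', hemb.lintegral_map]
  refine le_trans (le_of_eq ?_) (hL' V c Xi Yc Hn hf)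
  refine lintegral_congr fun x => ?_
  simp only [Homeomorph.symm_apply_apply, ext2_cf]
  rfl

end Par

end Vale.Agent.P347
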