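import Vale.Agent.P347.Rec5

open MeasureTheory ProbabilityTheory Filter Set
open scoped ENNReal ContDiff RealInnerProductSpace

namespace Vale.Agent.P347

variable {d : ℕ}

namespace Par

variable (p : Par d)

/-- simulation of the posterior mean from a noisy center -/
def MSim (q Λ N e τ ν t : ℝ) : Prop :=
  ∃ L : Pot d → (Unit → ℕ → Measure (E d)) → Measure (E d),
    Sim p.g p.om Unit q Λ N L ∧ ∀ V c,
      Wd (L V (cf (fun _ => c) fun _ => ν)) (Nm (mm V.1 τ c) t) ≤ ENNReal.ofReal (e * RR c)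

variable {p}

theorem MSim.mono {q Λ N e q' Λ' N' e' τ ν t : ℝ} (h : p.MSim q Λ N e τ ν t) (hq : q ≤ q')
    (hΛ : Λ ≤ Λ') (hN : N ≤ N') (he : e ≤ e') : p.MSim q' Λ' N' e' τ ν t := by
  obtain ⟨L, hL, hL'⟩ := h
  refine ⟨L, hL.mono hq hΛ hN, fun V c => (hL' V c).trans ?_⟩
  exact ENNReal.ofReal_le_ofReal (mul_le_mul_of_nonneg_right he (RR_nonneg c))

/-- one gradient query -/
theorem mSim_base {τ ν t : ℝ} (hτ : 0 < τ) (hτ' : τ ≤ 1 / 8) (hν : 0 ≤ ν) (hν' : ν ≤ √τ) :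
    p.MSim 1 2 1 (8 * √τ) τ ν t := by
  obtain ⟨L, h1, h2⟩ := sim_sum (d := d) (g := p.g) (om := p.om) (κ := Unit)
    (fun _ => (sim_port (d := d) (g := p.g) (om := p.om) () 0).grad) (fun _ => 1) t
  refine ⟨L, h1.mono (by simp) (by simp) (by simp), fun V c => ?_⟩
  have hpr := allProb_cf (d := d) (fun _ : Unit => c) fun _ => ν
  have h3 := (h2 V _ hpr (fun _ => mm V.1 τ c) (fun _ => 0) t (by simp)).1
  simp only [Finset.univ_unique, Finset.sum_singleton, one_smul, abs_one, ENNReal.ofReal_one,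
    one_mul, Nm_zero, cf] at h3
  refine h3.trans ?_
  have hLip := V.2.conv.norm_gradient_sub_le (by norm_num)
  have hc : Continuous (gradient V.1) := by
    refine (LipschitzWith.of_dist_le_mul (K := 2) fun x y => ?_).continuous
    simpa [dist_eq_norm] using hLip x y
  have : IsProbabilityMeasure ((Nm c ν).map (gradient V.1)) :=
    Measure.isProbabilityMeasure_map hc.measurable.aemeasurable
  refine (Wd_dirac_le _ _).trans ?_
  rw [lintegral_map (by fun_prop) hc.measurable, Nm, lintegral_map (by fun_prop) (by fun_prop)]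
  have hR := RR_nonneg c
  have hs : 0 ≤ √τ := Real.sqrt_nonneg τ
  calc ∫⁻ ξ, ‖gradient V.1 (c + ν • ξ) - mm V.1 τ c‖ₑ ∂(gam d)
      ≤ ∫⁻ ξ, (ENNReal.ofReal (6 * √τ * RR c) + ENNReal.ofReal (2 * ν) * ‖ξ‖ₑ) ∂(gam d) := by
        refine lintegral_mono fun ξ => ?_
        rw [← ofReal_norm, ← ofReal_norm, ← ENNReal.ofReal_mul (by positivity),
          ← ENNReal.ofReal_add (by positivity) (by positivity)]
        apply ENNReal.ofReal_le_ofReal
        have h4 := hLip (c + ν • ξ) c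
        have h5 := V.2.norm_mm_sub_gradient_le hτ hτ' c
        rw [add_sub_cancel_left, norm_smul, Real.norm_of_nonneg hν] at h4
        have h6 := norm_sub_le_norm_sub_add_norm_sub (gradient V.1 (c + ν • ξ)) (gradient V.1 c)
          (mm V.1 τ c)
        rw [norm_sub_rev (gradient V.1 c)] at h6
        linarith
    _ = ENNReal.ofReal (6 * √τ * RR c) + ENNReal.ofReal (2 * ν) * ∫⁻ ξ, ‖ξ‖ₑ ∂(gam d) := by
        rw [lintegral_add_left measurable_const, lintegral_const, measure_univ, mul_one,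
          lintegral_const_mul _ (by fun_prop)]
    _ ≤ ENNReal.ofReal (6 * √τ * RR c) + ENNReal.ofReal (2 * ν) * ENNReal.ofReal (RR c) := by
        gcongr
        exact (lintegral_enorm_gam d).trans (ENNReal.ofReal_le_ofReal (sqrt_le_RR c))
    _ ≤ _ := by
        rw [← ENNReal.ofReal_mul (by positivity),
          ← ENNReal.ofReal_add (by positivity) (by positivity)]
        apply ENNReal.ofReal_le_ofReal
        nlinarith

theorem FD.map_H {V : Pot d} {c : E d} {τ a : ℝ} {Xi : E d → E d}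
    {Yc Hn : Fin (p.n + 1) → E d × E d → E d} (h : p.FD V c τ a Xi Yc Hn) (hτ : 0 < τ)
    (hτ' : τ ≤ p.h) (l : Fin (p.n + 1)) : (gg d).map (Hn l) = gam d := by
  have := rho_prob V.2 c hτ (hτ'.trans p.hh') (p.nod_nonneg l) ((p.nod_le l).trans p.hβ')
  have hm : Measurable fun x => (Yc l x, Hn l x) :=
    (h.contY l).measurable.prodMk (h.contH l).measurable
  have : IsProbabilityMeasure ((rho V.1 c τ (nod p.n p.β l)).map
      fun w => c + (√τ * nod p.n p.β l) • w) := Measure.isProbabilityMeasure_map (by fun_prop)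
  have h1 := congrArg (Measure.map Prod.snd) (h.law l)
  rw [Measure.map_map measurable_snd hm, Measure.map_snd_prod, measure_univ, one_smul] at h1
  exact h1

theorem FD.map_Y {V : Pot d} {c : E d} {τ a : ℝ} {Xi : E d → E d}
    {Yc Hn : Fin (p.n + 1) → E d × E d → E d} (h : p.FD V c τ a Xi Yc Hn) (hτ : 0 < τ)
    (hτ' : τ ≤ p.h) (l : Fin (p.n + 1)) : (gg d).map (Yc l) =
      (rho V.1 c τ (nod p.n p.β l)).map fun w => c + (√τ * nod p.n p.β l) • w := by
  have := rho_prob V.2 c hτ (hτ'.trans p.hh') (p.nod_nonneg l) ((p.nod_le l).trans p.hβ')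
  have hm : Measurable fun x => (Yc l x, Hn l x) :=
    (h.contY l).measurable.prodMk (h.contH l).measurable
  have h1 := congrArg (Measure.map Prod.fst) (h.law l)
  rw [Measure.map_map measurable_fst hm, Measure.map_fst_prod, measure_univ, one_smul] at h1
  exact h1

/-- the recursive call at the next center -/
theorem sim3_rec {j : ℕ} (hD : p.SDg j) {τ a ν t q Λ N e : ℝ} (hτ : 0 < τ) (hτ' : τ ≤ p.h)
    (ha : |a| * √τ ≤ p.μ) (hν : 0 ≤ ν) (hν' : ν ≤ p.thr j τ) (he : 0 ≤ e)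
    (hM : p.MSim q Λ N e (tn p.n p.β τ (Fin.last p.n)) (p.smin τ) t) :
    p.Sim3 (q + N * (p.qD * p.om ^ j)) (Λ * (1 + p.δ)) (N * (1 + 2 * p.δ))
      (Λ * (p.δ * p.g ^ j) + e * (1 + p.δ)) τ a ν t (p.tG τ (Fin.last p.n)) := by
  have hδ := p.δ_pos; have hg := p.hg; have hom := p.om_pos; have hq := p.qD_pos
  obtain ⟨L, hL, hL'⟩ := hM
  have hC := fun r => FlowSim.next (by positivity)
    (hD r τ hτ hτ' a ha (Fin.last p.n) ν (p.smin τ) hν hν' le_rfl).1
  choose L' hS hS' using hC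
  refine ⟨_, hL.feed (L' := fun _ r => L' r) hg hom (Q := p.qD * p.om ^ j) (by positivity)
    (by positivity) (by positivity) (fun _ r => hS r), fun V c Xi Yc Hn hf => ?_⟩
  have hR := RR_nonneg c
  refine (sim_feed_err hg hL (L' := fun _ r => L' r) (fun _ r => hS r) (gg d) V
    (fun x => p.v3 c τ x) (n3 ν) (fun x _ => Yc (Fin.last p.n) x) (fun _ => p.smin τ)
    (p.tG τ (Fin.last p.n) V c Yc Hn) t (p.δ * p.g ^ j * RR c) (e * (1 + p.δ) * RR c)
    (p.continuous_v3 c τ) (fun _ => hf.contY _) (p.tcont_G hτ a _ V c Xi Yc Hn hf)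
    (by positivity) (by positivity) (fun _ r => ?_) ?_ hom).trans (le_of_eq ?_)
  · refine (hS' r V c Xi Yc Hn hf).trans (le_of_eq ?_); congr 1; ring
  · exact (lintegral_mono fun x => hL' V (Yc _ x)).trans (hf.lintegral_RR hτ hτ' _ _ he)
  · congr 1; ring

/-- one step of the chain -/
theorem mSim_step {j : ℕ} (hj : j + 1 ≤ p.k) (hD : p.SDg (j + 1)) (hN : p.SN j)
    {τ a ν t t' q Λ N e : ℝ} (hτ : 0 < τ) (hτ' : τ ≤ p.h) (ha0 : 0 < a)
    (ha : a * √τ ≤ 2 * p.Lc * p.ρ) (hν : 0 ≤ ν) (hν' : ν ≤ p.thr (j + 1) τ) (he : 0 ≤ e)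
    (ht : t' ^ 2 + 2 * a⁻¹ ^ 2 ≤ t ^ 2)
    (hM : p.MSim q Λ N e (tn p.n p.β τ (Fin.last p.n)) (p.smin τ) t') :
    p.MSim (q + N * (p.qD * p.om ^ (j + 1)) + (p.n + 1) * (p.C1 * p.om ^ j))
      (Λ * (1 + p.δ) + p.δ) (N * (1 + 2 * p.δ) + 2)
      (Λ * (p.δ * p.g ^ (j + 1)) + e * (1 + p.δ) + 2 * p.δ * p.g ^ (j + 1)) τ ν t := by
  have hδ := p.δ_pos; have hg := p.hg; have hom := p.om_pos; have hq := p.qD_pos
  have hρ := p.hρ; have hL := p.L1; have hμ := p.μ_pos; have hC := p.C1_ge; have hCw := p.hCw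
  have hg1 := p.hg1; have hNM := p.NM_pos; have hβ := p.hβ; have hβ' := p.hβ'
  have hs : 0 < √τ := Real.sqrt_pos.mpr hτ
  have hw : 20 * (p.Lc : ℝ) ^ 2 * p.ρ * p.Cw * p.C1 ≤ p.μ * p.g := p.hweak
  have hw1 : 20 * (p.Lc : ℝ) ^ 2 * p.ρ * p.Cw * p.C1 ≤ p.μ := by nlinarith
  have hLρ : 2 * p.Lc * p.ρ ≤ p.μ := by
    have : 2 * p.Lc * p.ρ * 1 ≤ 2 * p.Lc * p.ρ * (10 * p.Lc * p.Cw * p.C1) := by
      gcongr
      have : (1 : ℝ) * 1 * 1 ≤ p.Lc * p.Cw * p.C1 := by gcongr; linarith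
      linarith
    nlinarith
  have ha' : |a| * √τ ≤ p.μ := by rw [abs_of_pos ha0]; linarith
  obtain ⟨LM, hLM, -⟩ := id hM
  have hΛ := (hLM.nonneg hg hom).2.1
  have h1 := sim3_rec hD hτ hτ' ha' hν hν' he hM
  have h2 := fun l => ((hN τ hτ hτ' a ha' l ν (p.C1 * √τ / p.ρ) hν (by rwa [← p.thr_succ])
    (le_of_eq (by field_simp))).2.2.shift 1).to3
  set co : Fin (p.n + 1) → ℝ := fun l => a * √τ / p.μ * p.w' (Fin.last p.n) l with hco
  have hco' : ∑ l, |co l| ≤ a * √τ / p.μ * p.Cw := by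
    have h0 : 0 ≤ a * √τ / p.μ := by positivity
    simp only [hco, abs_mul (a * √τ / p.μ), abs_of_nonneg h0, ← Finset.mul_sum]
    gcongr
    exact p.hw.bw' _
  have hco2 : (∑ l, |co l|) * p.C1 ≤ p.δ * p.g := by
    calc (∑ l, |co l|) * p.C1 ≤ 2 * p.Lc * p.ρ / p.μ * p.Cw * p.C1 := by
          refine (mul_le_mul_of_nonneg_right hco' (by linarith)).trans ?_; gcongr
      _ = 20 * (p.Lc : ℝ) ^ 2 * p.ρ * p.Cw * p.C1 / p.μ * p.δ := by unfold δ; field_simp; ring
      _ ≤ p.μ * p.g / p.μ * p.δ := by gcongr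
      _ = p.δ * p.g := by field_simp
  have hco3 : ∑ l, co l ^ 2 * (p.C1 * √τ / p.ρ) ^ 2 ≤ a⁻¹ ^ 2 := by
    rw [← Finset.sum_mul]
    have h3 : ∑ l, co l ^ 2 ≤ (a * √τ / p.μ * p.Cw) ^ 2 :=
      (sq_sum_le co).trans (pow_le_pow_left₀ (Finset.sum_nonneg fun k _ => abs_nonneg _) hco' 2)
    have h4 : a * √τ / p.μ * p.Cw * (p.C1 * √τ / p.ρ) ≤ a⁻¹ := by
      rw [← one_div, le_div_iff₀ ha0]
      calc a * √τ / p.μ * p.Cw * (p.C1 * √τ / p.ρ) * a
          = (a * √τ) ^ 2 * p.Cw * p.C1 / (p.μ * p.ρ) := by field_simp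
        _ ≤ (2 * p.Lc * p.ρ) ^ 2 * p.Cw * p.C1 / (p.μ * p.ρ) := by gcongr
        _ = 4 * (p.Lc : ℝ) ^ 2 * p.ρ * p.Cw * p.C1 / p.μ := by field_simp; ring
        _ ≤ 1 := by
            rw [div_le_one hμ]
            have : 0 ≤ (p.Lc : ℝ) ^ 2 * p.ρ * p.Cw * p.C1 := by positivity
            linarith
    calc (∑ l, co l ^ 2) * (p.C1 * √τ / p.ρ) ^ 2
        ≤ (a * √τ / p.μ * p.Cw) ^ 2 * (p.C1 * √τ / p.ρ) ^ 2 := by gcongr
      _ = (a * √τ / p.μ * p.Cw * (p.C1 * √τ / p.ρ)) ^ 2 := by ring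
      _ ≤ _ := by gcongr
  have ht0 : 0 ≤ t ^ 2 - a⁻¹ ^ 2 := by nlinarith [sq_nonneg t', sq_nonneg a⁻¹]
  set T₀ : p.Tgt := fun V c _ Hn x => mm V.1 τ c + a⁻¹ • (Hn (Fin.last p.n) x - x.2) with hT₀
  have hgj := p.gpow_pos j
  have h3 := sim3_comb (p := p) (κ := Option (Fin (p.n + 1)))
    (q := fun o => o.elim (q + N * (p.qD * p.om ^ (j + 1))) fun _ => p.C1 * p.om ^ j)
    (Λ := fun o => o.elim (Λ * (1 + p.δ)) fun _ => p.C1 * p.g⁻¹ ^ 1)
    (N := fun o => o.elim (N * (1 + 2 * p.δ)) fun _ => 2 * (p.C1 * p.NM * p.om⁻¹ ^ 1))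
    (e := fun o => o.elim (Λ * (p.δ * p.g ^ (j + 1)) + e * (1 + p.δ)) fun _ => p.C1 * p.g ^ j)
    (σ := fun o => o.elim t' fun _ => p.C1 * √τ / p.ρ) (τ := τ) (a := a) (ν := ν)
    (T := fun o => o.elim (p.tG τ (Fin.last p.n)) fun l => p.tQ τ l)
    (fun o => by cases o; exacts [h1, h2 _])
    (fun o => by cases o; exacts [p.tcont_G hτ a _, p.tcont_Q hτ a _])
    (fun o => by cases o <;> simp only [Option.elim] <;> positivity)
    (fun o => o.elim 1 co) √(t ^ 2 - a⁻¹ ^ 2) (p.δ / 2 * p.g ^ (j + 1)) (by positivity)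
    (by rw [Real.sq_sqrt ht0, Fintype.sum_option]; simp only [Option.elim]; linarith) T₀
    (fun V c Xi Yc Hn hf => by
      calc _ = ∫⁻ x, ENNReal.ofReal a⁻¹ * ‖Hn (Fin.last p.n) x - (x.2 + ∑ l,
              (a ^ 2 * τ * p.β ^ 2 * p.w' (Fin.last p.n) l) • KK V.1 (tn p.n p.β τ l) (Yc l x)
              (KK V.1 (tn p.n p.β τ l) (Yc l x) (Hn l x))
              + a • (mm V.1 (tn p.n p.β τ (Fin.last p.n)) (Yc (Fin.last p.n) x)
                - mm V.1 τ c))‖ₑ ∂(gg d) := by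
            refine lintegral_congr fun x => ?_
            rw [← Real.enorm_eq_ofReal (by positivity), ← enorm_smul]
            congr 1
            have e1 : ∀ l, co l * (p.μ * p.β * (p.β * √τ))
                = a⁻¹ * (a ^ 2 * τ * p.β ^ 2 * p.w' (Fin.last p.n) l) := fun l => by
              simp only [hco]; field_simp; rw [Real.sq_sqrt hτ.le]; ring
            simp only [hT₀, tG, tQ, Fintype.sum_option, Option.elim, smul_add, smul_sub,
              Finset.smul_sum, smul_smul, one_smul, e1, inv_mul_cancel₀ ha0.ne']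
            abel
        _ ≤ ENNReal.ofReal a⁻¹ *
              ENNReal.ofReal (p.Cf * (a ^ 2 * τ) * p.β ^ (p.n + 1) * √(d : ℝ)) := by
            rw [lintegral_const_mul' _ _ ENNReal.ofReal_ne_top]
            gcongr
            exact hf.errH _
        _ ≤ _ := by
            rw [← ENNReal.ofReal_mul (by positivity)]
            refine ENNReal.ofReal_le_ofReal (le_trans ?_ (floor_le hj hτ' c))
            have := p.hCf
            have h5 : a * √τ ≤ 1 := by linarith [p.hμ1]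
            calc a⁻¹ * (p.Cf * (a ^ 2 * τ) * p.β ^ (p.n + 1) * √(d : ℝ))
                = a * √τ * (p.Cf * √τ * p.β ^ (p.n + 1) * √(d : ℝ)) := by
                  field_simp; rw [Real.sq_sqrt hτ.le]; ring
              _ ≤ 1 * (p.Cf * √τ * p.β ^ (p.n + 1) * √(d : ℝ)) := by gcongr
              _ = _ := one_mul _)
  obtain ⟨L, h4, h5⟩ := h3.share hτ hν (hν'.trans ((p.thr_anti (Nat.zero_le _) τ).trans
    (p.thr_zero τ).le)) (fun V c Xi Yc Hn hf => by
      have := hf.contH (Fin.last p.n); simp only [hT₀]; fun_prop) a⁻¹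
  refine ⟨L, h4.mono ?_ ?_ ?_, fun V c => ?_⟩
  · simp [Fintype.sum_option]
  · simp only [Fintype.sum_option, Option.elim, abs_one, one_mul, ← Finset.sum_mul, pow_one]
    have : (∑ l, |co l|) * (p.C1 * p.g⁻¹) ≤ p.δ := by
      rw [← mul_assoc, ← div_eq_mul_inv, div_le_iff₀ hg]; exact hco2
    linarith
  · simp only [Fintype.sum_option, Option.elim, Finset.sum_const, Finset.card_univ,
      Fintype.card_fin, nsmul_eq_mul, pow_one]
    have h6 : 8 * (p.n + 1) * p.C1 * p.Lc ≤ p.om := p.hom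
    have : ((p.n + 1 : ℕ) : ℝ) * (2 * (p.C1 * p.NM * p.om⁻¹)) ≤ 1 := by
      rw [← div_eq_mul_inv, ← mul_div_assoc, ← mul_div_assoc, div_le_one hom]
      unfold NM; push_cast; linarith
    linarith
  · obtain ⟨Xi, hXi⟩ := p.flow V.1 V.2 c τ hτ (hτ'.trans p.hh')
    obtain ⟨Yc, Hn, hf⟩ := hXi a (ha'.trans p.hμ1)
    refine (h5 V c Xi Yc Hn hf _ fun f hf' => ?_).trans (ENNReal.ofReal_le_ofReal ?_)
    · obtain ⟨M, hM'⟩ := hf'.2
      have hm : Measurable f := hf'.1.continuous.measurable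
      have hG := measurable_integral_Nm √(t ^ 2 - a⁻¹ ^ 2) hm
      rw [integral_Nm_mix (mm V.1 τ c) (r := a⁻¹) (s := √(t ^ 2 - a⁻¹ ^ 2))
        (by rw [Real.sq_sqrt ht0]; ring) hm hM', integral_Nm _ _ hG]
      conv_lhs => rw [← FD.map_H hf hτ hτ' (Fin.last p.n)]
      have hG' : Measurable fun ξ : E d =>
          ∫ y, f y ∂(Nm (mm V.1 τ c + a⁻¹ • ξ) √(t ^ 2 - a⁻¹ ^ 2)) := hG.comp (by fun_prop)
      rw [integral_map (hf.contH _).measurable.aemeasurable hG'.aestronglyMeasurable]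
      refine integral_congr_ae (ae_of_all _ fun x => ?_)
      simp only [hT₀, smul_sub]
      congr 2
      abel
    · refine mul_le_mul_of_nonneg_right ?_ (RR_nonneg c)
      simp only [Fintype.sum_option, Option.elim, abs_one, one_mul, ← Finset.sum_mul]
      have : (∑ l, |co l|) * (p.C1 * p.g ^ j) ≤ p.δ * p.g ^ (j + 1) := by
        rw [← mul_assoc, pow_succ, mul_comm (p.g ^ j), ← mul_assoc]; gcongr
      have : 0 < p.δ * p.g ^ (j + 1) := by positivity
      linarith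

theorem mSim_chain {j : ℕ} (hj : j + 1 ≤ p.k) (hD : p.SDg (j + 1)) (hN : p.SN j) {a : ℝ}
    (ha0 : 0 < a) (i : ℕ) (hi : i ≤ p.Lc) : ∀ τ ν t : ℝ, 0 < τ → τ ≤ p.h →
      τ * (1 - p.β ^ 2) ^ i ≤ p.h * (1 - p.β ^ 2) ^ p.Lc → a * √τ ≤ 2 * p.Lc * p.ρ → 0 ≤ ν →
      ν ≤ p.thr (j + 1) τ → 2 * i * a⁻¹ ^ 2 ≤ t ^ 2 →
      p.MSim (1 + i * (p.NM * (p.qD * p.om ^ (j + 1)) + (p.n + 1) * (p.C1 * p.om ^ j)))
        (2 + 5 * p.δ * i) (1 + 3 * i) (p.g ^ (j + 1) * (1 + 10 * p.δ * i)) τ ν t := by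
  have hδ := p.δ_pos; have hg := p.hg; have hom := p.om_pos; have hq := p.qD_pos
  have hβ := p.hβ; have hβ' := p.hβ'
  induction i with
  | zero =>
    intro τ ν t hτ hτ' h1 _ hν hν' _
    refine (mSim_base hτ (hτ'.trans p.hh') hν ?_).mono (by simp) (by simp) (by simp) ?_
    · refine hν'.trans ((p.thr_anti (Nat.zero_le _) τ).trans ?_)
      rw [p.thr_zero]; have := Real.sqrt_nonneg τ; nlinarith
    · simp only [pow_zero, mul_one] at h1
      have := Real.sqrt_le_sqrt h1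
      have := p.hbase; have := p.gpow_anti hj
      simp only [Nat.cast_zero, mul_zero, add_zero, mul_one]; linarith
  | succ i ih =>
    intro τ ν t hτ hτ' h1 ha hν hν' ht
    have hi' : (i : ℝ) + 1 ≤ p.Lc := by exact_mod_cast hi
    have hi0 : (0 : ℝ) ≤ i := Nat.cast_nonneg i
    have hδi : p.δ * (i + 1) ≤ 1 / 10 := by rw [← p.δ_mul]; gcongr
    push_cast at ht ⊢
    have ht0 : 0 ≤ t ^ 2 - 2 * a⁻¹ ^ 2 := by nlinarith [sq_nonneg a⁻¹]
    have h2 := ih (by omega) (tn p.n p.β τ (Fin.last p.n)) (p.smin τ) √(t ^ 2 - 2 * a⁻¹ ^ 2)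
      (p.tn_pos hτ _) ((p.tn_le hτ _).trans hτ')
      (by rw [tn, p.nod_last, mul_assoc, ← pow_succ']; exact h1)
      (le_trans (by gcongr; exact p.tn_le hτ _) ha) (p.smin_nonneg τ)
      (by have := p.smin_le hj τ; have := p.thr_tn_ge hτ (j + 1) (Fin.last p.n)
          have := p.thr_nonneg (j + 1) τ; linarith)
      (by rw [Real.sq_sqrt ht0]; linarith)
    have hgj := p.gpow_pos (j + 1)
    refine (mSim_step hj hD hN hτ hτ' ha0 ha hν hν' (by positivity)
      (by rw [Real.sq_sqrt ht0]; linarith) h2).mono ?_ (by nlinarith) (by nlinarith) ?_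
    · have : (1 + 3 * (i : ℝ)) * (p.qD * p.om ^ (j + 1)) ≤ p.NM * (p.qD * p.om ^ (j + 1)) := by
        gcongr; unfold NM; linarith
      linarith
    · have h3 : 0 < p.δ * p.g ^ (j + 1) := by positivity
      have h4 : p.δ * i * (p.δ * p.g ^ (j + 1)) ≤ 1 / 10 * (p.δ * p.g ^ (j + 1)) := by
        gcongr; linarith
      nlinarith

/-- the weak step -/
theorem sm_succ {j : ℕ} (hj : j + 1 ≤ p.k) (hD : p.SDg (j + 1)) (hN : p.SN j) : p.SM (j + 1) := by
  intro τ hτ hτ' σ hσ ν hν hν'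
  have hs : 0 < √τ := Real.sqrt_pos.mpr hτ
  have hρ := p.hρ; have hL := p.L1; have hβ := p.hβ; have hβ' := p.hβ'
  have hσ0 : 0 < σ := pos_of_mul_pos_right (hs.trans_le hσ) hρ.le
  have hom := p.om_ge; have hδL := p.δ_mul
  have h1 := mSim_chain hj hD hN (a := 2 * p.Lc / σ) (by positivity) p.Lc le_rfl τ ν σ hτ hτ'
    (by gcongr; exact pow_nonneg (by nlinarith) _)
    (by rw [div_mul_eq_mul_div, div_le_iff₀ hσ0, mul_assoc (2 * (p.Lc : ℝ))]; gcongr) hν hν'
    (by rw [inv_div, div_pow, ← mul_div_assoc, div_le_iff₀ (by positivity)]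
        have : 0 ≤ σ ^ 2 * p.Lc := by positivity
        nlinarith)
  have hgj := p.gpow_pos (j + 1)
  refine h1.mono ?_ (by nlinarith) (by unfold NM; linarith) (by nlinarith)
  have h2 := p.NM_qD
  have h3 : 8 * (p.n + 1) * p.C1 * p.Lc ≤ p.om := p.hom
  have h4 : 1 ≤ p.om ^ j := one_le_pow₀ (by linarith)
  have h5 : 8 * (p.n + 1) * p.C1 * p.Lc * p.om ^ j ≤ p.om * p.om ^ j := by gcongr
  have h6 : p.NM * p.qD * p.Lc * p.om ^ (j + 1) = 1 / 4 * p.om ^ (j + 1) := by rw [h2]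
  rw [pow_succ] at h6 ⊢
  nlinarith

theorem all_levels (j : ℕ) (hj : j ≤ p.k) : p.SD j ∧ p.SN j := by
  induction j using Nat.strong_induction_on with
  | _ j ih =>
    have hSD : ∀ i, i ≤ j → p.SD i := by
      intro i hi
      rcases lt_or_eq_of_le hi with h | rfl
      · exact (ih i h (by omega)).1
      · by_cases hJ : i ≤ p.J
        · exact sd_small hJ
        · obtain ⟨m, rfl⟩ : ∃ m, i = m + p.J := ⟨i - p.J, by omega⟩
          exact sd_of_sn hj (ih m (by have := p.hJ; omega) (by omega)).2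
    have hD := sdg_of sd_triv hSD
    refine ⟨hSD j le_rfl, sn_of hj ?_ hD⟩
    cases j with
    | zero => exact sm_zero
    | succ j => exact sm_succ hj hD (ih j (by omega) (by omega)).2

theorem sd_top : p.SD p.k := (all_levels p.k le_rfl).1

end Par

end Vale.Agent.P347
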