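import Vale.Agent.P347.Rec6
import Vale.Agent.P347.Conv

open MeasureTheory ProbabilityTheory Filter Set
open scoped ENNReal ContDiff RealInnerProductSpace

namespace Vale.Agent.P347

variable {d : ℕ}

theorem BL.smooth {f : E d → ℝ} (hf : BL f) (σ : ℝ) : BL fun c => ∫ y, f y ∂(Nm c σ) := by
  obtain ⟨M, hM⟩ := hf.2
  refine ⟨LipschitzWith.of_dist_le_mul fun a b => ?_, M, fun c => ?_⟩
  · have h := (le_Wd hf (Nm a σ) (Nm b σ)).trans (Wd_Nm_Nm a b σ)
    rw [← ofReal_norm, ENNReal.ofReal_le_ofReal_iff (norm_nonneg _)] at h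
    simpa [dist_eq_norm] using h
  · have := norm_integral_le_of_norm_le_const (μ := Nm c σ) (f := f) (C := M)
      (ae_of_all _ fun x => hM x)
    simpa using this

/-- the inputs of a simulator without ports -/
def e0 (d : ℕ) : Empty → ℕ → Measure (E d) := fun p _ => p.elim

theorem allProb_e0 : AllProb (e0 d) := fun p => p.elim

namespace Par

variable (p : Par d)

/-- an algorithm whose output law is close to the smoothed target -/
def ESim (q τ W : ℝ) : Prop :=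
  ∃ (Λ N : ℝ) (L : Pot d → (Empty → ℕ → Measure (E d)) → Measure (E d)),
    Sim p.g p.om Empty q Λ N L ∧ ∀ V, Wd (L V (e0 d)) (piT V.1 τ) ≤ ENNReal.ofReal W

variable {p}

theorem ESim.mono {q τ W q' W' : ℝ} (h : p.ESim q τ W) (hq : q ≤ q') (hW : W ≤ W') :
    p.ESim q' τ W' := by
  obtain ⟨Λ, N, L, h1, h2⟩ := h
  exact ⟨Λ, N, L, h1.mono hq le_rfl le_rfl, fun V => (h2 V).trans (ENNReal.ofReal_le_ofReal hW)⟩

theorem step_sim {τ σ : ℝ} (hτ : 0 < τ) (hτ' : τ ≤ p.h) (hσ : p.smin τ ≤ σ) :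
    ∃ (Λ N : ℝ) (L : Pot d → (Option Empty → ℕ → Measure (E d)) → Measure (E d)),
      Sim p.g p.om (Option Empty) (p.qD * p.om ^ p.k) Λ N L ∧ ∀ V c f, BL f →
        |∫ y, f y ∂(L V (ext1 c (e0 d))) -
          ∫ w, (∫ y, f y ∂(Nm (c + (√τ * p.β) • w) σ)) ∂(rho V.1 c τ p.β)|
          ≤ p.δ * p.g ^ p.k * RR c := by
  have hδ := p.δ_pos; have hg := p.gpow_pos p.k
  have h0 : |(0 : ℝ)| * √τ ≤ p.μ := by simpa using p.μ_pos.le
  have h1 := (sd_top τ hτ hτ' 0 h0 (Fin.last p.n) 0 σ le_rfl (p.thr_nonneg _ _) hσ).1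
  obtain ⟨L, h2, h3⟩ := (h1.next (by positivity)).share hτ le_rfl
    (mul_nonneg p.hβ.le (Real.sqrt_nonneg τ)) (fun V c Xi Yc Hn hf => hf.contY _) 0
  refine ⟨_, _, _, h2.reindex (fun _ => none), fun V c f hf => ?_⟩
  obtain ⟨Xi, hXi⟩ := p.flow V.1 V.2 c τ hτ (hτ'.trans p.hh')
  obtain ⟨Yc, Hn, hF⟩ := hXi 0 (by simp)
  have := rho_prob V.2 c hτ (hτ'.trans p.hh') p.hβ.le p.hβ'
  set Tm : Measure (E d) := ((rho V.1 c τ p.β).prod (gam d)).map
    fun x => c + (√τ * p.β) • x.1 + σ • x.2 with hTm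
  have hT : ∀ f, BL f → ∫ y, f y ∂Tm =
      ∫ w, (∫ y, f y ∂(Nm (c + (√τ * p.β) • w) σ)) ∂(rho V.1 c τ p.β) := by
    intro f hf
    obtain ⟨M, hM⟩ := hf.2
    have hm : Measurable f := hf.1.continuous.measurable
    rw [hTm, integral_map (by fun_prop) hm.aestronglyMeasurable, integral_prod]
    · simp only [integral_Nm _ σ hm]
    · exact Integrable.of_bound (hm.comp (by fun_prop)).aestronglyMeasurable M
        (ae_of_all _ fun x => hM _)
  have h4 := h3 V c Xi Yc Hn hF Tm (fun f hf => by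
    have hm : Measurable f := hf.1.continuous.measurable
    have hG := measurable_integral_Nm σ hm
    have h5 := FD.map_Y hF hτ hτ' (Fin.last p.n)
    rw [p.nod_last] at h5
    rw [hT f hf, ← integral_map (φ := fun w => c + (√τ * p.β) • w) (by fun_prop)
      hG.aestronglyMeasurable, ← h5,
      integral_map (hF.contY _).measurable.aemeasurable hG.aestronglyMeasurable]
    simp [tY])
  have h6 := (le_Wd hf _ _).trans h4
  rw [ENNReal.ofReal_le_ofReal_iff (mul_nonneg (by positivity) (RR_nonneg c)), hT f hf] at h6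
  have e : (fun _ : Unit => ext1 c (e0 d) none) = cf (fun _ => c) fun _ => 0 := by
    funext _ j; simp [ext1, cf, Nm_zero]
  simpa only [e] using h6

theorem ESim.step {q τ W σ : ℝ} (h : p.ESim q τ W) (hW : 0 ≤ W) (hτ : 0 < τ) (hτ' : τ ≤ p.h)
    (hσ : p.smin τ ≤ σ) :
    p.ESim (q + p.qD * p.om ^ p.k) (τ * (1 - p.β ^ 2) + σ ^ 2)
      ((1 - τ * p.β ^ 2 / 4) * W + p.δ * p.g ^ p.k * (3 * √(d : ℝ) + W)) := by
  have hδ := p.δ_pos; have hg := p.gpow_pos p.k; have hβ := p.hβ; have hβ' := p.hβ'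
  have hτ8 := hτ'.trans p.hh'
  obtain ⟨Λ₀, N₀, L₀, h1, h2⟩ := h
  obtain ⟨Λ, N, L, h3, h4⟩ := step_sim hτ hτ' hσ
  obtain ⟨L', h5, h6⟩ := Sim.share1 p.hg p.hg1 p.om_pos h1 h3
  refine ⟨_, _, L', h5, fun V => iSup₂_le fun f hf => ENNReal.ofReal_le_ofReal ?_⟩
  obtain ⟨M, hM⟩ := hf.2
  have hm : Measurable f := hf.1.continuous.measurable
  obtain ⟨h7, h8⟩ := h6 V _ allProb_e0 f M hm hM
  have hμ := h1.prob V allProb_e0
  have hπ := piT_prob V.2 τ
  set μ := L₀ V (e0 d) with hμdef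
  set F : E d → ℝ := fun A => ∫ x, f x ∂(L V (ext1 A (e0 d))) with hF
  set fs : E d → ℝ := fun c => ∫ y, f y ∂(Nm c σ) with hfs
  have hfsB : BL fs := hf.smooth σ
  obtain ⟨M', hM'⟩ := hfsB.2
  set G : E d → ℝ := fun c => ∫ w, fs (c + (√τ * p.β) • w) ∂(rho V.1 c τ p.β) with hG
  have hK : 0 ≤ 1 - τ * p.β ^ 2 / 4 := by nlinarith
  have hGL : ∀ x y, |G x - G y| ≤ (1 - τ * p.β ^ 2 / 4) * ‖x - y‖ := fun x y =>
    rho_contract V.2 hτ hτ8 hβ hβ' hfsB x y
  have hGM : ∀ x, |G x| ≤ M' := fun c => by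
    have := rho_prob V.2 c hτ hτ8 hβ.le hβ'
    have := norm_integral_le_of_norm_le_const (μ := rho V.1 c τ p.β)
      (f := fun w => fs (c + (√τ * p.β) • w)) (C := M') (ae_of_all _ fun x => hM' _)
    simpa using this
  have hGc : Continuous G := by
    refine (LipschitzWith.of_dist_le' (K := 1 - τ * p.β ^ 2 / 4) fun x y => ?_).continuous
    simpa [dist_eq_norm] using hGL x y
  have hFM : ∀ x, |F x| ≤ M := fun c => by
    have hpr : AllProb (ext1 c (e0 d)) := fun o j => by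
      cases o with
      | none => simp only [ext1, Option.elim]; infer_instance
      | some o => exact o.elim
    have := h3.prob V hpr
    have := norm_integral_le_of_norm_le_const (μ := L V (ext1 c (e0 d))) (f := f) (C := M)
      (ae_of_all _ fun x => hM _)
    simpa using this
  have e1 : ∫ x, f x ∂(piT V.1 (τ * (1 - p.β ^ 2) + σ ^ 2)) = ∫ c, G c ∂(piT V.1 τ) := by
    rw [← integral_Nm_piT V.2 (mul_nonneg hτ.le (by nlinarith)) σ hm hM]
    exact (integral_rho_piT V.2 hτ (by rw [abs_of_pos hβ]; linarith)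
      hfsB.1.continuous.measurable hM').symm
  have i1 : |∫ c, G c ∂μ - ∫ c, G c ∂(piT V.1 τ)| ≤ (1 - τ * p.β ^ 2 / 4) * W := by
    have := (le_mul_Wd hK hGL hGM μ (piT V.1 τ)).trans (mul_le_mul_right (h2 V) _)
    rwa [← ENNReal.ofReal_mul hK, ENNReal.ofReal_le_ofReal_iff (by positivity)] at this
  have i2 : |∫ c, F c ∂μ - ∫ c, G c ∂μ| ≤ p.δ * p.g ^ p.k * (3 * √(d : ℝ) + W) := by
    rw [← integral_sub (Integrable.of_bound h7.aestronglyMeasurable M (ae_of_all _ hFM))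
      (Integrable.of_bound hGc.aestronglyMeasurable M' (ae_of_all _ hGM)),
      ← ENNReal.ofReal_le_ofReal_iff (by positivity), ← Real.norm_eq_abs, ofReal_norm]
    refine (enorm_integral_le_lintegral_enorm _).trans ?_
    have hm1 := (lintegral_enorm_le_add_Wd μ (piT V.1 τ)).trans
      (add_le_add (lintegral_enorm_piT V.2 hτ.le (by linarith)) (h2 V))
    calc ∫⁻ c, ‖F c - G c‖ₑ ∂μ
        ≤ ∫⁻ c, ENNReal.ofReal (p.δ * p.g ^ p.k) * (ENNReal.ofReal √(d : ℝ) + ‖c‖ₑ) ∂μ := by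
          refine lintegral_mono fun c => ?_
          rw [← ofReal_norm, ← ofReal_norm, ← ENNReal.ofReal_add (by positivity) (by positivity),
            ← ENNReal.ofReal_mul (by positivity)]
          exact ENNReal.ofReal_le_ofReal (h4 V c f hf)
      _ = ENNReal.ofReal (p.δ * p.g ^ p.k) * (ENNReal.ofReal √(d : ℝ) + ∫⁻ c, ‖c‖ₑ ∂μ) := by
          rw [lintegral_const_mul' _ _ ENNReal.ofReal_ne_top, lintegral_add_left measurable_const,
            lintegral_const, measure_univ, mul_one]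
      _ ≤ ENNReal.ofReal (p.δ * p.g ^ p.k) * (ENNReal.ofReal √(d : ℝ) +
            (ENNReal.ofReal (2 * √(d : ℝ)) + ENNReal.ofReal W)) := by gcongr
      _ = _ := by
          rw [← ENNReal.ofReal_add (by positivity) hW,
            ← ENNReal.ofReal_add (by positivity) (by positivity),
            ← ENNReal.ofReal_mul (by positivity)]
          congr 1; ring
  rw [h8, e1]
  have := abs_sub_le (∫ c, F c ∂μ) (∫ c, G c ∂μ) (∫ c, G c ∂(piT V.1 τ))
  linarith

theorem eSim_zero : p.ESim 0 p.h (2 * √(d : ℝ)) := by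
  obtain ⟨L, h1, h2⟩ := sim_noise (d := d) (g := p.g) (om := p.om) (P := Empty) 0
  refine ⟨_, _, L, h1, fun V => ?_⟩
  have := piT_prob V.2 p.h
  rw [h2 V _ allProb_e0, Nm_zero, Wd_comm]
  refine (Wd_dirac_le _ _).trans ?_
  simpa using lintegral_enorm_piT V.2 p.hh.le (by linarith [p.hh'])

theorem smin_le' (τ : ℝ) : p.smin τ ≤ p.β * √τ / 32 := by
  simpa [p.thr_zero] using p.smin_le (Nat.zero_le p.k) τ

theorem eSim_mix (hε : 8 * (p.δ * p.g ^ p.k) ≤ p.h * p.β ^ 2) (m : ℕ) :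
    p.ESim (m * (p.qD * p.om ^ p.k)) p.h ((1 - p.h * p.β ^ 2 / 8) ^ m * (2 * √(d : ℝ))
      + 24 * (p.δ * p.g ^ p.k) * √(d : ℝ) / (p.h * p.β ^ 2)) := by
  have hδ := p.δ_pos; have hg := p.gpow_pos p.k; have hβ := p.hβ; have hβ' := p.hβ'
  have hh := p.hh; have hh' := p.hh'
  have hK : 0 ≤ 1 - p.h * p.β ^ 2 / 8 := by nlinarith
  induction m with
  | zero => exact eSim_zero.mono (by simp) (by simp; positivity)
  | succ m ih =>
    have hs : 0 ≤ p.β * √p.h := by positivity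
    have h1 := ih.step (σ := p.β * √p.h) (by positivity) hh le_rfl
      (by linarith [smin_le' (p := p) p.h])
    have e : p.h * (1 - p.β ^ 2) + (p.β * √p.h) ^ 2 = p.h := by
      rw [mul_pow, Real.sq_sqrt hh.le]; ring
    rw [e] at h1
    refine h1.mono (le_of_eq (by push_cast; ring)) ?_
    set ε := p.δ * p.g ^ p.k
    set A := (1 - p.h * p.β ^ 2 / 8) ^ m * (2 * √(d : ℝ)) with hA
    set B := 24 * ε * √(d : ℝ) / (p.h * p.β ^ 2) with hB
    have hA0 : 0 ≤ A := by positivity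
    have hB0 : 0 ≤ B := by positivity
    have hB1 : p.h * p.β ^ 2 * B = 24 * ε * √(d : ℝ) := by rw [hB]; field_simp
    have e2 : (1 - p.h * p.β ^ 2 / 8) ^ (m + 1) * (2 * √(d : ℝ))
        = (1 - p.h * p.β ^ 2 / 8) * A := by rw [hA]; ring
    rw [e2]
    nlinarith [mul_le_mul_of_nonneg_right hε (add_nonneg hA0 hB0)]

theorem eSim_desc {q W : ℝ} (h : p.ESim q p.h W) (hW : 0 ≤ W) (m : ℕ)
    (hm : W + 4 * m * (p.δ * p.g ^ p.k) * √(d : ℝ) ≤ √(d : ℝ)) :
    p.ESim (q + m * (p.qD * p.om ^ p.k)) (p.h * (1 - p.β ^ 2 / 2) ^ m)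
      (W + 4 * m * (p.δ * p.g ^ p.k) * √(d : ℝ)) := by
  have hδ := p.δ_pos; have hg := p.gpow_pos p.k; have hβ := p.hβ; have hβ' := p.hβ'
  have hh := p.hh
  have hK : 0 < 1 - p.β ^ 2 / 2 := by nlinarith
  have hε : 0 ≤ p.δ * p.g ^ p.k * √(d : ℝ) := by positivity
  induction m with
  | zero => simpa using h
  | succ m ih =>
    push_cast at hm
    have hm' : W + 4 * m * (p.δ * p.g ^ p.k) * √(d : ℝ) ≤ √(d : ℝ) := by linarith
    set τ := p.h * (1 - p.β ^ 2 / 2) ^ m with hτdef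
    have hτ : 0 < τ := by positivity
    have hτ' : τ ≤ p.h := mul_le_of_le_one_right hh.le (pow_le_one₀ hK.le (by nlinarith))
    have h1 := (ih hm').step (σ := √(τ * p.β ^ 2 / 2)) (by positivity) hτ hτ'
      ((smin_le' τ).trans (Real.le_sqrt_of_sq_le (by
        rw [div_pow, mul_pow, Real.sq_sqrt hτ.le]; nlinarith [mul_pos hτ (pow_pos hβ 2)])))
    have e : τ * (1 - p.β ^ 2) + √(τ * p.β ^ 2 / 2) ^ 2 = p.h * (1 - p.β ^ 2 / 2) ^ (m + 1) := by
      rw [Real.sq_sqrt (by positivity), pow_succ (1 - p.β ^ 2 / 2), ← mul_assoc, ← hτdef]; ring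
    rw [e] at h1
    refine h1.mono (le_of_eq (by push_cast; ring)) ?_
    push_cast
    set W' := W + 4 * m * (p.δ * p.g ^ p.k) * √(d : ℝ) with hW'
    have h2 : 0 ≤ W' := by positivity
    have h3 : p.δ * p.g ^ p.k * W' ≤ p.δ * p.g ^ p.k * √(d : ℝ) := by gcongr
    have h4 : 0 ≤ τ * p.β ^ 2 / 4 * W' := by positivity
    linarith

theorem ESim.final {q τ W : ℝ} (h : p.ESim q τ W) (hd : 1 ≤ d) (hW0 : 0 ≤ W) (hτ : 0 ≤ τ)
    (hτ' : τ ≤ (1 / (60 * d)) ^ 2) (hW : 1200 * d * √(d : ℝ) * W ≤ 1) :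
    ∃ q₀ : ℕ, (q₀ : ℝ) ≤ q ∧ Achievable d q₀ := by
  obtain ⟨Λ₀, N₀, L₀, h1, h2⟩ := h
  have hd' : (1 : ℝ) ≤ d := by exact_mod_cast hd
  set s : ℝ := 1 / (60 * d) with hsdef
  have hs : 0 < s := by positivity
  obtain ⟨L, h3, h4⟩ := sim_sum (d := d) (g := p.g) (om := p.om) (κ := Unit)
    (fun _ => sim_port (d := d) (g := p.g) (om := p.om) (none : Option Empty) 0) (fun _ => 1) s
  obtain ⟨L', h5, h6⟩ := Sim.share1 p.hg p.hg1 p.om_pos h1 h3
  refine (h5.mono (by simp) le_rfl le_rfl).achievable fun V B hB => ?_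
  have hind : Measurable (B.indicator (1 : E d → ℝ)) := measurable_one.indicator hB
  have hb : ∀ x, |B.indicator (1 : E d → ℝ) x| ≤ 1 := fun x => by
    by_cases hx : x ∈ B <;> simp [hx]
  have h7 := (h6 V _ allProb_e0 _ 1 hind hb).2
  have h8 : ∀ A, L V (ext1 A (e0 d)) = Nm A s := fun A => by
    have hpr : AllProb (ext1 A (e0 d)) := fun o j => by
      cases o with
      | none => simp only [ext1, Option.elim]; infer_instance
      | some o => exact o.elim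
    have := (h4 V _ hpr (fun _ => A) (fun _ => 0) s (by simp)).2
      (fun _ => by simp [ext1, Nm_zero])
    simpa using this
  have h9 := integral_Nm_piT V.2 hτ s hind hb
  simp only [h8, integral_indicator_one hB] at h7 h9
  have hμ := h1.prob V allProb_e0
  have hπ := piT_prob V.2 τ
  have i1 := (le_mul_Wd (K := √(d : ℝ) / s) (M := 1) (by positivity)
    (fun x y => Nm_real_sub_le x y hs hB)
    (fun x => by rw [abs_of_nonneg measureReal_nonneg]; exact measureReal_le_one)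
    (L₀ V (e0 d)) (piT V.1 τ)).trans (mul_le_mul_right (h2 V) _)
  rw [← ENNReal.ofReal_mul (by positivity), ENNReal.ofReal_le_ofReal_iff (by positivity),
    ← h7, h9] at i1
  have i2 := piT_real_sub_le V.2 (τ := τ + s ^ 2) (by positivity) hB
  have i3 : √(τ + s ^ 2) ≤ 3 / 2 * s := Real.sqrt_le_iff.mpr ⟨by positivity, by nlinarith⟩
  have i4 : 2 * √(τ + s ^ 2) * d ≤ 1 / 20 := by
    calc 2 * √(τ + s ^ 2) * d ≤ 2 * (3 / 2 * s) * d := by gcongr
      _ = 1 / 20 := by rw [hsdef]; field_simp; norm_num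
  have i5 : √(d : ℝ) / s * W ≤ 1 / 20 := by
    have : √(d : ℝ) / s * W = 1200 * d * √(d : ℝ) * W / 20 := by rw [hsdef]; field_simp; ring
    rw [this]; linarith
  have := abs_sub_le ((L' V (e0 d)).real B) ((piT V.1 (τ + s ^ 2)).real B) ((gibbs V.1).real B)
  change |(L' V (e0 d)).real B - _| ≤ _
  linarith

/-- the complete algorithm -/
theorem achievable (p : Par d) (hd : 1 ≤ d) (m₁ m₂ : ℕ)
    (h1 : p.g ^ p.k ≤ p.h * p.β ^ 2)
    (h2 : 1200 * (d : ℝ) ^ 2 * (2 * (1 - p.h * p.β ^ 2 / 8) ^ m₁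
      + 3 * p.g ^ p.k / (p.h * p.β ^ 2) + m₂ * p.g ^ p.k) ≤ 1)
    (h3 : p.h * (1 - p.β ^ 2 / 2) ^ m₂ ≤ (1 / (60 * d)) ^ 2) :
    ∃ q₀ : ℕ, (q₀ : ℝ) ≤ (m₁ + m₂) * p.om ^ p.k ∧ Achievable d q₀ := by
  have hδ := p.δ_pos; have hδ' := p.δ_le; have hg := p.gpow_pos p.k; have hβ := p.hβ
  have hβ' := p.hβ'; have hh := p.hh; have hh' := p.hh'
  have hd' : (1 : ℝ) ≤ d := by exact_mod_cast hd
  have hK : 0 ≤ 1 - p.h * p.β ^ 2 / 8 := by nlinarith
  have hK2 : 0 ≤ 1 - p.β ^ 2 / 2 := by nlinarith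
  have hs : 0 < √(d : ℝ) := Real.sqrt_pos.mpr (by linarith)
  have hss : √(d : ℝ) * √(d : ℝ) = d := Real.mul_self_sqrt (by linarith)
  set S := 2 * (1 - p.h * p.β ^ 2 / 8) ^ m₁ + 3 * p.g ^ p.k / (p.h * p.β ^ 2) + m₂ * p.g ^ p.k
    with hS
  have hS0 : 0 ≤ S := by positivity
  have hW : (1 - p.h * p.β ^ 2 / 8) ^ m₁ * (2 * √(d : ℝ))
      + 24 * (p.δ * p.g ^ p.k) * √(d : ℝ) / (p.h * p.β ^ 2)
      + 4 * m₂ * (p.δ * p.g ^ p.k) * √(d : ℝ) ≤ S * √(d : ℝ) := by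
    have e : S * √(d : ℝ) = (1 - p.h * p.β ^ 2 / 8) ^ m₁ * (2 * √(d : ℝ))
      + 24 * (1 / 8 * p.g ^ p.k) * √(d : ℝ) / (p.h * p.β ^ 2)
      + 4 * m₂ * (1 / 4 * p.g ^ p.k) * √(d : ℝ) := by rw [hS]; ring
    rw [e]; gcongr <;> linarith
  have hS1 : S ≤ 1 := by
    have : 1 * S ≤ 1200 * (d : ℝ) ^ 2 * S := by gcongr; nlinarith
    linarith
  have h4 := eSim_desc (eSim_mix (p := p) (by nlinarith) m₁) (by positivity) m₂
    (hW.trans (by nlinarith))
  obtain ⟨q₀, h5, h6⟩ := (h4.mono le_rfl hW).final hd (by positivity) (by positivity) h3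
    (le_trans (le_of_eq (by linear_combination (1200 * d * S) * hss)) h2)
  refine ⟨q₀, h5.trans ?_, h6⟩
  have hq : p.qD ≤ 1 := by
    have := p.L1; unfold qD; rw [div_le_one (by positivity)]; nlinarith
  have := p.om_pos
  have h7 : p.qD * p.om ^ p.k ≤ p.om ^ p.k := mul_le_of_le_one_left (by positivity) hq
  rw [← add_mul]; gcongr

end Par

end Vale.Agent.P347
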