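import Vale.Agent.P347.Rec7

open MeasureTheory ProbabilityTheory Filter Set
open scoped ENNReal ContDiff RealInnerProductSpace

namespace Vale.Agent.P347

theorem one_sub_pow_le {r : ℝ} (hr : r ≤ 1) (m : ℕ) : (1 - r) ^ m ≤ Real.exp (-(m * r)) := by
  calc (1 - r) ^ m ≤ Real.exp (-r) ^ m := by
        gcongr
        linarith [Real.add_one_le_exp (-r)]
    _ = _ := by rw [← Real.exp_nat_mul]; congr 1; ring

theorem eventually_exp (m : ℕ) :
    ∀ᶠ t : ℕ in atTop, 7200 * (t : ℝ) ^ m * Real.exp (-((t : ℝ) / 8)) ≤ 1 := by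
  have h1 := (Real.tendsto_pow_mul_exp_neg_atTop_nhds_zero m).comp
    ((tendsto_natCast_atTop_atTop (R := ℝ)).atTop_div_const (r := 8) (by norm_num))
  have h2 := h1.const_mul (7200 * 8 ^ m)
  rw [mul_zero] at h2
  filter_upwards [h2.eventually_le_const one_pos] with t ht
  refine le_trans (le_of_eq ?_) ht
  simp only [Function.comp, div_pow]
  field_simp

theorem exp_le_pow {x y : ℝ} {m : ℕ} (hy0 : 0 < y) (hxy : x * y = 1)
    (c6 : 7200 * x ^ m * Real.exp (-(x / 8)) ≤ 1) : Real.exp (-(x / 8)) * 7200 ≤ y ^ m := by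
  have h1 : x ^ m * y ^ m = 1 := by rw [← mul_pow, hxy, one_pow]
  calc Real.exp (-(x / 8)) * 7200 = 7200 * x ^ m * Real.exp (-(x / 8)) * y ^ m := by
        linear_combination (-7200 * Real.exp (-(x / 8))) * h1
    _ ≤ 1 * y ^ m := by gcongr
    _ = _ := one_mul _

theorem exists_par (A : ℕ) (hA : 8 ≤ A) : ∀ᶠ t : ℕ in atTop, ∀ d : ℕ, ∃ p : Par d,
    p.β = (t : ℝ)⁻¹ ∧ p.g = (t : ℝ)⁻¹ ^ A ∧ p.om = (t : ℝ) ^ 5 ∧ p.h = (t : ℝ)⁻¹ ^ (A * A + 4) ∧
      p.k = 3 * (A * A) := by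
  obtain ⟨k, hk⟩ : ∃ k, k = 3 * (A * A) := ⟨_, rfl⟩
  obtain ⟨n, hn⟩ : ∃ n, n = A * k + 3 := ⟨_, rfl⟩
  have hn2 : 2 ≤ n := by omega
  obtain ⟨Cw, w, w', d1, d2, hCw, hw⟩ := exists_weights n hn2
  obtain ⟨Cf, hCf, hflow⟩ := exists_flowData hn2 hw
  obtain ⟨Cm, hCm, hmom⟩ := exists_rho_moment
  set C1 : ℝ := 100 * Cw * (n + 1) with hC1
  have hn1 : (1 : ℝ) ≤ n + 1 := by linarith [Nat.cast_nonneg (α := ℝ) n]
  have hC1' : 1 ≤ C1 := by nlinarith
  have ev : ∀ C : ℝ, ∀ᶠ t : ℕ in atTop, C ≤ (t : ℝ) := fun C =>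
    tendsto_natCast_atTop_atTop.eventually_ge_atTop C
  filter_upwards [ev (96 * Cw * C1 * 32 ^ k), ev (80 * (n + 1) * C1), ev (20 * Cf), ev (10 * Cm),
    ev 8, eventually_exp (A * k)] with t c1 c2 c3 c4 c5 c6 d
  have ht1 : 1 ≤ t := by exact_mod_cast (show (1 : ℝ) ≤ t by linarith)
  set x : ℝ := (t : ℝ) with hx
  have hx0 : 0 < x := by linarith
  have hx1 : 1 ≤ x := by linarith
  set y : ℝ := x⁻¹ with hy
  have hy0 : 0 < y := inv_pos.mpr hx0
  have hxy : x * y = 1 := mul_inv_cancel₀ hx0.ne'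
  have cy : ∀ {C : ℝ}, C ≤ x → C * y ≤ 1 := fun h => by rw [← hxy]; gcongr
  have hy8 : y ≤ 1 / 8 := by linarith [cy c5]
  have hy1 : y ≤ 1 := by linarith
  have hyp : ∀ {a b : ℕ}, a ≤ b → y ^ b ≤ y ^ a := fun h => pow_le_pow_of_le_one hy0.le hy1 h
  have hxp : ∀ {a b : ℕ}, a ≤ b → x ^ a ≤ x ^ b := fun h => pow_le_pow_right₀ hx1 h
  have hxyp : ∀ a : ℕ, x ^ a * y ^ a = 1 := fun a => by rw [← mul_pow, hxy, one_pow]
  have hL : 1 / (10 * ((t ^ 3 : ℕ) : ℝ)) = y ^ 3 / 10 := by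
    push_cast; rw [← hx, hy]; field_simp
  have h32 : (1 : ℝ) ≤ 32 ^ k := one_le_pow₀ (by norm_num)
  have c1' : 96 * Cw * C1 ≤ x := by
    have : 96 * Cw * C1 * 1 ≤ 96 * Cw * C1 * 32 ^ k := by gcongr
    linarith
  have hAA : 64 ≤ A * A := Nat.mul_le_mul hA hA
  have hCC : 0 ≤ Cw * C1 := by positivity
  have hgk : (y ^ A) ^ k = y ^ (A * k) := (pow_mul _ _ _).symm
  have hE := exp_le_pow hy0 hxy c6
  have hE0 := Real.exp_pos (-(x / 8))
  exact ⟨
    { n := n, Cw := Cw, Cf := Cf, Cm := Cm, w := w, w' := w', d1 := d1, d2 := d2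
      β := y, g := y ^ A, om := x ^ 5, μ := y ^ (A * A + 4), ρ := y ^ (A * A + A + 11)
      h := y ^ (A * A + 4), Lc := t ^ 3, M := t ^ (2 * A + 16), J := A, k := k
      hn := hn2, hw := hw, hCw := hCw, hCf := hCf, hCm := hCm
      flow := fun V hV c τ hτ hτ' => hflow d V hV c τ y hτ hτ' hy0 (by linarith)
      mom := hmom d
      hβ := hy0, hβ' := by linarith, hg := by positivity, hg1 := pow_le_one₀ hy0.le hy1
      hρ := by positivity, hh := by positivity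
      hh' := (hyp (a := 1) (by omega)).trans (by simpa using hy8)
      hhμ := le_rfl, hμ1 := pow_le_one₀ hy0.le hy1
      hL := Nat.one_le_pow _ _ ht1, hJ := by omega, hJk := by nlinarith
      hM := Nat.one_le_pow _ _ ht1
      hθ := by
        have h1 : √(y ^ (A * A + 4)) ≤ y ^ 3 := Real.sqrt_le_iff.mpr
          ⟨by positivity, by rw [← pow_mul]; exact hyp (by omega)⟩
        have h2 := cy c4
        rw [hL]
        calc Cm * y * √(y ^ (A * A + 4)) ≤ Cm * y * y ^ 3 := by gcongr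
          _ = 10 * Cm * y * (y ^ 3 / 10) := by ring
          _ ≤ 1 * (y ^ 3 / 10) := by gcongr
          _ = _ := one_mul _
      hstrong := by
        have h2 := cy (C := 60 * Cw * C1) (by linarith)
        rw [hL, ← pow_mul]
        calc 6 * Cw * C1 * y ^ (A * A + 4) = 60 * Cw * C1 * y * (y ^ 3 / 10 * y ^ (A * A)) := by
              ring
          _ ≤ 1 * (y ^ 3 / 10 * y ^ (A * A)) := by gcongr
          _ = _ := one_mul _
      hfloor := by
        have h2 := cy c3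
        rw [hL, hgk]
        calc 2 * Cf * y ^ (n + 1) = 20 * Cf * y * (y ^ 3 / 10 * y ^ (A * k)) := by
              rw [hn]; ring
          _ ≤ 1 * (y ^ 3 / 10 * y ^ (A * k)) := by gcongr
          _ = _ := one_mul _
      hcost := by
        push_cast
        rw [← pow_mul x 5]
        calc 80 * (n + 1) * x ^ (2 * A + 16) * C1 * (x ^ 3) ^ 2
            = 80 * (n + 1) * C1 * x ^ (2 * A + 22) := by ring
          _ ≤ x * x ^ (2 * A + 22) := by gcongr
          _ = x ^ (2 * A + 23) := by ring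
          _ ≤ _ := hxp (by omega)
      havg := by
        push_cast
        have h1 : 96 * Cw * C1 ≤ x * (1 / 32) ^ k := by
          rw [one_div, inv_pow, ← div_eq_mul_inv, le_div_iff₀ (by positivity)]; exact c1
        calc (96 * Cw * C1 * y ^ (A * A + 4)) ^ 2 ≤ (x * (1 / 32) ^ k * y ^ (A * A + 4)) ^ 2 := by
              gcongr
          _ = (x * (1 / 32) ^ k * y ^ (A * A + 4)) ^ 2 * (x ^ (A + 7) * y ^ (A + 7)) ^ 2 := by
              rw [hxyp]; ring
          _ = _ := by ring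
      hweak := by
        push_cast
        have h2 := cy (C := 20 * Cw * C1) (by linarith)
        calc 20 * (x ^ 3) ^ 2 * y ^ (A * A + A + 11) * Cw * C1
            = 20 * Cw * C1 * y * (x ^ 6 * y ^ 6) * (y ^ (A * A + 4) * y ^ A) := by ring
          _ ≤ 1 * 1 * (y ^ (A * A + 4) * y ^ A) := by rw [hxyp]; gcongr
          _ = _ := by ring
      hom := by
        push_cast
        have h0 : 0 ≤ (n + 1) * C1 := by positivity
        calc 8 * (n + 1) * C1 * x ^ 3 ≤ x * x ^ 3 := by gcongr; linarith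
          _ = x ^ 4 := by ring
          _ ≤ _ := hxp (by omega)
      hbase := by
        rw [hgk]
        have h1 := one_sub_pow_le (r := y ^ 2) (pow_le_one₀ hy0.le hy1) (t ^ 3)
        have h2 : ((t ^ 3 : ℕ) : ℝ) * y ^ 2 = x := by
          push_cast; linear_combination x * hxyp 2
        rw [h2] at h1
        have h3 : √(y ^ (A * A + 4) * (1 - y ^ 2) ^ t ^ 3) ≤ Real.exp (-(x / 8)) := by
          refine Real.sqrt_le_iff.mpr ⟨hE0.le, ?_⟩
          have h4 : 0 ≤ (1 - y ^ 2) ^ t ^ 3 := pow_nonneg (by nlinarith) _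
          calc y ^ (A * A + 4) * (1 - y ^ 2) ^ t ^ 3 ≤ 1 * Real.exp (-x) := by
                gcongr; exact pow_le_one₀ hy0.le hy1
            _ ≤ _ := by
                rw [one_mul, ← Real.exp_nat_mul]; apply Real.exp_le_exp.mpr; push_cast; linarith
        linarith }, rfl, rfl, rfl, rfl, hk⟩

theorem achievable_pow (A : ℕ) (hA : 8 ≤ A) : ∀ᶠ t : ℕ in atTop, ∀ d : ℕ, 1 ≤ d →
    (d : ℝ) ≤ (t : ℝ) ^ (A * (A * A)) →
      ∃ q : ℕ, (q : ℝ) ≤ (t : ℝ) ^ (17 * (A * A)) ∧ Achievable d q := by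
  filter_upwards [exists_par A hA, tendsto_natCast_atTop_atTop.eventually_ge_atTop (10800 : ℝ),
    eventually_exp (A * (3 * (A * A)))] with t hp c5 c6 d hd hdt
  obtain ⟨p, hβ, hg, hom, hh, hk⟩ := hp d
  obtain ⟨a, ha⟩ : ∃ a, a = A * A := ⟨_, rfl⟩
  rw [← ha] at hdt c6 hh hk ⊢
  have hA3 : 8 * a ≤ A * a := Nat.mul_le_mul_right _ hA
  have hAA : 64 ≤ a := ha ▸ Nat.mul_le_mul hA hA
  have hAk : A * (3 * a) = 3 * (A * a) := by ring
  obtain ⟨b, hb⟩ : ∃ b, b = A * a := ⟨_, rfl⟩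
  rw [hAk] at c6
  rw [← hb] at hdt c6 hA3
  have hgk : p.g ^ p.k = (t : ℝ)⁻¹ ^ (3 * b) := by rw [hg, hk, ← pow_mul, hAk, hb]
  set x : ℝ := (t : ℝ) with hx
  have hx0 : 0 < x := by linarith
  have hx1 : 1 ≤ x := by linarith
  set y : ℝ := x⁻¹ with hy
  have hy0 : 0 < y := inv_pos.mpr hx0
  have hxy : x * y = 1 := mul_inv_cancel₀ hx0.ne'
  have hy' : 10800 * y ≤ 1 := by rw [← hxy]; gcongr
  have hy1 : y ≤ 1 := by linarith
  have hyp : ∀ {a b : ℕ}, a ≤ b → y ^ b ≤ y ^ a := fun h => pow_le_pow_of_le_one hy0.le hy1 h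
  have hxp : ∀ {a b : ℕ}, a ≤ b → x ^ a ≤ x ^ b := fun h => pow_le_pow_right₀ hx1 h
  have hxyp : ∀ a : ℕ, x ^ a * y ^ a = 1 := fun a => by rw [← mul_pow, hxy, one_pow]
  have hE := exp_le_pow hy0 hxy c6
  have hE0 := Real.exp_pos (-(x / 8))
  have hd0 : (0 : ℝ) < d := by exact_mod_cast hd
  have hd2 : (d : ℝ) ^ 2 ≤ x ^ (2 * b) := by
    rw [mul_comm, pow_mul]; gcongr
  have hdy : ∀ m : ℕ, 2 * b + 1 ≤ m → (d : ℝ) ^ 2 * y ^ m ≤ y := fun m hm => by
    calc (d : ℝ) ^ 2 * y ^ m ≤ x ^ (2 * b) * y ^ (2 * b + 1) :=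
          mul_le_mul hd2 (hyp hm) (by positivity) (by positivity)
      _ = y := by rw [pow_succ, ← mul_assoc, hxyp, one_mul]
  have h7 : (d : ℝ) ^ 2 * Real.exp (-(x / 8)) * 7200 ≤ y := by
    rw [mul_assoc]
    exact (mul_le_mul_of_nonneg_left hE (by positivity)).trans (hdy _ (by omega))
  obtain ⟨q, hq, hq'⟩ := p.achievable hd (t ^ (a + 7)) (t ^ 3)
    (by rw [hgk, hh, hβ, ← pow_add]; exact hyp (by omega))
    (by rw [hgk, hh, hβ]
        have h1 := one_sub_pow_le (r := y ^ (a + 4) * y ^ 2 / 8) (by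
          rw [← pow_add]; linarith [pow_le_one₀ (n := a + 4 + 2) hy0.le hy1]) (t ^ (a + 7))
        have h2 : ((t ^ (a + 7) : ℕ) : ℝ) * (y ^ (a + 4) * y ^ 2 / 8) = x / 8 := by
          push_cast; linear_combination (x / 8) * hxyp (a + 6)
        rw [h2] at h1
        obtain ⟨m, hm⟩ : ∃ m, 3 * b = m + (a + 6) := ⟨3 * b - (a + 6), by omega⟩
        have h3 : 3 * y ^ (3 * b) / (y ^ (a + 4) * y ^ 2) = 3 * y ^ m := by
          rw [hm]; field_simp; ring
        have h4 : ((t ^ 3 : ℕ) : ℝ) * y ^ (3 * b) ≤ y ^ m := by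
          push_cast
          calc x ^ 3 * y ^ (3 * b) ≤ x ^ 3 * y ^ (m + 3) :=
                mul_le_mul_of_nonneg_left (hyp (by omega)) (by positivity)
            _ = y ^ m := by linear_combination y ^ m * hxyp 3
        have h5 := hdy m (by omega)
        rw [h3]
        calc _ ≤ 1200 * (d : ℝ) ^ 2 * (2 * Real.exp (-(x / 8)) + 3 * y ^ m + y ^ m) := by gcongr
          _ ≤ 1 := by linarith)
    (by rw [hh, hβ]
        have h1 := one_sub_pow_le (r := y ^ 2 / 2) (by nlinarith) (t ^ 3)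
        have h2 : ((t ^ 3 : ℕ) : ℝ) * (y ^ 2 / 2) = x / 2 := by
          push_cast; linear_combination (x / 2) * hxyp 2
        rw [h2] at h1
        have h3 : Real.exp (-(x / 2)) ≤ Real.exp (-(x / 8)) := Real.exp_le_exp.mpr (by linarith)
        have h4 : 0 ≤ (1 - y ^ 2 / 2) ^ t ^ 3 := pow_nonneg (by nlinarith) _
        calc y ^ (a + 4) * (1 - y ^ 2 / 2) ^ (t ^ 3) ≤ 1 * Real.exp (-(x / 8)) :=
              mul_le_mul (pow_le_one₀ hy0.le hy1) (h1.trans h3) h4 zero_le_one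
          _ ≤ _ := by
              rw [div_pow, le_div_iff₀ (by positivity)]
              have : 0 ≤ (d : ℝ) ^ 2 * Real.exp (-(x / 8)) := by positivity
              linarith)
  refine ⟨q, hq.trans ?_, hq'⟩
  rw [hom, hk]
  push_cast
  have h1 : x ^ 3 ≤ x ^ (a + 7) := hxp (by omega)
  calc (x ^ (a + 7) + x ^ 3) * (x ^ 5) ^ (3 * a) ≤ (x * x ^ (a + 7)) * (x ^ 5) ^ (3 * a) := by
        gcongr; nlinarith [pow_pos hx0 (a + 7)]
    _ = x ^ (16 * a + 8) := by ring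
    _ ≤ _ := hxp (by omega)

theorem achievable_rpow {ε : ℝ} (hε : 0 < ε) :
    ∀ᶠ d : ℕ in atTop, ∃ q : ℕ, (q : ℝ) ≤ (d : ℝ) ^ ε ∧ Achievable d q := by
  obtain ⟨A, hA⟩ := exists_nat_ge (max 8 (18 / ε))
  have hA8 : (8 : ℝ) ≤ A := (le_max_left _ _).trans hA
  have hA8' : 8 ≤ A := by exact_mod_cast hA8
  have hAε : 18 / (A : ℝ) ≤ ε := by
    have := (le_max_right _ _).trans hA
    rw [div_le_iff₀ hε] at this
    rw [div_le_iff₀ (by linarith)]; linarith
  have hA0 : (0 : ℝ) < A := by linarith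
  set r : ℝ := ((A * (A * A) : ℕ) : ℝ)⁻¹ with hr
  have hr0 : 0 < r := by rw [hr]; push_cast; positivity
  have ht : Tendsto (fun d : ℕ => (d : ℝ) ^ r) atTop atTop :=
    (tendsto_rpow_atTop hr0).comp tendsto_natCast_atTop_atTop
  have ht2 : Tendsto (fun d : ℕ => (d : ℝ) ^ (A : ℝ)⁻¹) atTop atTop :=
    (tendsto_rpow_atTop (by positivity)).comp tendsto_natCast_atTop_atTop
  filter_upwards [(tendsto_nat_ceil_atTop.comp ht).eventually (achievable_pow A hA8'),
    eventually_ge_atTop 1, ht2.eventually_ge_atTop (2 ^ (17 * (A * A)))] with d h hd h2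
  have hd1 : (1 : ℝ) ≤ d := by exact_mod_cast hd
  have h1 : 1 ≤ (d : ℝ) ^ r := Real.one_le_rpow hd1 hr0.le
  obtain ⟨q, hq, hq'⟩ := h d hd (by
    calc (d : ℝ) = ((d : ℝ) ^ r) ^ (A * (A * A)) :=
          (Real.rpow_inv_natCast_pow (by linarith) (by positivity)).symm
      _ ≤ _ := by gcongr; exact Nat.le_ceil _)
  refine ⟨q, hq.trans ?_, hq'⟩
  have h3 : ((⌈(d : ℝ) ^ r⌉₊ : ℕ) : ℝ) ≤ 2 * (d : ℝ) ^ r := by
    linarith [Nat.ceil_lt_add_one (zero_le_one.trans h1)]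
  calc ((⌈(d : ℝ) ^ r⌉₊ : ℕ) : ℝ) ^ (17 * (A * A)) ≤ (2 * (d : ℝ) ^ r) ^ (17 * (A * A)) := by
        gcongr
    _ = 2 ^ (17 * (A * A)) * (d : ℝ) ^ (17 / (A : ℝ)) := by
        rw [mul_pow, ← Real.rpow_natCast ((d : ℝ) ^ r), ← Real.rpow_mul (by linarith)]
        congr 2
        rw [hr]; push_cast; field_simp
    _ ≤ (d : ℝ) ^ (A : ℝ)⁻¹ * (d : ℝ) ^ (17 / (A : ℝ)) := by gcongr
    _ = (d : ℝ) ^ (18 / (A : ℝ)) := by
        rw [← Real.rpow_add (by linarith)]; congr 1; field_simp; norm_num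
    _ ≤ _ := Real.rpow_le_rpow_of_exponent_le hd1 hAε

theorem tendsto_exponent :
    Tendsto (fun d : ℕ => Real.log (queryComplexity d) / Real.log d) atTop (nhds 0) := by
  rw [tendsto_order]
  refine ⟨fun a ha => Eventually.of_forall fun d => ha.trans_le
    (div_nonneg (Real.log_natCast_nonneg _) (Real.log_natCast_nonneg _)), fun ε hε => ?_⟩
  filter_upwards [achievable_rpow (half_pos hε), eventually_ge_atTop 2] with d ⟨q, hq, hq'⟩ hd
  have hd1 : (1 : ℝ) < d := by exact_mod_cast hd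
  have hl : 0 < Real.log d := Real.log_pos hd1
  have h1 : queryComplexity d ≤ q := Nat.sInf_le hq'
  have h2 : Real.log (queryComplexity d) ≤ ε / 2 * Real.log d := by
    rcases Nat.eq_zero_or_pos (queryComplexity d) with h | h
    · rw [h]; simp; positivity
    · rw [← Real.log_rpow (by linarith)]
      exact Real.log_le_log (by exact_mod_cast h) (le_trans (by exact_mod_cast h1) hq)
  rw [div_lt_iff₀ hl]
  nlinarith

end Vale.Agent.P347
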