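import Vale.Agent.P347.Heat

/-! Auxiliary facts for the calculus of simulators: query programs and product measures. -/

open MeasureTheory ProbabilityTheory Filter Set
open scoped ENNReal

namespace Vale.Agent.P347

variable {d : ℕ}

/-! ### Query programs -/

/-- the oracle answer -/
noncomputable def ans (V : E d → ℝ) (x : E d) : ℝ × E d := (V x, gradient V x)

theorem Pot.norm_gradient_sub_le_sc (V : Pot d) (x y : E d) :
    ‖gradient V.1 x - gradient V.1 y‖ ≤ 2 * ‖x - y‖ :=
  V.2.conv.norm_gradient_sub_le (by norm_num) x y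

theorem Pot.continuous_gradient_sc (V : Pot d) : Continuous (gradient V.1) :=
  (LipschitzWith.of_dist_le' (K := 2) fun x y => by
    rw [dist_eq_norm, dist_eq_norm]; exact V.norm_gradient_sub_le_sc x y).continuous

theorem Pot.measurable_ans (V : Pot d) : Measurable (ans V.1) :=
  V.2.1.continuous.measurable.prodMk V.continuous_gradient_sc.measurable

section Comp

variable {α β : Type} [MeasurableSpace α] [MeasurableSpace β]

theorem Comp.measurable : ∀ {q : ℕ} {S : Type} [MeasurableSpace S] {f : Pot d → S → α},
    Comp q S f → ∀ V, Measurable (f V)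
  | 0, _, _, f, ⟨o, ho, h⟩, V => by
    rw [show f V = o from funext (h V)]; exact ho
  | _ + 1, _, _, f, ⟨x, hx, g, hg, h⟩, V => by
    rw [show f V = fun s => g V (s, ans V.1 (x s)) from funext (h V)]
    exact (Comp.measurable hg V).comp (measurable_id.prodMk (V.measurable_ans.comp hx))

theorem Comp.pre : ∀ {q : ℕ} {S S' : Type} [MeasurableSpace S] [MeasurableSpace S']
    {f : Pot d → S → α} {φ : S' → S}, Comp q S f → Measurable φ →
      Comp q S' fun V s => f V (φ s)
  | 0, _, _, _, _, _, φ, ⟨o, ho, h⟩, hφ => ⟨fun s => o (φ s), ho.comp hφ, fun V s => h V (φ s)⟩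
  | _ + 1, _, _, _, _, _, φ, ⟨x, hx, g, hg, h⟩, hφ =>
    ⟨fun s => x (φ s), hx.comp hφ, fun V p => g V (φ p.1, p.2),
      Comp.pre hg ((hφ.comp measurable_fst).prodMk measurable_snd), fun V s => h V (φ s)⟩

theorem Comp.bind {q₂ : ℕ} : ∀ {q₁ : ℕ} {S : Type} [MeasurableSpace S] {f₁ : Pot d → S → α}
    {f₂ : Pot d → S × α → β}, Comp q₁ S f₁ → Comp q₂ (S × α) f₂ →
      Comp (q₂ + q₁) S fun V s => f₂ V (s, f₁ V s)
  | 0, _, _, f₁, f₂, ⟨o, ho, h⟩, h₂ => by
    have : (fun V s => f₂ V (s, f₁ V s)) = fun V s => f₂ V (s, o s) := by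
      funext V s; rw [h]
    rw [this]
    exact h₂.pre (measurable_id.prodMk ho)
  | _ + 1, _, _, _, f₂, ⟨x, hx, g, hg, h⟩, h₂ =>
    ⟨x, hx, fun V p => f₂ V (p.1, g V p),
      Comp.bind (f₂ := fun V p => f₂ V (p.1.1, p.2)) hg
        (h₂.pre ((measurable_fst.comp measurable_fst).prodMk measurable_snd)),
      fun V s => congrArg (fun a => f₂ V (s, a)) (h V s)⟩

theorem comp_zero {S : Type} [MeasurableSpace S] {o : S → α} (ho : Measurable o) :
    Comp (d := d) 0 S fun _ s => o s := ⟨o, ho, fun _ _ => rfl⟩

theorem Comp.post {q : ℕ} {S : Type} [MeasurableSpace S] {f : Pot d → S → α} (h : Comp q S f)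
    {ψ : S × α → β} (hψ : Measurable ψ) : Comp q S fun V s => ψ (s, f V s) := by
  have := h.bind (comp_zero hψ)
  rwa [Nat.zero_add] at this

theorem Comp.grad {q : ℕ} {S : Type} [MeasurableSpace S] {f : Pot d → S → E d}
    (h : Comp q S f) : Comp (q + 1) S fun V s => gradient V.1 (f V s) := by
  have h1 : Comp 1 (S × E d) fun (V : Pot d) p => gradient V.1 p.2 :=
    ⟨Prod.snd, measurable_snd, fun _ p => p.2.2, comp_zero (measurable_snd.comp measurable_snd),
      fun _ _ => rfl⟩
  have := h.bind h1
  rwa [Nat.add_comm] at this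

theorem Comp.pi {ι S : Type} [Fintype ι] [MeasurableSpace S] {q : ι → ℕ}
    {f : ι → Pot d → S → E d} (h : ∀ i, Comp (q i) S (f i)) :
    Comp (∑ i, q i) S fun V s i => f i V s := by
  classical
  have key : ∀ T : Finset ι,
      Comp (∑ i ∈ T, q i) S fun V s i => if i ∈ T then f i V s else 0 := by
    intro T
    induction T using Finset.induction_on with
    | empty =>
      simp only [Finset.sum_empty, Finset.notMem_empty, if_false]
      exact comp_zero (o := fun _ _ => (0 : E d)) measurable_const
    | insert a T ha ih =>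
      have h2 : Comp (q a) (S × (ι → E d)) fun V p => Function.update p.2 a (f a V p.1) :=
        ((h a).pre measurable_fst).post
          (ψ := fun p : (S × (ι → E d)) × E d => Function.update p.1.2 a p.2)
          ((measurable_update' (X := fun _ : ι => E d) (a := a)).comp
            ((measurable_snd.comp measurable_fst).prodMk measurable_snd))
      have h3 := ih.bind h2
      rw [Finset.sum_insert ha]
      have : (fun V s i => if i ∈ insert a T then f i V s else 0) = fun V s =>
          Function.update (fun i => if i ∈ T then f i V s else 0) a (f a V s) := by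
        funext V s i
        by_cases hi : i = a
        · subst hi; simp
        · simp [hi]
      rw [this]
      exact h3
  simpa using key Finset.univ

/-- the record of answers -/
noncomputable def hist {S : Type} (query : ℕ → S × (ℕ → ℝ × E d) → E d) (V : E d → ℝ) (s : S) :
    ℕ → (ℕ → ℝ × E d)
  | 0 => fun _ => 0
  | i + 1 => Function.update (hist query V s i) i (ans V (query i (s, hist query V s i)))

theorem history_eq (A : Algorithm d) (V : E d → ℝ) (s : A.Seed) (i : ℕ) :
    history A V s i = hist A.query V s i := by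
  induction i with
  | zero => rfl
  | succ i ih => rw [history, hist, ih]; rfl

theorem Comp.exists_query : ∀ {q : ℕ} {S : Type} [MeasurableSpace S] {f : Pot d → S → α},
    Comp q S f → ∃ (query : ℕ → S × (ℕ → ℝ × E d) → E d) (out : S × (ℕ → ℝ × E d) → α),
      (∀ i, Measurable (query i)) ∧ Measurable out ∧
        ∀ V s, f V s = out (s, hist query V.1 s q)
  | 0, _, _, _, ⟨o, ho, h⟩ =>
    ⟨fun _ _ => 0, fun p => o p.1, fun _ => measurable_const, ho.comp measurable_fst, h⟩
  | q + 1, S, _, f, ⟨x, hx, g, hg, h⟩ => by
    obtain ⟨query, out, hq, ho, hf⟩ := Comp.exists_query hg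
    let sh : S × (ℕ → ℝ × E d) → (S × (ℝ × E d)) × (ℕ → ℝ × E d) :=
      fun p => ((p.1, p.2 0), fun j => p.2 (j + 1))
    have hsh : Measurable sh := by
      refine (measurable_fst.prodMk ((measurable_pi_apply 0).comp measurable_snd)).prodMk ?_
      exact measurable_pi_lambda _ fun j => (measurable_pi_apply (j + 1)).comp measurable_snd
    let query' : ℕ → S × (ℕ → ℝ × E d) → E d := fun i =>
      match i with
      | 0 => fun p => x p.1
      | i + 1 => fun p => query i (sh p)
    have key : ∀ (V : E d → ℝ) (s : S) (i : ℕ), sh (s, hist query' V s (i + 1)) =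
        ((s, ans V (x s)), hist query V (s, ans V (x s)) i) := by
      intro V s i
      induction i with
      | zero =>
        refine Prod.ext (Prod.ext rfl ?_) (funext fun j => ?_)
        · simp [sh, hist, query']
        · simp [sh, hist]
      | succ i ih =>
        have h1 : hist query' V s (i + 1) 0 = ans V (x s) := congrArg (fun p => p.1.2) ih
        have h2 : ∀ j, hist query' V s (i + 1) (j + 1) = hist query V (s, ans V (x s)) i j :=
          fun j => congrArg (fun p => p.2 j) ih
        have h3 : query' (i + 1) (s, hist query' V s (i + 1)) =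
            query i ((s, ans V (x s)), hist query V (s, ans V (x s)) i) := congrArg (query i) ih
        refine Prod.ext (Prod.ext rfl ?_) (funext fun j => ?_)
        · change hist query' V s (i + 1 + 1) 0 = ans V (x s)
          rw [hist, Function.update_of_ne (by omega), h1]
        · change hist query' V s (i + 1 + 1) (j + 1) = hist query V (s, ans V (x s)) (i + 1) j
          rw [hist, h3]
          conv_rhs => rw [hist]
          by_cases hj : j = i
          · subst hj
            rw [Function.update_self, Function.update_self]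
          · rw [Function.update_of_ne (by omega), Function.update_of_ne hj, h2]
    refine ⟨query', fun p => out (sh p), fun i => ?_, ho.comp hsh, fun V s => ?_⟩
    · cases i with
      | zero => exact hx.comp measurable_fst
      | succ i => exact (hq i).comp hsh
    · change f V s = out (sh (s, hist query' V.1 s (q + 1)))
      rw [key, h, hf]
      rfl

end Comp

/-! ### Product measures -/

theorem map_pi_sigma {κ : Type} [Fintype κ] {ι : κ → Type} [∀ k, Fintype (ι k)]
    (m : (Σ k, ι k) → Measure (E d)) [∀ i, IsProbabilityMeasure (m i)]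
    {F : ∀ k, (ι k → E d) → E d} (hF : ∀ k, Measurable (F k)) :
    (Measure.pi m).map (fun b k => F k fun i => b ⟨k, i⟩) =
      Measure.pi fun k => (Measure.pi fun i => m ⟨k, i⟩).map (F k) := by
  have h1 := Measure.infinitePi_map_piCurry (X := fun k (_ : ι k) => E d) fun k i => m ⟨k, i⟩
  simp only [Measure.infinitePi_eq_pi] at h1
  have : ∀ k, IsProbabilityMeasure ((Measure.pi fun i => m ⟨k, i⟩).map (F k)) := fun k =>
    Measure.isProbabilityMeasure_map (hF k).aemeasurable
  have hG : Measurable fun (x : ∀ k, ι k → E d) k => F k (x k) :=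
    measurable_pi_lambda _ fun k => (hF k).comp (measurable_pi_apply k)
  rw [← Measure.pi_map_pi fun k => (hF k).aemeasurable, ← h1, Measure.map_map hG
    (MeasurableEquiv.measurable _)]
  rfl

theorem measurePreserving_option_sc {ι : Type} [Fintype ι] (m : Option ι → Measure (E d))
    [∀ i, IsProbabilityMeasure (m i)] :
    MeasurePreserving (fun b : Option ι → E d => (fun i => b (some i), b none)) (Measure.pi m)
      ((Measure.pi fun i => m (some i)).prod (m none)) := by
  have h : MeasurePreserving (MeasurableEquiv.piOptionEquivProd fun _ : Option ι => E d).symm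
      ((Measure.pi fun i => m (some i)).prod (m none)) (Measure.pi m) :=
    ⟨MeasurableEquiv.measurable _, Measure.pi_map_piOptionEquivProd m⟩
  exact h.symm

theorem measurePreserving_update_sc {ι : Type} [Fintype ι] [DecidableEq ι] (m : ι → Measure (E d))
    [∀ i, IsProbabilityMeasure (m i)] (a : ι) (ν : Measure (E d)) [IsProbabilityMeasure ν] :
    MeasurePreserving (fun p : (ι → E d) × E d => Function.update p.1 a p.2)
      ((Measure.pi m).prod ν) (Measure.pi (Function.update m a ν)) := by
  have hp : ∀ i, IsProbabilityMeasure (Function.update m a ν i) := fun i => by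
    by_cases hi : i = a
    · subst hi; rw [Function.update_self]; infer_instance
    · rw [Function.update_of_ne hi]; infer_instance
  refine ⟨measurable_update', (Measure.pi_eq fun s hs => ?_).symm⟩
  rw [Measure.map_apply measurable_update' (MeasurableSet.univ_pi hs)]
  have : (fun p : (ι → E d) × E d => Function.update p.1 a p.2) ⁻¹' Set.pi univ s =
      Set.pi univ (Function.update s a univ) ×ˢ s a := by
    ext p
    simp only [mem_preimage, Set.mem_pi, mem_univ, forall_true_left, mem_prod]
    constructor
    · intro h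
      refine ⟨fun i => ?_, by simpa using h a⟩
      by_cases hi : i = a
      · subst hi; simp
      · simpa [hi] using h i
    · rintro ⟨h1, h2⟩ i
      by_cases hi : i = a
      · subst hi; simpa using h2
      · simpa [hi] using h1 i
  rw [this, Measure.prod_prod, Measure.pi_pi, ← Finset.mul_prod_erase _ _ (Finset.mem_univ a),
    ← Finset.mul_prod_erase _ _ (Finset.mem_univ a), Function.update_self, Function.update_self,
    measure_univ, one_mul, mul_comm]
  refine congrArg _ (Finset.prod_congr rfl fun i hi => ?_)
  rw [Function.update_of_ne (Finset.ne_of_mem_erase hi),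
    Function.update_of_ne (Finset.ne_of_mem_erase hi)]

theorem integrable_of_bdd_sc {X : Type*} [MeasurableSpace X] {φ : X → ℝ} {M : ℝ} (hφ : Measurable φ)
    (hM : ∀ x, |φ x| ≤ M) (m : Measure X) [IsFiniteMeasure m] : Integrable φ m :=
  Integrable.of_bound hφ.aestronglyMeasurable M (Eventually.of_forall hM)

theorem abs_integral_le_of_bdd_sc {X : Type*} [MeasurableSpace X] {φ : X → ℝ} {M : ℝ}
    (hM : ∀ x, |φ x| ≤ M) (m : Measure X) [IsProbabilityMeasure m] : |∫ x, φ x ∂m| ≤ M := by
  have := norm_integral_le_of_norm_le_const (μ := m) (f := φ) (C := M) (Eventually.of_forall hM)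
  simpa using this

theorem ofReal_abs_integral_sub_le_sc {X : Type*} [MeasurableSpace X] {m : Measure X}
    {φ ψ : X → ℝ} (hφ : Integrable φ m) (hψ : Integrable ψ m) :
    ENNReal.ofReal |∫ x, φ x ∂m - ∫ x, ψ x ∂m| ≤ ∫⁻ x, ENNReal.ofReal |φ x - ψ x| ∂m := by
  rw [← integral_sub hφ hψ, ← Real.enorm_eq_ofReal_abs]
  refine (enorm_integral_le_lintegral_enorm _).trans (le_of_eq ?_)
  simp only [Real.enorm_eq_ofReal_abs]

theorem hybrid_one {ι : Type} [Fintype ι] [DecidableEq ι] (m : ι → Measure (E d))
    [∀ i, IsProbabilityMeasure (m i)] (a : ι) (ν : Measure (E d)) [IsProbabilityMeasure ν]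
    {φ : (ι → E d) → ℝ} {M K : ℝ} (hφ : Measurable φ) (hM : ∀ b, |φ b| ≤ M) (hK : 0 ≤ K)
    (hL : ∀ b y y', |φ (Function.update b a y) - φ (Function.update b a y')| ≤ K * ‖y - y'‖) :
    ENNReal.ofReal |∫ b, φ b ∂Measure.pi m - ∫ b, φ b ∂Measure.pi (Function.update m a ν)| ≤
      ENNReal.ofReal K * Wd (m a) ν := by
  have key : ∀ (ρ : Measure (E d)) [IsProbabilityMeasure ρ],
      Integrable (fun b => ∫ y, φ (Function.update b a y) ∂ρ) (Measure.pi m) ∧
      ∫ b, φ b ∂Measure.pi (Function.update m a ρ) =
        ∫ b, (∫ y, φ (Function.update b a y) ∂ρ) ∂Measure.pi m := by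
    intro ρ _
    have hi : Integrable (fun p : (ι → E d) × E d => φ (Function.update p.1 a p.2))
        ((Measure.pi m).prod ρ) :=
      integrable_of_bdd_sc (hφ.comp measurable_update') (fun _ => hM _) _
    refine ⟨hi.integral_prod_left, ?_⟩
    rw [← (measurePreserving_update_sc m a ρ).map_eq,
      integral_map measurable_update'.aemeasurable hφ.aestronglyMeasurable, integral_prod _ hi]
  have h1 := key (m a)
  rw [Function.update_eq_self] at h1
  rw [h1.2, (key ν).2]
  refine (ofReal_abs_integral_sub_le_sc h1.1 (key ν).1).trans ?_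
  refine (lintegral_mono fun b => le_mul_Wd hK (hL b) (fun _ => hM _) (m a) ν).trans ?_
  simp

theorem hybrid {ι : Type} [Fintype ι] (seed : ι → Prop) (m m' : ι → Measure (E d))
    [∀ i, IsProbabilityMeasure (m i)] [∀ i, IsProbabilityMeasure (m' i)]
    (hs : ∀ i, seed i → m i = m' i) {φ : (ι → E d) → ℝ} {M : ℝ} {l : ι → ℝ} (hφ : Measurable φ)
    (hM : ∀ b, |φ b| ≤ M) (hl : ∀ i, 0 ≤ l i)
    (hL : ∀ b b', (∀ i, seed i → b i = b' i) → |φ b - φ b'| ≤ ∑ i, l i * ‖b i - b' i‖) :
    ENNReal.ofReal |∫ b, φ b ∂Measure.pi m - ∫ b, φ b ∂Measure.pi m'| ≤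
      ∑ i, ENNReal.ofReal (l i) * Wd (m i) (m' i) := by
  classical
  have key : ∀ T : Finset ι,
      ENNReal.ofReal |∫ b, φ b ∂Measure.pi m - ∫ b, φ b ∂Measure.pi (T.piecewise m' m)| ≤
        ∑ i ∈ T, ENNReal.ofReal (l i) * Wd (m i) (m' i) := by
    intro T
    induction T using Finset.induction_on with
    | empty => simp
    | insert a T ha ih =>
      have hp : ∀ i, IsProbabilityMeasure (T.piecewise m' m i) := fun i => by
        by_cases hi : i ∈ T
        · rw [Finset.piecewise_eq_of_mem _ _ _ hi]; infer_instance
        · rw [Finset.piecewise_eq_of_notMem _ _ _ hi]; infer_instance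
      have ha' : T.piecewise m' m a = m a := Finset.piecewise_eq_of_notMem _ _ _ ha
      rw [Finset.sum_insert ha, Finset.piecewise_insert]
      by_cases hsa : seed a
      · rw [← hs a hsa, ← ha', Function.update_eq_self]
        exact ih.trans le_add_self
      · have h1 := hybrid_one (T.piecewise m' m) a (m' a) hφ hM (hl a) fun b y y' => by
          refine (hL _ _ fun i hi => ?_).trans (le_of_eq ?_)
          · have : i ≠ a := fun h => hsa (h ▸ hi)
            rw [Function.update_of_ne this, Function.update_of_ne this]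
          · rw [Finset.sum_eq_single a, Function.update_self, Function.update_self]
            · intro i _ hi
              rw [Function.update_of_ne hi, Function.update_of_ne hi, sub_self, norm_zero,
                mul_zero]
            · simp
        rw [ha'] at h1
        refine le_trans ?_ (add_le_add h1 ih)
        rw [← ENNReal.ofReal_add (abs_nonneg _) (abs_nonneg _)]
        refine ENNReal.ofReal_le_ofReal ?_
        rw [add_comm]
        exact abs_sub_le _ _ _
  simpa using key Finset.univ

theorem BL.measurable_sc {f : E d → ℝ} (hf : BL f) : Measurable f := hf.1.continuous.measurable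

theorem BL.abs_sub_le_sc {f : E d → ℝ} (hf : BL f) (x y : E d) : |f x - f y| ≤ ‖x - y‖ := by
  have := hf.1.dist_le_mul x y
  rwa [Real.dist_eq, dist_eq_norm, NNReal.coe_one, one_mul] at this

theorem BL.add_const_sc {f : E d → ℝ} (hf : BL f) (z : E d) : BL fun y => f (y + z) := by
  obtain ⟨M, hM⟩ := hf.2
  refine ⟨LipschitzWith.of_dist_le_mul fun x y => ?_, M, fun _ => hM _⟩
  simpa using hf.1.dist_le_mul (x + z) (y + z)

theorem Wd_map_pi_le {ι : Type} [Fintype ι] (seed : ι → Prop) (m m' : ι → Measure (E d))
    [∀ i, IsProbabilityMeasure (m i)] [∀ i, IsProbabilityMeasure (m' i)]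
    (hs : ∀ i, seed i → m i = m' i) {F : (ι → E d) → E d} {l : ι → ℝ} (hF : Measurable F)
    (hl : ∀ i, 0 ≤ l i)
    (hL : ∀ b b', (∀ i, seed i → b i = b' i) → ‖F b - F b'‖ ≤ ∑ i, l i * ‖b i - b' i‖) :
    Wd ((Measure.pi m).map F) ((Measure.pi m').map F) ≤
      ∑ i, ENNReal.ofReal (l i) * Wd (m i) (m' i) := by
  refine iSup₂_le fun f hf => ?_
  obtain ⟨M, hM⟩ := hf.2
  rw [integral_map hF.aemeasurable hf.measurable_sc.aestronglyMeasurable,
    integral_map hF.aemeasurable hf.measurable_sc.aestronglyMeasurable]
  exact hybrid seed m m' hs (hf.measurable_sc.comp hF) (fun _ => hM _) hl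
    fun b b' h => (hf.abs_sub_le_sc _ _).trans (hL b b' h)

end Vale.Agent.P347
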