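import Vale.Agent.P347.Heat
import Vale.Agent.P347.SimCalc1

open MeasureTheory ProbabilityTheory Filter Set
open scoped ENNReal ContDiff RealInnerProductSpace

namespace Vale.Agent.P347

variable {d : ℕ}

variable {g om : ℝ} {P : Type}

/-- all inputs are probability measures -/
def AllProb (μ : P → ℕ → Measure (E d)) : Prop := ∀ p j, IsProbabilityMeasure (μ p j)

/-- one more port, fed by the point A -/
noncomputable def ext1 (A : E d) (μ : P → ℕ → Measure (E d)) : Option P → ℕ → Measure (E d) :=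
  fun o j => o.elim (Measure.dirac A) fun p => μ p j

/-- two more ports, fed by the points A (true) and z (false) -/
noncomputable def ext2 (A z : E d) (μ : P → ℕ → Measure (E d)) :
    P ⊕ Bool → ℕ → Measure (E d) :=
  fun o j => o.elim (fun p => μ p j) fun b => Measure.dirac (if b then A else z)

theorem feed_prob {ι : Type} (pt : ι → Option P) (gr : ι → ℕ) {μ : P → ℕ → Measure (E d)}
    (hμ : AllProb μ) (i : ι) : IsProbabilityMeasure (feed pt gr μ i) := by
  unfold feed
  cases pt i with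
  | none => exact inferInstanceAs (IsProbabilityMeasure (gam d))
  | some p => exact hμ p _

theorem feed_of_none {ι : Type} {pt : ι → Option P} (gr : ι → ℕ) (μ : P → ℕ → Measure (E d))
    {i : ι} (h : pt i = none) : feed pt gr μ i = gam d := by
  unfold feed
  rw [h]
  rfl

theorem elim_nonneg_sc (o : Option P) {a : ℝ} (ha : 0 ≤ a) : 0 ≤ o.elim 0 fun _ => a := by
  cases o with
  | none => exact le_rfl
  | some p => exact ha

theorem elim_mul_sc (o : Option P) (a b : ℝ) :
    (o.elim 0 fun _ => a * b) = (o.elim 0 fun _ => a) * b := by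
  cases o with
  | none => exact (zero_mul b).symm
  | some p => rfl

theorem mul_elim_sc (o : Option P) (a b : ℝ) :
    (o.elim 0 fun _ => a * b) = a * o.elim 0 fun _ => b := by
  cases o with
  | none => exact (mul_zero a).symm
  | some p => rfl

theorem Sim.nonneg {q Λ N : ℝ} {L : Pot d → (P → ℕ → Measure (E d)) → Measure (E d)}
    (hg : 0 < g) (hom : 0 < om) (h : Sim g om P q Λ N L) : 0 ≤ q ∧ 0 ≤ Λ ∧ 0 ≤ N := by
  obtain ⟨ι, _, pt, gr, l, q₀, f, hq, -, hl, -, hΛ, hN, -⟩ := h
  refine ⟨(Nat.cast_nonneg _).trans hq, le_trans (Finset.sum_nonneg fun i _ => ?_) hΛ,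
    le_trans (Finset.sum_nonneg fun i _ => ?_) hN⟩
  · exact elim_nonneg_sc _ (mul_nonneg (hl i) (by positivity))
  · exact elim_nonneg_sc _ (by positivity)

theorem Sim.mono {q Λ N q' Λ' N' : ℝ} {L : Pot d → (P → ℕ → Measure (E d)) → Measure (E d)}
    (h : Sim g om P q Λ N L) (hq : q ≤ q') (hΛ : Λ ≤ Λ') (hN : N ≤ N') :
    Sim g om P q' Λ' N' L := by
  obtain ⟨ι, _, pt, gr, l, q₀, f, hq0, hC, hl, hLip, hΛ0, hN0, hL⟩ := h
  exact ⟨ι, inferInstance, pt, gr, l, q₀, f, hq0.trans hq, hC, hl, hLip, hΛ0.trans hΛ,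
    hN0.trans hN, hL⟩

theorem Sim.congr {q Λ N : ℝ} {L L' : Pot d → (P → ℕ → Measure (E d)) → Measure (E d)}
    (h : Sim g om P q Λ N L) (he : ∀ V μ, AllProb μ → L' V μ = L V μ) :
    Sim g om P q Λ N L' := by
  obtain ⟨ι, _, pt, gr, l, q₀, f, hq0, hC, hl, hLip, hΛ0, hN0, hL⟩ := h
  exact ⟨ι, inferInstance, pt, gr, l, q₀, f, hq0, hC, hl, hLip, hΛ0, hN0,
    fun V μ hμ => (he V μ hμ).trans (hL V μ hμ)⟩

theorem Sim.prob {q Λ N : ℝ} {L : Pot d → (P → ℕ → Measure (E d)) → Measure (E d)}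
    (h : Sim g om P q Λ N L) (V : Pot d) {μ : P → ℕ → Measure (E d)} (hμ : AllProb μ) :
    IsProbabilityMeasure (L V μ) := by
  obtain ⟨ι, _, pt, gr, l, q₀, f, -, hC, -, -, -, -, hL⟩ := h
  have := feed_prob pt gr hμ
  rw [hL V μ hμ]
  exact Measure.isProbabilityMeasure_map (hC.measurable V).aemeasurable

theorem sim_port (p : P) (j : ℕ) :
    Sim (d := d) g om P 0 (g⁻¹ ^ j) (om⁻¹ ^ j) fun _ μ => μ p j := by
  refine ⟨Unit, inferInstance, fun _ => some p, fun _ => j, fun _ => 1, 0, fun _ b => b (),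
    by simp, comp_zero (measurable_pi_apply ()), fun _ => zero_le_one, fun _ b b' _ => by simp,
    by simp, by simp, fun V μ hμ => ?_⟩
  have := feed_prob (fun _ : Unit => some p) (fun _ => j) hμ
  exact (measurePreserving_eval (feed (fun _ : Unit => some p) (fun _ => j) μ) ()).map_eq.symm

theorem sim_seed : Sim (d := d) g om P 0 0 0 fun _ _ => gam d := by
  refine ⟨Unit, inferInstance, fun _ => none, fun _ => 0, fun _ => 0, 0, fun _ b => b (),
    by simp, comp_zero (measurable_pi_apply ()), fun _ => le_rfl,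
    fun _ b b' h => by simp [h () rfl], by simp, by simp, fun V μ hμ => ?_⟩
  have := feed_prob (fun _ : Unit => none) (fun _ => 0) hμ
  exact (measurePreserving_eval (feed (fun _ : Unit => none) (fun _ => 0) μ) ()).map_eq.symm

theorem Sim.reindex {P' : Type} (e : P → P') {q Λ N : ℝ}
    {L : Pot d → (P → ℕ → Measure (E d)) → Measure (E d)} (h : Sim g om P q Λ N L) :
    Sim g om P' q Λ N fun V μ => L V fun p => μ (e p) := by
  obtain ⟨ι, _, pt, gr, l, q₀, f, hq, hC, hl, hLip, hΛ, hN, hL⟩ := h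
  have he : ∀ (i : ι) (a : ℝ),
      (((pt i).map e).elim 0 fun _ => a) = (pt i).elim 0 fun _ => a := fun i a => by
    cases pt i <;> rfl
  refine ⟨ι, inferInstance, fun i => (pt i).map e, gr, l, q₀, f, hq, hC, hl,
    fun V b b' hb => hLip V b b' fun i hi => hb i (by simp [hi]), by simpa only [he] using hΛ,
    by simpa only [he] using hN, fun V μ hμ => ?_⟩
  have : feed pt gr (fun p => μ (e p)) = feed (fun i => (pt i).map e) gr μ := by
    funext i
    simp only [feed]
    cases pt i <;> rfl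
  rw [← this]
  exact hL V _ fun p j => hμ (e p) j

theorem Sim.shift {q Λ N : ℝ} {L : Pot d → (P → ℕ → Measure (E d)) → Measure (E d)}
    (hg : 0 < g) (hom : 0 < om) (h : Sim g om P q Λ N L) (J : ℕ) :
    Sim g om P q (Λ * g⁻¹ ^ J) (N * om⁻¹ ^ J) fun V μ => L V fun p i => μ p (J + i) := by
  obtain ⟨ι, _, pt, gr, l, q₀, f, hq, hC, hl, hLip, hΛ, hN, hL⟩ := h
  refine ⟨ι, inferInstance, pt, fun i => J + gr i, l, q₀, f, hq, hC, hl, hLip, ?_, ?_,
    fun V μ hμ => hL V _ fun p j => hμ p (J + j)⟩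
  · refine le_trans (le_of_eq ?_) (mul_le_mul_of_nonneg_right hΛ (by positivity))
    rw [Finset.sum_mul]
    refine Finset.sum_congr rfl fun i _ => ?_
    rw [← elim_mul_sc, pow_add, mul_comm (g⁻¹ ^ J), mul_assoc]
  · refine le_trans (le_of_eq ?_) (mul_le_mul_of_nonneg_right hN (by positivity))
    rw [Finset.sum_mul]
    refine Finset.sum_congr rfl fun i _ => ?_
    rw [← elim_mul_sc, pow_add, mul_comm (om⁻¹ ^ J)]

theorem Sim.grad {q Λ N : ℝ} {L : Pot d → (P → ℕ → Measure (E d)) → Measure (E d)}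
    (h : Sim g om P q Λ N L) :
    Sim g om P (q + 1) (2 * Λ) N fun V μ => (L V μ).map (gradient V.1) := by
  obtain ⟨ι, _, pt, gr, l, q₀, f, hq, hC, hl, hLip, hΛ, hN, hL⟩ := h
  refine ⟨ι, inferInstance, pt, gr, fun i => 2 * l i, q₀ + 1, fun V b => gradient V.1 (f V b),
    by push_cast; linarith, hC.grad, fun i => mul_nonneg zero_le_two (hl i),
    fun V b b' hb => ?_, ?_, hN, fun V μ hμ => ?_⟩
  · refine (V.norm_gradient_sub_le_sc _ _).trans ?_
    simp only [mul_assoc, ← Finset.mul_sum]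
    exact mul_le_mul_of_nonneg_left (hLip V b b' hb) zero_le_two
  · simp only [mul_assoc, mul_elim_sc _ (2 : ℝ), ← Finset.mul_sum]
    exact mul_le_mul_of_nonneg_left hΛ zero_le_two
  · change (L V μ).map (gradient V.1) = _
    rw [hL V μ hμ, Measure.map_map V.continuous_gradient_sc.measurable (hC.measurable V)]
    rfl

/-- composition of an outer program with independent simulators -/
theorem sim_compose {ι : Type} [Fintype ι] (seed : ι → Prop) {l : ι → ℝ} {q₀ : ℕ}
    {f : Pot d → (ι → E d) → E d} (hC : Comp q₀ (ι → E d) f) (hl : ∀ i, 0 ≤ l i)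
    (hLip : ∀ V b b', (∀ i, seed i → b i = b' i) → ‖f V b - f V b'‖ ≤ ∑ i, l i * ‖b i - b' i‖)
    {q Λ N : ι → ℝ} {L : ι → Pot d → (P → ℕ → Measure (E d)) → Measure (E d)}
    (h : ∀ i, Sim g om P (q i) (Λ i) (N i) (L i)) (hseed : ∀ i, seed i → 0 < om ∧ N i ≤ 0) :
    Sim g om P (q₀ + ∑ i, q i) (∑ i, l i * Λ i) (∑ i, N i)
      fun V μ => (Measure.pi fun i => L i V μ).map (f V) := by
  choose κ _ pt gr l' q' f' hq' hC' hl' hLip' hΛ' hN' hL' using h
  have hmk : ∀ i, Measurable fun (b : (Σ i, κ i) → E d) (j : κ i) => b ⟨i, j⟩ := fun i =>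
    measurable_pi_lambda _ fun j => measurable_pi_apply _
  have hin : Comp (∑ i, q' i) ((Σ i, κ i) → E d) fun V b i => f' i V fun j => b ⟨i, j⟩ :=
    Comp.pi fun i => (hC' i).pre (hmk i)
  have hnone : ∀ i, seed i → ∀ j, pt i j = none := by
    intro i hi j
    obtain ⟨hom, hN⟩ := hseed i hi
    have h0 : ∀ j ∈ Finset.univ, 0 ≤ (pt i j).elim 0 fun _ => om⁻¹ ^ gr i j := fun j _ =>
      elim_nonneg_sc _ (by positivity)
    have h1 := (Finset.single_le_sum h0 (Finset.mem_univ j)).trans ((hN' i).trans hN)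
    cases hp : pt i j with
    | none => rfl
    | some p =>
      rw [hp] at h1
      exact absurd h1 (not_le.mpr (show 0 < om⁻¹ ^ gr i j by positivity))
  refine ⟨Σ i, κ i, inferInstance, fun a => pt a.1 a.2, fun a => gr a.1 a.2,
    fun a => l a.1 * l' a.1 a.2, q₀ + ∑ i, q' i,
    fun V b => f V fun i => f' i V fun j => b ⟨i, j⟩, ?_,
    hin.bind (f₂ := fun V p => f V p.2) (hC.pre measurable_snd),
    fun a => mul_nonneg (hl _) (hl' _ _), fun V b b' hb => ?_, ?_, ?_, fun V μ hμ => ?_⟩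
  · push_cast
    exact add_le_add le_rfl (Finset.sum_le_sum fun i _ => hq' i)
  · refine (hLip V _ _ fun i hi => ?_).trans ?_
    · exact congrArg (f' i V) (funext fun j => hb ⟨i, j⟩ (hnone i hi j))
    · rw [Fintype.sum_sigma]
      refine Finset.sum_le_sum fun i _ => ?_
      simp only [mul_assoc, ← Finset.mul_sum]
      exact mul_le_mul_of_nonneg_left (hLip' i V _ _ fun j hj => hb ⟨i, j⟩ hj) (hl i)
  · rw [Fintype.sum_sigma]
    refine Finset.sum_le_sum fun i _ => ?_
    simp only [mul_assoc, mul_elim_sc _ (l i), ← Finset.mul_sum]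
    exact mul_le_mul_of_nonneg_left (hΛ' i) (hl i)
  · rw [Fintype.sum_sigma]
    exact Finset.sum_le_sum fun i _ => hN' i
  · have := feed_prob (fun a : Σ i, κ i => pt a.1 a.2) (fun a => gr a.1 a.2) hμ
    have h1 := map_pi_sigma (feed (fun a : Σ i, κ i => pt a.1 a.2) (fun a => gr a.1 a.2) μ)
      fun i => (hC' i).measurable V
    have h2 : (fun i => L i V μ) = fun i => (Measure.pi (feed (pt i) (gr i) μ)).map (f' i V) :=
      funext fun i => hL' i V μ hμ
    change (Measure.pi fun i => L i V μ).map (f V) = _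
    rw [h2]
    refine (congrArg (Measure.map (f V)) h1.symm).trans ?_
    exact Measure.map_map (hC.measurable V) (hin.measurable V)

theorem sim_sum {κ : Type} [Fintype κ] {q Λ N : κ → ℝ}
    {L : κ → Pot d → (P → ℕ → Measure (E d)) → Measure (E d)}
    (h : ∀ k, Sim g om P (q k) (Λ k) (N k) (L k)) (c : κ → ℝ) (s : ℝ) :
    ∃ L' : Pot d → (P → ℕ → Measure (E d)) → Measure (E d),
      Sim g om P (∑ k, q k) (∑ k, |c k| * Λ k) (∑ k, N k) L' ∧
      ∀ V μ, AllProb μ → ∀ (v : κ → E d) (σ : κ → ℝ) (t : ℝ),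
        t ^ 2 = ∑ k, c k ^ 2 * σ k ^ 2 + s ^ 2 →
        Wd (L' V μ) (Nm (∑ k, c k • v k) t)
          ≤ ∑ k, ENNReal.ofReal |c k| * Wd (L k V μ) (Nm (v k) (σ k)) ∧
        ((∀ k, L k V μ = Nm (v k) (σ k)) → L' V μ = Nm (∑ k, c k • v k) t) := by
  let F : (Option κ → E d) → E d := fun b => ∑ k, c k • b (some k) + s • b none
  let l : Option κ → ℝ := fun o => o.elim |s| fun k => |c k|
  let L₁ : Option κ → Pot d → (P → ℕ → Measure (E d)) → Measure (E d) :=
    fun o => o.elim (fun _ _ => gam d) L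
  have hF : Measurable F := by fun_prop
  have hl : ∀ o, 0 ≤ l o := fun o => by cases o <;> exact abs_nonneg _
  have hLip : ∀ b b' : Option κ → E d, ‖F b - F b'‖ ≤ ∑ i, l i * ‖b i - b' i‖ := by
    intro b b'
    have : F b - F b' = s • (b none - b' none) + ∑ k, c k • (b (some k) - b' (some k)) := by
      simp only [F, smul_sub, Finset.sum_sub_distrib]
      abel
    rw [this, Fintype.sum_option]
    refine (norm_add_le _ _).trans (add_le_add ?_ ((norm_sum_le _ _).trans (le_of_eq ?_)))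
    · rw [norm_smul, Real.norm_eq_abs]; rfl
    · simp only [norm_smul, Real.norm_eq_abs]; rfl
  have h₁ : ∀ o : Option κ, Sim g om P (o.elim 0 q) (o.elim 0 Λ) (o.elim 0 N) (L₁ o) := fun o => by
    cases o with
    | none => exact sim_seed
    | some k => exact h k
  have hS := sim_compose (fun _ => False) (comp_zero hF) hl (fun _ b b' _ => hLip b b') h₁
    fun _ h => h.elim
  refine ⟨_, hS.mono ?_ ?_ ?_, fun V μ hμ v σ t ht => ?_⟩
  · simp [Fintype.sum_option]
  · simp [Fintype.sum_option, l]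
  · simp [Fintype.sum_option]
  · let m' : Option κ → Measure (E d) := fun o => o.elim (gam d) fun k => Nm (v k) (σ k)
    have hp : ∀ o, IsProbabilityMeasure (L₁ o V μ) := fun o => (h₁ o).prob V hμ
    have hp' : ∀ o, IsProbabilityMeasure (m' o) := fun o => by
      cases o with
      | none => exact inferInstanceAs (IsProbabilityMeasure (gam d))
      | some k => exact Nm_prob _ _
    have hN : (Measure.pi m').map F = Nm (∑ k, c k • v k) t := by
      have h2 := measurePreserving_option_sc m'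
      have h3 : Measurable fun x : (κ → E d) × E d => ∑ k, c k • x.1 k + s • x.2 := by fun_prop
      rw [← map_sum_pi_Nm c σ v s t ht]
      refine Eq.trans ?_ (congrArg (Measure.map _) h2.map_eq)
      exact (Measure.map_map h3 h2.measurable).symm
    constructor
    · rw [← hN]
      refine (Wd_map_pi_le (fun _ => False) (fun o => L₁ o V μ) m' (fun _ h => h.elim) hF hl
        fun b b' _ => hLip b b').trans (le_of_eq ?_)
      rw [Fintype.sum_option]
      change ENNReal.ofReal |s| * Wd (gam d) (gam d) + _ = _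
      rw [Wd_self, mul_zero, zero_add]
      rfl
    · intro he
      rw [← hN]
      refine congrArg (fun m => (Measure.pi m).map F) (funext fun o => ?_)
      cases o with
      | none => rfl
      | some k => exact he k

theorem Sim.feed {P' : Type} {q Λ N Q Λ' N' : ℝ}
    {L : Pot d → (P → ℕ → Measure (E d)) → Measure (E d)}
    {L' : P → ℕ → Pot d → (P' → ℕ → Measure (E d)) → Measure (E d)}
    (hg : 0 < g) (hom : 0 < om) (hQ : 0 ≤ Q) (hΛ' : 0 ≤ Λ') (hN' : 0 ≤ N')
    (h : Sim g om P q Λ N L) (h' : ∀ p j, Sim g om P' (Q * om⁻¹ ^ j) Λ' N' (L' p j)) :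
    Sim g om P' (q + N * Q) (Λ * Λ') (N * N')
      fun V μ => L V fun p j => L' p j V fun p' i => μ p' (j + i) := by
  obtain ⟨ι, _, pt, gr, l, q₀, f, hq, hC, hl, hLip, hΛ, hN, hL⟩ := h
  have h₁ : ∀ i, Sim g om P' ((pt i).elim 0 fun _ => om⁻¹ ^ gr i * Q)
      ((pt i).elim 0 fun _ => g⁻¹ ^ gr i * Λ') ((pt i).elim 0 fun _ => om⁻¹ ^ gr i * N')
      fun V μ => P347.feed pt gr (fun p j => L' p j V fun p' k => μ p' (j + k)) i := by
    intro i
    unfold P347.feed
    cases pt i with
    | none => exact sim_seed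
    | some p =>
      exact ((h' p (gr i)).shift hg hom (gr i)).mono (mul_comm _ _).le (mul_comm _ _).le
        (mul_comm _ _).le
  have hS := sim_compose (fun i => pt i = none) hC hl hLip h₁ fun i hi => ⟨hom, by simp [hi]⟩
  refine (hS.mono ?_ ?_ ?_).congr fun V μ hμ => ?_
  · simp only [elim_mul_sc, ← Finset.sum_mul]
    exact add_le_add hq (mul_le_mul_of_nonneg_right hN hQ)
  · simp only [← mul_elim_sc, ← mul_assoc]
    simp only [elim_mul_sc _ _ Λ', ← Finset.sum_mul]
    exact mul_le_mul_of_nonneg_right hΛ hΛ'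
  · simp only [elim_mul_sc, ← Finset.sum_mul]
    exact mul_le_mul_of_nonneg_right hN hN'
  · exact hL V _ fun p j => (h' p j).prob V fun p' k => hμ p' (j + k)

/-- some ports are fed by points depending on a parameter -/
noncomputable def extG {P' : Type} (π : P' → Option P) (val : P' → E d × E d → E d)
    (x : E d × E d) (μ : P → ℕ → Measure (E d)) : P' → ℕ → Measure (E d) :=
  fun o j => (π o).elim (Measure.dirac (val o x)) fun p => μ p j

theorem Sim.share {P' : Type} {q₀ Λ₀ N₀ q Λ N : ℝ}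
    {L₀ : Pot d → (P → ℕ → Measure (E d)) → Measure (E d)}
    {L : Pot d → (P' → ℕ → Measure (E d)) → Measure (E d)}
    (hg : 0 < g) (hg1 : g ≤ 1) (hom : 0 < om)
    (h₀ : Sim g om P q₀ Λ₀ N₀ L₀) (h : Sim g om P' q Λ N L) (π : P' → Option P)
    (val : P' → E d × E d → E d) (hval : ∀ o, Measurable (val o))
    (hvl : ∀ o A A' z, ‖val o (A, z) - val o (A', z)‖ ≤ ‖A - A'‖) (c' : ℝ) :
    ∃ L' : Pot d → (P → ℕ → Measure (E d)) → Measure (E d),
      Sim g om P (q₀ + q) (Λ * max 1 Λ₀) (N₀ + N) L' ∧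
      ∀ V μ, AllProb μ → ∀ (φ : E d → ℝ) (M : ℝ), Measurable φ → (∀ x, |φ x| ≤ M) →
        Measurable (fun x : E d × E d => ∫ y, φ (y + c' • x.2) ∂(L V (extG π val x μ))) ∧
        ∫ y, φ y ∂(L' V μ) = ∫ x, (∫ y, φ (y + c' • x.2) ∂(L V (extG π val x μ)))
          ∂((L₀ V μ).prod (gam d)) := by
  classical
  obtain ⟨ι₀, _, pt₀, gr₀, l₀, k₀, f₀, hq₀, hC₀, hl₀, hLip₀, hΛ₀, hN₀, hL₀⟩ := h₀
  obtain ⟨ι, _, pt, gr, l, k, f, hq, hC, hl, hLip, hΛ, hN, hL⟩ := h
  let pt₂ : ι → Option P := fun i => (pt i).bind π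
  let sh : ι → Prop := fun i => ∃ o, pt i = some o ∧ π o = none
  let ov₁ : ι → E d × E d → E d → E d := fun i x y =>
    (pt i).elim y fun o => (π o).elim (val o x) fun _ => y
  let ov : (E d × E d) × (ι → E d) → ι → E d := fun z i => ov₁ i z.1 (z.2 i)
  have hov₁ : ∀ i, Measurable fun z : (E d × E d) × E d => ov₁ i z.1 z.2 := by
    intro i
    simp only [ov₁]
    cases pt i with
    | none => exact measurable_snd
    | some o =>
      simp only [Option.elim]
      cases π o with
      | none => exact (hval o).comp measurable_fst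
      | some p => exact measurable_snd
  have hov : Measurable ov := measurable_pi_lambda _ fun i =>
    (hov₁ i).comp (measurable_fst.prodMk ((measurable_pi_apply i).comp measurable_snd))
  have hcase : ∀ i, (¬ sh i ∧ (∀ x y, ov₁ i x y = y) ∧ (∀ a : ℝ, ((pt₂ i).elim 0 fun _ => a) =
      (pt i).elim 0 fun _ => a) ∧ ∀ x μ, P347.feed pt gr (extG π val x μ) i =
        P347.feed pt₂ gr μ i) ∨ ∃ o, pt i = some o ∧ π o = none ∧ pt₂ i = none ∧
        ∀ x y, ov₁ i x y = val o x := by
    intro i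
    cases hp : pt i with
    | none => left; simp [sh, ov₁, pt₂, P347.feed, hp]
    | some o =>
      cases ho : π o with
      | none => right; exact ⟨o, rfl, ho, by simp [pt₂, hp, ho], by simp [ov₁, hp, ho]⟩
      | some p => left; simp [sh, ov₁, pt₂, P347.feed, extG, hp, ho]
  let Ls : ℝ := ∑ i, if sh i then l i else 0
  have hLs : 0 ≤ Ls := Finset.sum_nonneg fun i _ => by split_ifs; exacts [hl i, le_rfl]
  let sp : Pot d → (Option ι₀ ⊕ ι → E d) → (E d × E d) × (ι → E d) := fun V b =>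
    ((f₀ V fun j => b (.inl (some j)), b (.inl none)), fun i => b (.inr i))
  let G : Pot d → (E d × E d) × (ι → E d) → E d := fun V z => f V (ov z) + c' • z.1.2
  have hG : ∀ V, Measurable (G V) := fun V =>
    ((hC.measurable V).comp hov).add (measurable_snd.comp measurable_fst |>.const_smul c')
  let pt' : Option ι₀ ⊕ ι → Option P := Sum.elim (fun o => o.bind pt₀) pt₂
  let gr' : Option ι₀ ⊕ ι → ℕ := Sum.elim (fun o => o.elim 0 gr₀) gr
  let l' : Option ι₀ ⊕ ι → ℝ :=
    Sum.elim (fun o => o.elim 0 fun j => Ls * l₀ j) fun i => if sh i then 0 else l i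
  have hin : Measurable fun (b : Option ι₀ ⊕ ι → E d) (j : ι₀) => b (.inl (some j)) :=
    measurable_pi_lambda _ fun j => measurable_pi_apply _
  have hsp : Measurable fun p : (Option ι₀ ⊕ ι → E d) × E d =>
      (((p.2, p.1 (.inl none)), fun i => p.1 (.inr i)) : (E d × E d) × (ι → E d)) := by
    fun_prop
  have hComp : Comp (k + k₀) (Option ι₀ ⊕ ι → E d) fun V b => G V (sp V b) :=
    (hC₀.pre hin).bind (f₂ := fun V (p : (Option ι₀ ⊕ ι → E d) × E d) =>
        G V ((p.2, p.1 (.inl none)), fun i => p.1 (.inr i)))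
      ((hC.pre (hov.comp hsp)).post
        (ψ := fun p : ((Option ι₀ ⊕ ι → E d) × E d) × E d => p.2 + c' • p.1.1 (.inl none))
        (by fun_prop))
  refine ⟨fun V μ => (Measure.pi (P347.feed pt' gr' μ)).map fun b => G V (sp V b),
    ⟨Option ι₀ ⊕ ι, inferInstance, pt', gr', l', k + k₀, fun V b => G V (sp V b), ?_, hComp, ?_,
      fun V b b' hb => ?_, ?_, ?_, fun _ _ _ => rfl⟩, fun V μ hμ φ M hφ hM => ?_⟩
  · push_cast
    linarith
  · rintro ((_ | j) | i)
    · exact le_rfl
    · exact mul_nonneg hLs (hl₀ j)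
    · change 0 ≤ if sh i then 0 else l i
      split_ifs
      exacts [le_rfl, hl i]
  · have hz : b (.inl none) = b' (.inl none) := hb _ rfl
    set D := ∑ j, l₀ j * ‖b (.inl (some j)) - b' (.inl (some j))‖ with hD
    have h0 : ‖(sp V b).1.1 - (sp V b').1.1‖ ≤ D := hLip₀ V _ _ fun j hj => hb _ hj
    have h1 : G V (sp V b) - G V (sp V b') = f V (ov (sp V b)) - f V (ov (sp V b')) := by
      simp only [G, sp, hz, add_sub_add_right_eq_sub]
    rw [h1]
    refine (hLip V _ _ fun i hi => ?_).trans ?_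
    · rcases hcase i with ⟨-, h2, -⟩ | ⟨o, h2, -⟩
      · simp only [ov, h2]
        exact hb (.inr i) (by simp [pt', pt₂, hi])
      · rw [hi] at h2; cases h2
    · rw [Fintype.sum_sum_type, Fintype.sum_option]
      have h3 : ∑ j, l' (.inl (some j)) * ‖b (.inl (some j)) - b' (.inl (some j))‖ = Ls * D := by
        rw [hD, Finset.mul_sum]
        exact Finset.sum_congr rfl fun j _ => mul_assoc _ _ _
      have h4 : l' (.inl none) = 0 := rfl
      rw [h3, h4, zero_mul, zero_add, Finset.sum_mul, ← Finset.sum_add_distrib]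
      refine Finset.sum_le_sum fun i _ => ?_
      rcases hcase i with ⟨h2, h5, -⟩ | ⟨o, h2, h5, -, h6⟩
      · simp only [ov, h5, l', Sum.elim_inr, if_neg h2, zero_mul, zero_add]
        exact le_rfl
      · have h7 : sh i := ⟨o, h2, h5⟩
        simp only [ov, h6, l', Sum.elim_inr, if_pos h7, zero_mul, add_zero]
        refine mul_le_mul_of_nonneg_left (le_trans (le_of_eq ?_) ((hvl o _ _ (b (.inl none))).trans
          h0)) (hl i)
        simp only [sp, hz]
  · rw [Fintype.sum_sum_type, Fintype.sum_option]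
    have hm1 : (1 : ℝ) ≤ max 1 Λ₀ := le_max_left _ _
    have h3 : ∑ j, ((pt' (.inl (some j))).elim 0 fun _ =>
        l' (.inl (some j)) * g⁻¹ ^ gr' (.inl (some j))) ≤ Ls * max 1 Λ₀ := by
      refine le_trans (le_of_eq ?_)
        (mul_le_mul_of_nonneg_left (hΛ₀.trans (le_max_right _ _)) hLs)
      rw [Finset.mul_sum]
      refine Finset.sum_congr rfl fun j _ => ?_
      rw [← mul_elim_sc, ← mul_assoc]
      rfl
    have h4 : ((pt' (.inl none)).elim 0 fun _ =>
        l' (.inl none) * g⁻¹ ^ gr' (.inl none)) = 0 := rfl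
    rw [h4, zero_add]
    refine (add_le_add h3 le_rfl).trans
      (le_trans ?_ (mul_le_mul_of_nonneg_right hΛ (zero_le_one.trans hm1)))
    rw [Finset.sum_mul, Finset.sum_mul, ← Finset.sum_add_distrib]
    refine Finset.sum_le_sum fun i _ => ?_
    rcases hcase i with ⟨h2, -, h5, -⟩ | ⟨o, h2, h5, h6, -⟩
    · simp only [pt', l', gr', Sum.elim_inr, if_neg h2, zero_mul, zero_add, h5]
      exact le_mul_of_one_le_right (elim_nonneg_sc _ (mul_nonneg (hl i) (by positivity))) hm1
    · have h7 : sh i := ⟨o, h2, h5⟩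
      simp only [pt', Sum.elim_inr, if_pos h7, h6, h2, Option.elim, add_zero]
      refine mul_le_mul_of_nonneg_right (le_mul_of_one_le_right (hl i) ?_) (zero_le_one.trans hm1)
      exact one_le_pow₀ (one_le_inv₀ hg |>.mpr hg1)
  · rw [Fintype.sum_sum_type, Fintype.sum_option]
    have h4 : ((pt' (.inl none)).elim 0 fun _ => om⁻¹ ^ gr' (.inl none)) = 0 := rfl
    rw [h4, zero_add]
    refine add_le_add hN₀ (le_trans (Finset.sum_le_sum fun i _ => ?_) hN)
    rcases hcase i with ⟨-, -, h5, -⟩ | ⟨o, -, -, h6, -⟩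
    · exact (h5 _).le
    · simp only [pt', Sum.elim_inr, h6, Option.elim]
      exact elim_nonneg_sc _ (by positivity)
  · have hp' := feed_prob pt' gr' hμ
    have hp₀ := feed_prob pt₀ gr₀ hμ
    have hp₂ := feed_prob pt₂ gr hμ
    have hφG : Measurable fun z => φ (G V z) := hφ.comp (hG V)
    have hinner : ∀ x : E d × E d, ∫ y, φ (y + c' • x.2) ∂(L V (extG π val x μ)) =
        ∫ b, φ (G V (x, b)) ∂(Measure.pi (P347.feed pt₂ gr μ)) := by
      intro x
      have hx : AllProb (extG π val x μ) := fun o j => by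
        unfold extG
        cases π o with
        | none => exact inferInstanceAs (IsProbabilityMeasure (Measure.dirac _))
        | some p => exact hμ p j
      have hm : ∀ i, Measurable (ov₁ i x) := fun i => (hov₁ i).comp measurable_prodMk_left
      have hf : P347.feed pt gr (extG π val x μ) =
          fun i => (P347.feed pt₂ gr μ i).map (ov₁ i x) := by
        funext i
        rcases hcase i with ⟨-, h2, -, h5⟩ | ⟨o, h2, h5, -, h6⟩
        · rw [h5, show ov₁ i x = id from funext (h2 x), Measure.map_id]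
        · rw [show ov₁ i x = fun _ => val o x from funext (h6 x), Measure.map_const, measure_univ,
            one_smul]
          simp [P347.feed, extG, h2, h5]
      have : ∀ i, IsProbabilityMeasure ((P347.feed pt₂ gr μ i).map (ov₁ i x)) := fun i =>
        Measure.isProbabilityMeasure_map (hm i).aemeasurable
      have hox : Measurable fun (b : ι → E d) i => ov₁ i x (b i) :=
        hov.comp measurable_prodMk_left
      have hφx : Measurable fun y => φ (y + c' • x.2) := hφ.comp (measurable_add_const _)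
      rw [hL V _ hx, hf, ← Measure.pi_map_pi fun i => (hm i).aemeasurable,
        Measure.map_map (hC.measurable V) hox,
        integral_map ((hC.measurable V).comp hox).aemeasurable hφx.aestronglyMeasurable]
      rfl
    simp only [hinner]
    refine ⟨hφG.stronglyMeasurable.integral_prod_right'.measurable, ?_⟩
    have hL₀p : IsProbabilityMeasure (L₀ V μ) := by
      rw [hL₀ V μ hμ]
      exact Measure.isProbabilityMeasure_map (hC₀.measurable V).aemeasurable
    have m1 := measurePreserving_sumPiEquivProdPi (P347.feed pt' gr' μ)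
    have m2 := measurePreserving_option_sc fun o => P347.feed pt' gr' μ (.inl o)
    have m3 : MeasurePreserving (f₀ V) (Measure.pi (P347.feed pt₀ gr₀ μ)) (L₀ V μ) :=
      ⟨hC₀.measurable V, (hL₀ V μ hμ).symm⟩
    have m4 : MeasurePreserving (sp V) (Measure.pi (P347.feed pt' gr' μ))
        (((L₀ V μ).prod (gam d)).prod (Measure.pi (P347.feed pt₂ gr μ))) :=
      (((m3.prod (MeasurePreserving.id (gam d))).comp m2).prod
        (MeasurePreserving.id (Measure.pi (P347.feed pt₂ gr μ)))).comp m1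
    rw [← integral_prod _ (integrable_of_bdd_sc hφG (fun _ => hM _) _), ← m4.map_eq,
      integral_map m4.measurable.aemeasurable hφG.aestronglyMeasurable,
      integral_map (hComp.measurable V).aemeasurable hφ.aestronglyMeasurable]

theorem Sim.share1 {q₀ Λ₀ N₀ q Λ N : ℝ}
    {L₀ : Pot d → (P → ℕ → Measure (E d)) → Measure (E d)}
    {L : Pot d → (Option P → ℕ → Measure (E d)) → Measure (E d)}
    (hg : 0 < g) (hg1 : g ≤ 1) (hom : 0 < om)
    (h₀ : Sim g om P q₀ Λ₀ N₀ L₀) (h : Sim g om (Option P) q Λ N L) :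
    ∃ L' : Pot d → (P → ℕ → Measure (E d)) → Measure (E d),
      Sim g om P (q₀ + q) (Λ * max 1 Λ₀) (N₀ + N) L' ∧
      ∀ V μ, AllProb μ → ∀ (f : E d → ℝ) (M : ℝ), Measurable f → (∀ x, |f x| ≤ M) →
        Measurable (fun A => ∫ x, f x ∂(L V (ext1 A μ))) ∧
        ∫ x, f x ∂(L' V μ) = ∫ A, (∫ x, f x ∂(L V (ext1 A μ))) ∂(L₀ V μ) := by
  obtain ⟨L', hS, hL'⟩ := Sim.share hg hg1 hom h₀ h id (fun _ x => x.1)
    (fun _ => measurable_fst) (fun _ _ _ _ => le_rfl) 0
  refine ⟨L', hS, fun V μ hμ f M hf hM => ?_⟩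
  obtain ⟨h1, h2⟩ := hL' V μ hμ f M hf hM
  have he : ∀ x : E d × E d, extG id (fun _ x => x.1) x μ = ext1 x.1 μ := fun _ => by
    funext o j
    cases o <;> rfl
  simp only [he, zero_smul, add_zero] at h1 h2
  have := h₀.prob V hμ
  obtain ⟨I, hI⟩ : ∃ I : E d → ℝ, I = fun A => ∫ x, f x ∂(L V (ext1 A μ)) := ⟨_, rfl⟩
  have hI' : ∀ A, ∫ x, f x ∂(L V (ext1 A μ)) = I A := fun A => by rw [hI]
  simp only [hI'] at h1 h2 ⊢
  have h3 : Measurable fun A : E d => (A, (0 : E d)) := measurable_prodMk_right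
  refine ⟨h1.comp h3, h2.trans ?_⟩
  rw [integral_fun_fst I]
  simp

theorem Sim.share2 {q₀ Λ₀ N₀ q Λ N : ℝ}
    {L₀ : Pot d → (P → ℕ → Measure (E d)) → Measure (E d)}
    {L : Pot d → (P ⊕ Bool → ℕ → Measure (E d)) → Measure (E d)}
    (hg : 0 < g) (hg1 : g ≤ 1) (hom : 0 < om)
    (h₀ : Sim g om P q₀ Λ₀ N₀ L₀) (h : Sim g om (P ⊕ Bool) q Λ N L) (s c' : ℝ) :
    ∃ L' : Pot d → (P → ℕ → Measure (E d)) → Measure (E d),
      Sim g om P (q₀ + q) (Λ * max 1 Λ₀) (N₀ + N) L' ∧
      ∀ V μ, AllProb μ → ∀ (v : E d × E d → E d) (σ : ℝ) (T : Measure (E d)), Measurable v →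
        (∀ f, BL f → ∫ y, f y ∂T =
          ∫ x, (∫ y, f (y + c' • x.2) ∂(Nm (v x) σ)) ∂((L₀ V μ).prod (gam d))) →
        Wd (L' V μ) T ≤ ∫⁻ x, Wd (L V (ext2 x.1 (s • x.2) μ)) (Nm (v x) σ)
          ∂((L₀ V μ).prod (gam d)) := by
  let val : P ⊕ Bool → E d × E d → E d := fun o x =>
    o.elim (fun _ => x.1) fun b => if b then x.1 else s • x.2
  obtain ⟨L', hS, hL'⟩ := Sim.share hg hg1 hom h₀ h Sum.getLeft? val
    (by
      rintro (p | _ | _)
      · exact measurable_fst
      · exact measurable_snd.const_smul s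
      · exact measurable_fst)
    (by rintro (p | _ | _) A A' z <;> simp [val]) c'
  refine ⟨L', hS, fun V μ hμ v σ T hv hT => iSup₂_le fun f hf => ?_⟩
  obtain ⟨M, hM⟩ := hf.2
  obtain ⟨h1, h2⟩ := hL' V μ hμ f M hf.measurable_sc hM
  have he : ∀ x : E d × E d, extG Sum.getLeft? val x μ = ext2 x.1 (s • x.2) μ := fun x => by
    funext o j
    cases o <;> rfl
  simp only [he] at h1 h2
  have := h₀.prob V hμ
  have hp : ∀ x : E d × E d, IsProbabilityMeasure (L V (ext2 x.1 (s • x.2) μ)) := fun x =>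
    h.prob V fun o j => by
      cases o with
      | inl p => exact hμ p j
      | inr b => exact inferInstanceAs (IsProbabilityMeasure (Measure.dirac _))
  have h3 : Measurable fun x : E d × E d => ∫ y, f (y + c' • x.2) ∂(Nm (v x) σ) := by
    have : ∀ x : E d × E d, ∫ y, f (y + c' • x.2) ∂(Nm (v x) σ) =
        ∫ ξ, f (v x + σ • ξ + c' • x.2) ∂(gam d) := fun x =>
      integral_map (by fun_prop) (hf.add_const_sc _).measurable_sc.aestronglyMeasurable
    simp only [this]
    have hm : Measurable fun z : (E d × E d) × E d => f (v z.1 + σ • z.2 + c' • z.1.2) :=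
      hf.measurable_sc.comp (by fun_prop)
    exact hm.stronglyMeasurable.integral_prod_right'.measurable
  rw [h2, hT f hf]
  refine (ofReal_abs_integral_sub_le_sc
    (integrable_of_bdd_sc h1 (fun x => abs_integral_le_of_bdd_sc (fun _ => hM _) _) _)
    (integrable_of_bdd_sc h3 (fun x => abs_integral_le_of_bdd_sc (fun _ => hM _) _) _)).trans ?_
  exact lintegral_mono fun x => le_Wd (hf.add_const_sc _) _ _

theorem Sim.Wd_le {q Λ N : ℝ} {L : Pot d → (P → ℕ → Measure (E d)) → Measure (E d)}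
    (h : Sim g om P q Λ N L) (V : Pot d) :
    ∃ (ι : Type) (_ : Fintype ι) (pt : ι → Option P) (gr : ι → ℕ) (l : ι → ℝ), (∀ i, 0 ≤ l i) ∧
      (∑ i, (pt i).elim 0 (fun _ => l i * g⁻¹ ^ gr i) ≤ Λ) ∧
      ∀ μ μ', AllProb μ → AllProb μ' → Wd (L V μ) (L V μ') ≤
        ∑ i, (pt i).elim 0 fun p => ENNReal.ofReal (l i) * Wd (μ p (gr i)) (μ' p (gr i)) := by
  obtain ⟨ι, _, pt, gr, l, q₀, f, -, hC, hl, hLip, hΛ, -, hL⟩ := h
  refine ⟨ι, inferInstance, pt, gr, l, hl, hΛ, fun μ μ' hμ hμ' => ?_⟩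
  have := feed_prob pt gr hμ
  have := feed_prob pt gr hμ'
  rw [hL V μ hμ, hL V μ' hμ']
  refine (Wd_map_pi_le (fun i => pt i = none) _ _
    (fun i hi => (feed_of_none gr μ hi).trans (feed_of_none gr μ' hi).symm) (hC.measurable V) hl
    (hLip V)).trans (le_of_eq (Finset.sum_congr rfl fun i _ => ?_))
  unfold P347.feed
  cases pt i with
  | none => simp [Wd_self]
  | some p => rfl

/-- averaged stability in the inputs -/
theorem Sim.stab {X : Type} [MeasurableSpace X] (m : Measure X) {q Λ N : ℝ}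
    {L : Pot d → (P → ℕ → Measure (E d)) → Measure (E d)} (hg : 0 < g)
    (h : Sim g om P q Λ N L) (V : Pot d) (μ μ' : X → P → ℕ → Measure (E d))
    (hμ : ∀ x, AllProb (μ x)) (hμ' : ∀ x, AllProb (μ' x))
    (hm : ∀ p j, Measurable fun x => Wd (μ x p j) (μ' x p j)) (B : ℝ≥0∞)
    (hB : ∀ p j, ∫⁻ x, Wd (μ x p j) (μ' x p j) ∂m ≤ B * ENNReal.ofReal (g⁻¹ ^ j)) :
    ∫⁻ x, Wd (L V (μ x)) (L V (μ' x)) ∂m ≤ ENNReal.ofReal Λ * B := by
  obtain ⟨ι, _, pt, gr, l, hl, hΛ, hW⟩ := h.Wd_le V
  refine (lintegral_mono fun x => hW _ _ (hμ x) (hμ' x)).trans ?_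
  rw [lintegral_finsetSum]
  · refine le_trans ?_ (mul_le_mul_left (ENNReal.ofReal_le_ofReal hΛ) B)
    rw [ENNReal.ofReal_sum_of_nonneg fun i _ =>
      elim_nonneg_sc _ (mul_nonneg (hl i) (by positivity)), Finset.sum_mul]
    refine Finset.sum_le_sum fun i _ => ?_
    cases pt i with
    | none => simp
    | some p =>
      simp only [Option.elim]
      rw [lintegral_const_mul _ (hm p _), ENNReal.ofReal_mul (hl i), mul_assoc, mul_comm _ B]
      exact mul_le_mul_right (hB p _) _
  · intro i _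
    cases pt i with
    | none => exact measurable_const
    | some p => exact (hm p _).const_mul _

theorem continuous_integral_of_Wd_sc {X : Type} [TopologicalSpace X] {ν : X → Measure (E d)}
    {D : X → X → ℝ} (hD : ∀ y, Continuous fun x => D x y) (hD0 : ∀ y, D y y = 0)
    (hD1 : ∀ x y, 0 ≤ D x y) (hW : ∀ x y, Wd (ν x) (ν y) ≤ ENNReal.ofReal (D x y))
    {f : E d → ℝ} (hf : BL f) : Continuous fun x => ∫ z, f z ∂(ν x) := by
  refine continuous_iff_continuousAt.mpr fun y => tendsto_iff_dist_tendsto_zero.mpr ?_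
  have h1 := (hD y).tendsto y
  rw [hD0] at h1
  refine squeeze_zero (fun _ => dist_nonneg) (fun x => ?_) h1
  rw [Real.dist_eq]
  exact (ENNReal.ofReal_le_ofReal_iff (hD1 x y)).mp ((le_Wd hf _ _).trans (hW x y))

/-- measurability of the error for Gaussian inputs depending continuously on a parameter -/
theorem Sim.measurable_Wd {X : Type} [TopologicalSpace X] [MeasurableSpace X]
    [OpensMeasurableSpace X] {q Λ N : ℝ}
    {L : Pot d → (P → ℕ → Measure (E d)) → Measure (E d)}
    (h : Sim g om P q Λ N L) (V : Pot d) (v : X → P → E d) (hv : ∀ p, Continuous fun x => v x p)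
    (ν : P → ℝ) (t : X → E d) (ht : Continuous t) (σ : ℝ) :
    Measurable fun x => Wd (L V fun p _ => Nm (v x p) (ν p)) (Nm (t x) σ) := by
  obtain ⟨ι, _, pt, gr, l, hl, -, hW⟩ := h.Wd_le V
  refine LowerSemicontinuous.measurable (lowerSemicontinuous_biSup fun f hf => ?_)
  have h0 : ∀ x y i, 0 ≤ (pt i).elim 0 fun p => l i * ‖v x p - v y p‖ := fun x y i => by
    cases pt i with
    | none => exact le_rfl
    | some p => exact mul_nonneg (hl i) (norm_nonneg _)
  have h1 : Continuous fun x => ∫ z, f z ∂(L V fun p _ => Nm (v x p) (ν p)) := by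
    refine continuous_integral_of_Wd_sc
      (D := fun x y => ∑ i, (pt i).elim 0 fun p => l i * ‖v x p - v y p‖) (fun y => ?_)
      (fun y => ?_) (fun x y => Finset.sum_nonneg fun i _ => h0 x y i) (fun x y => ?_) hf
    · refine continuous_finsetSum _ fun i _ => ?_
      cases pt i with
      | none => exact continuous_const
      | some p => exact continuous_const.mul ((hv p).sub continuous_const).norm
    · refine Finset.sum_eq_zero fun i _ => ?_
      cases pt i <;> simp
    · refine (hW _ _ (fun _ _ => Nm_prob _ _) fun _ _ => Nm_prob _ _).trans ?_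
      rw [ENNReal.ofReal_sum_of_nonneg fun i _ => h0 x y i]
      refine Finset.sum_le_sum fun i _ => ?_
      cases pt i with
      | none => simp
      | some p =>
        simp only [Option.elim]
        rw [ENNReal.ofReal_mul (hl i), ofReal_norm]
        exact mul_le_mul_right (Wd_Nm_Nm _ _ _) _
  have h2 : Continuous fun x => ∫ z, f z ∂(Nm (t x) σ) :=
    continuous_integral_of_Wd_sc (D := fun x y => ‖t x - t y‖)
      (fun y => (ht.sub continuous_const).norm) (fun y => by simp) (fun _ _ => norm_nonneg _)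
      (fun x y => by rw [ofReal_norm]; exact Wd_Nm_Nm _ _ _) hf
  exact (ENNReal.continuous_ofReal.comp (h1.sub h2).abs).lowerSemicontinuous

/-- a simulator without ports is an algorithm -/
theorem Sim.achievable {q Λ N : ℝ}
    {L : Pot d → (Empty → ℕ → Measure (E d)) → Measure (E d)} (h : Sim g om Empty q Λ N L)
    (hL : ∀ (V : Pot d) (B : Set (E d)), MeasurableSet B →
      |(L V fun p _ => p.elim).real B - (gibbs V.1).real B| ≤ 1 / 10) :
    ∃ q₀ : ℕ, (q₀ : ℝ) ≤ q ∧ Achievable d q₀ := by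
  obtain ⟨ι, _, pt, gr, l, q₀, f, hq, hC, -, -, -, -, hL'⟩ := h
  obtain ⟨query, out, hqu, hout, hf⟩ := hC.exists_query
  have hμ : AllProb (fun (p : Empty) (_ : ℕ) => (p.elim : Measure (E d))) := fun p => p.elim
  have := feed_prob pt gr hμ
  let A : Algorithm d := ⟨ι → E d, inferInstance, Measure.pi (P347.feed pt gr fun p _ => p.elim),
    inferInstance, query, out, hqu, hout⟩
  refine ⟨q₀, hq, A, fun V hV B hB => ?_⟩
  have h1 := hL ⟨V, hV⟩ B hB
  rw [hL' _ _ hμ, Measure.real, Measure.map_apply (hC.measurable _) hB] at h1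
  have h2 : {s | A.out (s, history A V s q₀) ∈ B} = f ⟨V, hV⟩ ⁻¹' B := by
    ext s
    rw [mem_preimage, hf, mem_ofPred_eq, history_eq]
  rw [h2]
  exact h1

end Vale.Agent.P347
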