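import Vale.Agent.P347.Field

open MeasureTheory ProbabilityTheory Filter Set
open scoped ENNReal ContDiff RealInnerProductSpace

namespace Vale.Agent.P347.Sob

open Vale.Agent.P347.Field

section General

/-- the algebra of smooth functions -/
def smA (X : Type) [NormedAddCommGroup X] [NormedSpace ℝ X] : Subalgebra ℝ (X → ℝ) where
  carrier := {f | ContDiff ℝ ∞ f}
  mul_mem' := fun {f g} (hf : ContDiff ℝ ∞ f) (hg : ContDiff ℝ ∞ g) =>
    show ContDiff ℝ ∞ (fun x => f x * g x) from hf.mul hg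
  add_mem' := fun {f g} (hf : ContDiff ℝ ∞ f) (hg : ContDiff ℝ ∞ g) =>
    show ContDiff ℝ ∞ (fun x => f x + g x) from hf.add hg
  algebraMap_mem' := fun r => show ContDiff ℝ ∞ (fun _ : X => r) from contDiff_const

variable {X Y : Type} [NormedAddCommGroup X] [NormedSpace ℝ X] [NormedAddCommGroup Y]
  [NormedSpace ℝ Y]

theorem sm (f : smA X) : ContDiff ℝ ∞ f.1 := f.2

theorem hd (f : smA X) (x v : X) : HD f.1 x v (fderiv ℝ f.1 x v) := HD.of_contDiff (sm f) x v

/-- directional derivative -/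
noncomputable def dc (v : X) : smA X →ₗ[ℝ] smA X where
  toFun f := ⟨fun x => fderiv ℝ f.1 x v, contDiff_dir (sm f) v⟩
  map_add' f g := Subtype.ext (funext fun x => ((hd f x v).add (hd g x v)).2)
  map_smul' c f := Subtype.ext (funext fun x =>
    (((HD.const c x v).mul (hd f x v)).congr (e := c * fderiv ℝ f.1 x v) (by simp)).2)

theorem dc_val (v : X) (f : smA X) (x : X) : (dc v f).1 x = fderiv ℝ f.1 x v := rfl

theorem dc_mul (v : X) (f g : smA X) : dc v (f * g) = dc v f * g + f * dc v g :=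
  Subtype.ext (funext fun x => ((hd f x v).mul (hd g x v)).2)

theorem dc_one (v : X) : dc v (1 : smA X) = 0 :=
  Subtype.ext (funext fun x => (HD.const 1 x v).2)

theorem dc_two (v : X) : dc v (2 : smA X) = 0 := by
  rw [← one_add_one_eq_two, map_add, dc_one, add_zero]

theorem dc_comm (v w : X) (f : smA X) : dc v (dc w f) = dc w (dc v f) :=
  Subtype.ext (funext fun x => dir_comm (sm f) w v x)

/-- evaluation at a point -/
def ev (x : X) : smA X →ₐ[ℝ] ℝ := (Pi.evalAlgHom ℝ (fun _ : X => ℝ) x).comp (smA X).val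

theorem ev_apply (x : X) (f : smA X) : ev x f = f.1 x := rfl

theorem ext_ev {f g : smA X} (h : ∀ x, ev x f = ev x g) : f = g := Subtype.ext (funext h)

/-- pull back along a smooth map -/
def pull (g : X → Y) (hg : ContDiff ℝ ∞ g) : smA Y →ₐ[ℝ] smA X where
  toFun f := ⟨fun x => f.1 (g x), (sm f).comp hg⟩
  map_one' := rfl
  map_mul' _ _ := rfl
  map_zero' := rfl
  map_add' _ _ := rfl
  commutes' _ := rfl

end General

variable {d : ℕ}

abbrev RR' (d : ℕ) : Type := smA (XX d)
abbrev SS (d : ℕ) : Type := smA (ℝ × E d)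

noncomputable def lf : SS d →ₐ[ℝ] RR' d :=
  pull (fun x : XX d => (x.1, uu x.1 • x.2.1))
    (contDiff_fst.prodMk ((uu_contDiff.comp contDiff_fst).smul contDiff_snd.fst))

noncomputable def sc : smA ℝ →ₐ[ℝ] SS d := pull Prod.fst contDiff_fst

noncomputable def tm : smA ℝ →ₐ[ℝ] RR' d := pull Prod.fst contDiff_fst

theorem lf_sc (φ : smA ℝ) : lf (sc φ : SS d) = tm φ := rfl

noncomputable def U : smA ℝ := ⟨uu, uu_contDiff⟩

noncomputable def U' : smA ℝ := dc 1 U

noncomputable def Yc (i : Fin d) : RR' d := ⟨fun q => q.2.1 i, contDiff_y i⟩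

noncomputable def Hc (i : Fin d) : RR' d := ⟨fun q => q.2.2 i, contDiff_eta i⟩

noncomputable def dz (i : Fin d) : SS d →ₗ[ℝ] SS d := dc (0, ee i)
noncomputable def dt : SS d →ₗ[ℝ] SS d := dc (1, 0)
noncomputable def dy (i : Fin d) : RR' d →ₗ[ℝ] RR' d := dc (0, ee i, 0)
noncomputable def de (i : Fin d) : RR' d →ₗ[ℝ] RR' d := dc (0, 0, ee i)
noncomputable def ds : RR' d →ₗ[ℝ] RR' d := dc (1, 0, 0)

theorem dz_mul (i : Fin d) (f g : SS d) : dz i (f * g) = dz i f * g + f * dz i g := dc_mul _ _ _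
theorem dy_mul (i : Fin d) (f g : RR' d) : dy i (f * g) = dy i f * g + f * dy i g := dc_mul _ _ _
theorem de_mul (i : Fin d) (f g : RR' d) : de i (f * g) = de i f * g + f * de i g := dc_mul _ _ _
theorem ds_mul (f g : RR' d) : ds (f * g) = ds f * g + f * ds g := dc_mul _ _ _
theorem dz_comm (i j : Fin d) (f : SS d) : dz i (dz j f) = dz j (dz i f) := dc_comm _ _ _
theorem dt_dz (i : Fin d) (f : SS d) : dt (dz i f) = dz i (dt f) := dc_comm _ _ _
theorem dy_comm (i j : Fin d) (f : RR' d) : dy i (dy j f) = dy j (dy i f) := dc_comm _ _ _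
theorem de_comm (i j : Fin d) (f : RR' d) : de i (de j f) = de j (de i f) := dc_comm _ _ _
theorem de_dy (i j : Fin d) (f : RR' d) : de i (dy j f) = dy j (de i f) := dc_comm _ _ _
theorem ds_dy (j : Fin d) (f : RR' d) : ds (dy j f) = dy j (ds f) := dc_comm _ _ _
theorem ds_de (j : Fin d) (f : RR' d) : ds (de j f) = de j (ds f) := dc_comm _ _ _

theorem dy_lf (i : Fin d) (F : SS d) : dy i (lf F) = tm U * lf (dz i F) :=
  ext_ev fun x => ((hd_lift (sm F) x (0, ee i, 0)).congr
    (e := uu x.1 * lift (Dz i F.1) x) (by simp)).2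

theorem de_lf (i : Fin d) (F : SS d) : de i (lf F) = 0 :=
  ext_ev fun x => ((hd_lift (sm F) x (0, 0, ee i)).congr (e := 0) (by simp)).2

theorem ds_lf (F : SS d) : ds (lf F) = lf (dt F) + tm U' * ∑ l, Yc l * lf (dz l F) :=
  ext_ev fun x => by
    refine ((hd_lift (sm F) x (1, 0, 0)).congr ?_).2
    simp only [map_add, map_mul, map_sum, Finset.mul_sum]
    simp only [one_mul, PiLp.zero_apply, mul_zero, add_zero, mul_assoc]
    rfl

theorem dy_tm (i : Fin d) (φ : smA ℝ) : dy i (tm φ) = 0 :=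
  ext_ev fun x => ((hd_time (sm φ) x (0, ee i, 0)).congr (e := 0) (by simp)).2

theorem de_tm (i : Fin d) (φ : smA ℝ) : de i (tm φ) = 0 :=
  ext_ev fun x => ((hd_time (sm φ) x (0, 0, ee i)).congr (e := 0) (by simp)).2

theorem ds_tm (φ : smA ℝ) : ds (tm φ : RR' d) = tm (dc 1 φ) :=
  ext_ev fun x => ((hd_time (sm φ) x (1, 0, 0)).congr (e := deriv φ.1 x.1) (by simp)).2

theorem dz_sc (i : Fin d) (φ : smA ℝ) : dz i (sc φ) = 0 :=
  ext_ev fun x => ((hd_time' (sm φ) x (0, ee i)).congr (e := 0) (by simp)).2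

theorem dy_Y (i l : Fin d) : dy i (Yc l) = if i = l then 1 else 0 :=
  ext_ev fun x => ((hd_y l x (0, ee i, 0)).congr (by
    split_ifs with h
    · simp [h]
    · simp [Ne.symm h])).2

theorem de_Y (i l : Fin d) : de i (Yc l) = 0 :=
  ext_ev fun x => ((hd_y l x (0, 0, ee i)).congr (e := 0) (by simp)).2

theorem ds_Y (l : Fin d) : ds (Yc l) = 0 :=
  ext_ev fun x => ((hd_y l x (1, 0, 0)).congr (e := 0) (by simp)).2

theorem de_H (i l : Fin d) : de i (Hc l) = if i = l then 1 else 0 :=
  ext_ev fun x => ((hd_eta l x (0, 0, ee i)).congr (by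
    split_ifs with h
    · simp [h]
    · simp [Ne.symm h])).2

theorem dy_H (i l : Fin d) : dy i (Hc l) = 0 :=
  ext_ev fun x => ((hd_eta l x (0, ee i, 0)).congr (e := 0) (by simp)).2

theorem ds_H (l : Fin d) : ds (Hc l) = 0 :=
  ext_ev fun x => ((hd_eta l x (1, 0, 0)).congr (e := 0) (by simp)).2

variable (ph : SS d)

/-- the transport part of the flow derivative -/
noncomputable def d0 : RR' d →ₗ[ℝ] RR' d where
  toFun f := ds f - tm U' * ∑ i, lf (dz i ph) * dy i f
  map_add' f g := by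
    simp only [map_add, mul_add, Finset.sum_add_distrib]; ring
  map_smul' c f := by
    simp only [map_smul, mul_smul_comm, ← Finset.smul_sum, RingHom.id_apply, smul_sub]

theorem d0_def (f : RR' d) : d0 ph f = ds f - tm U' * ∑ i, lf (dz i ph) * dy i f := rfl

/-- creation operator in the position variable -/
noncomputable def del (l : Fin d) : RR' d →ₗ[ℝ] RR' d where
  toFun f := (Yc l + tm U * lf (dz l ph)) * f - dy l f
  map_add' f g := by simp only [map_add]; ring
  map_smul' c f := by simp only [map_smul, mul_smul_comm, RingHom.id_apply, smul_sub]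

theorem del_def (l : Fin d) (f : RR' d) :
    del ph l f = (Yc l + tm U * lf (dz l ph)) * f - dy l f := rfl

/-- creation operator in the budget variable -/
noncomputable def eel (l : Fin d) : RR' d →ₗ[ℝ] RR' d where
  toFun f := Hc l * f - de l f
  map_add' f g := by simp only [map_add]; ring
  map_smul' c f := by simp only [map_smul, mul_smul_comm, RingHom.id_apply, smul_sub]

theorem eel_def (l : Fin d) (f : RR' d) : eel l f = Hc l * f - de l f := rfl

/-- the linearized parabolic operator -/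
noncomputable def EE (F : SS d) : SS d :=
  dt F + sc (U * U') * (∑ l, dz l (dz l F) - 2 * ∑ l, dz l ph * dz l F)

theorem d0_mul (f g : RR' d) : d0 ph (f * g) = d0 ph f * g + f * d0 ph g := by
  simp only [d0_def, ds_mul, dy_mul, mul_add, Finset.sum_add_distrib, sub_mul, mul_sub,
    Finset.sum_mul, Finset.mul_sum]
  simp only [mul_assoc, mul_left_comm f]
  ring

theorem d0_tm (φ : smA ℝ) : d0 ph (tm φ) = tm (dc 1 φ) := by
  simp [d0_def, ds_tm, dy_tm]

theorem d0_Y (l : Fin d) : d0 ph (Yc l) = -(tm U' * lf (dz l ph)) := by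
  simp [d0_def, ds_Y, dy_Y]

theorem d0_H (l : Fin d) : d0 ph (Hc l) = 0 := by
  simp [d0_def, ds_H, dy_H]

theorem d0_one : d0 ph 1 = 0 := by
  have h1 : ds (1 : RR' d) = 0 := dc_one _
  have h2 : ∀ i, dy i (1 : RR' d) = 0 := fun i => dc_one _
  simp [d0_def, h1, h2]

theorem d0_lf (F : SS d) :
    d0 ph (lf F) = tm U' * ∑ l, del ph l (lf (dz l F)) + lf (EE ph F) := by
  simp only [d0_def, ds_lf, dy_lf, del_def, EE, map_add, map_mul, map_sub, map_sum, lf_sc,
    map_ofNat, Finset.sum_sub_distrib, add_mul, Finset.sum_add_distrib, mul_assoc,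
    mul_left_comm _ (tm U), ← Finset.mul_sum]
  ring

theorem d0_dy (l : Fin d) (f : RR' d) : d0 ph (dy l f) =
    dy l (d0 ph f) + tm U * tm U' * ∑ i, lf (dz i (dz l ph)) * dy i f := by
  simp only [d0_def, map_sub, dy_mul, dy_tm, map_sum, dy_lf, ds_dy, dy_comm l, dz_comm l,
    Finset.sum_add_distrib, mul_assoc, ← Finset.mul_sum]
  ring

theorem d0_de (l : Fin d) (f : RR' d) : d0 ph (de l f) = de l (d0 ph f) := by
  simp only [d0_def, map_sub, de_mul, de_tm, map_sum, de_lf, ds_de, de_dy]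
  simp

theorem dy_del (m l : Fin d) (f : RR' d) : dy m (del ph l f) = del ph l (dy m f)
    + (if m = l then f else 0) + tm U * tm U * (lf (dz m (dz l ph)) * f) := by
  simp only [del_def, map_sub, dy_mul, map_add, dy_tm, dy_lf, dy_Y, dy_comm m]
  split_ifs <;> ring

theorem de_del (m l : Fin d) (f : RR' d) : de m (del ph l f) = del ph l (de m f) := by
  simp only [del_def, map_sub, de_mul, map_add, de_tm, de_lf, de_Y, de_dy]
  ring

theorem del_mul (l : Fin d) (f g : RR' d) : del ph l (f * g) = del ph l f * g - f * dy l g := by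
  simp only [del_def, dy_mul]; ring

theorem del_tm (l : Fin d) (φ : smA ℝ) (g : RR' d) :
    del ph l (tm φ * g) = tm φ * del ph l g := by
  simp only [del_def, dy_mul, dy_tm]; ring

theorem d0_del (hE : ∀ i, EE ph (dz i ph) = 0) (l : Fin d) (f : RR' d) :
    d0 ph (del ph l f) = del ph l (d0 ph f)
      + tm U * tm U' * ∑ i, del ph i (lf (dz i (dz l ph)) * f) := by
  simp only [del_mul, Finset.sum_sub_distrib, ← Finset.sum_mul]
  rw [del_def, del_def, map_sub, d0_mul, map_add, d0_mul, d0_Y, d0_tm, d0_lf, hE, d0_dy, map_zero]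
  rw [show (dc 1 U : smA ℝ) = U' from rfl]
  ring

theorem dy_eel (m l : Fin d) (f : RR' d) : dy m (eel l f) = eel l (dy m f) := by
  simp only [eel_def, map_sub, dy_mul, dy_H, de_dy]
  ring

theorem de_eel (m l : Fin d) (f : RR' d) :
    de m (eel l f) = eel l (de m f) + (if m = l then f else 0) := by
  simp only [eel_def, map_sub, de_mul, de_H, de_comm m]
  split_ifs <;> ring

theorem d0_eel (l : Fin d) (f : RR' d) : d0 ph (eel l f) = eel l (d0 ph f) := by
  simp only [eel_def, map_sub, d0_mul, d0_H, d0_de]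
  ring

theorem EE_dz (l : Fin d) (F : SS d) : EE ph (dz l F) =
    dz l (EE ph F) + sc (2 * U * U') * ∑ m, dz l (dz m ph) * dz m F := by
  have h2 : dz l (2 : SS d) = 0 := dc_two _
  simp only [EE, map_add, dz_mul, dz_sc, map_sub, map_sum, dt_dz, h2, dz_comm l,
    Finset.sum_add_distrib, map_mul, map_ofNat]
  ring

/-- the full flow derivative -/
noncomputable def DDb (lam : ℝ) (f : RR' d) : RR' d :=
  d0 ph f + lam • (∑ a, del ph a (∑ b, lf (dz a (dz b ph)) * de b f)
    - ∑ a, eel a (∑ b, lf (dz a (dz b ph)) * dy b f))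

theorem fderiv_triple (f : XX d → ℝ) (x : XX d) (v w : E d) :
    fderiv ℝ f x (1, v, w) = Ds f x + ∑ i, v i * Dy i f x + ∑ i, w i * De i f x := by
  have h : ((1, v, w) : XX d) = ((1 : ℝ), (0 : E d), (0 : E d))
      + ∑ i, v i • ((0 : ℝ), (ee i : E d), (0 : E d))
      + ∑ i, w i • ((0 : ℝ), (0 : E d), (ee i : E d)) := by
    refine Prod.ext ?_ (Prod.ext ?_ ?_)
    · simp [Prod.fst_sum]
    · simp only [Prod.snd_add, Prod.fst_add, Prod.snd_sum, Prod.fst_sum, Prod.smul_mk, smul_zero,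
        Finset.sum_const_zero, zero_add, add_zero]
      exact vec_eq_sum v
    · simp only [Prod.snd_add, Prod.snd_sum, Prod.smul_mk, smul_zero,
        Finset.sum_const_zero, zero_add, add_zero]
      exact vec_eq_sum w
  rw [h, map_add, map_add, map_sum, map_sum]
  simp only [map_smul, smul_eq_mul]
  rfl

/-- bundled version of `Lx` -/
noncomputable def Lb (j : Fin d) : RR' d := ∑ i, del ph i (lf (dz i (dz j ph)))

/-- bundled version of `Px` -/
noncomputable def Pb (i : Fin d) : RR' d := ∑ j, lf (dz i (dz j ph)) * Hc j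

theorem Lb_val (j : Fin d) (x : XX d) : ev x (Lb ph j) = Lx ph.1 j x := by
  simp only [Lb, del_def, dy_lf, map_sum, map_sub, map_mul, map_add]
  rfl

theorem Pb_val (j : Fin d) (x : XX d) : ev x (Pb ph j) = Px ph.1 j x := by
  simp only [Pb, map_sum, map_mul]
  rfl

theorem DDb_eq (lam : ℝ) (f : RR' d) : DDb ph lam f =
    d0 ph f + lam • (∑ b, Lb ph b * de b f - ∑ b, Pb ph b * dy b f) := by
  have h1 : ∑ a, del ph a (∑ b, lf (dz a (dz b ph)) * de b f) =
      ∑ b, Lb ph b * de b f - ∑ a, ∑ b, lf (dz a (dz b ph)) * dy a (de b f) := by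
    simp only [map_sum, del_mul, Finset.sum_sub_distrib, Lb, Finset.sum_mul]
    rw [Finset.sum_comm]
  have h2 : ∑ a, eel a (∑ b, lf (dz a (dz b ph)) * dy b f) =
      ∑ b, Pb ph b * dy b f - ∑ a, ∑ b, lf (dz a (dz b ph)) * dy a (de b f) := by
    simp only [map_sum, eel_def, de_mul, de_lf, zero_mul, zero_add, Finset.sum_sub_distrib, Pb,
      Finset.sum_mul, de_dy]
    rw [Finset.sum_comm, Finset.sum_comm (f := fun a b => lf (dz a (dz b ph)) * dy b (de a f))]
    congr 1
    · refine Finset.sum_congr rfl fun a _ => Finset.sum_congr rfl fun b _ => ?_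
      rw [dz_comm]; ring
    · refine Finset.sum_congr rfl fun a _ => Finset.sum_congr rfl fun b _ => ?_
      rw [dz_comm]
  rw [DDb, h1, h2]
  congr 2
  ring

theorem DDb_val (lam : ℝ) (f : RR' d) : (DDb ph lam f).1 = DD ph.1 lam f.1 := by
  ext x
  rw [← ev_apply, DDb_eq, DD, FF, fderiv_triple]
  simp only [d0_def, map_add, map_sub, map_smul, map_sum, map_mul, Lb_val, Pb_val, Fy, Fe,
    smul_eq_mul, sub_mul, Finset.sum_sub_distrib, neg_mul, Finset.sum_neg_distrib, mul_assoc,
    ← Finset.mul_sum]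
  have e1 : ev x (ds f) = Ds f.1 x := rfl
  have e2 : ∀ i, ev x (dy i f) = Dy i f.1 x := fun i => rfl
  have e3 : ∀ i, ev x (de i f) = De i f.1 x := fun i => rfl
  have e4 : ∀ i, ev x (lf (dz i ph)) = Gx ph.1 i x := fun i => rfl
  have e5 : ev x (tm U') = deriv uu x.1 := rfl
  simp only [e1, e2, e3, e4, e5]
  ring

theorem DDb_iter (lam : ℝ) (j : ℕ) (f : RR' d) :
    ((DDb ph lam)^[j] f).1 = (DD ph.1 lam)^[j] f.1 := by
  induction j generalizing f with
  | zero => rfl
  | succ j ih => rw [Function.iterate_succ_apply, Function.iterate_succ_apply, ih, DDb_val]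

end Vale.Agent.P347.Sob
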