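import Vale.Agent.P347.Sobolev1
import Vale.Agent.P347.Div

open MeasureTheory ProbabilityTheory Filter Set
open scoped ENNReal ContDiff RealInnerProductSpace

namespace Vale.Agent.P347.Sob

/-- all the data over which the constants are uniform -/
structure Data (C : ℕ → ℝ) : Type where
  d : ℕ
  ε : ℝ
  lam : ℝ
  s : ℝ
  Φ : ℝ × E d → ℝ
  pkg : Pkg C ε Φ
  h0 : 0 ≤ ε
  h1 : ε ≤ 1
  hl : |lam| * ε ≤ 2
  hs : |s| ≤ 1 / 2

variable {C : ℕ → ℝ}

def Data.ph (θ : Data C) : SS θ.d := ⟨θ.Φ, θ.pkg.smooth⟩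

abbrev Fam (ι : Data C → Type) : Type := (θ : Data C) → ι θ → RR' θ.d

abbrev PP (ι κ : Data C → Type) : Data C → Type := fun θ => ι θ × κ θ

abbrev FD : Data C → Type := fun θ => Fin θ.d

abbrev UU : Data C → Type := fun _ => Unit

/-- squared L2 norm of a family at the time of the data -/
noncomputable def nrm (θ : Data C) {ι : Type} [Fintype ι] (h : ι → RR' θ.d) : ℝ≥0∞ :=
  ∫⁻ q, ENNReal.ofReal (∑ i, ev (θ.s, q) (h i) ^ 2) ∂(muS θ.Φ θ.s)

theorem meas_sq (θ : Data C) {ι : Type} [Fintype ι] (h : ι → RR' θ.d) :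
    Measurable fun q : E θ.d × E θ.d => ENNReal.ofReal (∑ i, ev (θ.s, q) (h i) ^ 2) := by
  refine Measurable.ennreal_ofReal (Continuous.measurable ?_)
  refine continuous_finsetSum _ fun i _ => Continuous.pow ?_ 2
  exact (sm (h i)).continuous.comp (continuous_const.prodMk continuous_id)

theorem nrm_le_of_pt (θ : Data C) {ι κ : Type} [Fintype ι] [Fintype κ] {h : ι → RR' θ.d}
    {g : κ → RR' θ.d} {c : ℝ} (hc : 0 ≤ c)
    (hpt : ∀ q, ∑ i, ev (θ.s, q) (h i) ^ 2 ≤ c * ∑ k, ev (θ.s, q) (g k) ^ 2) :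
    nrm θ h ≤ ENNReal.ofReal c * nrm θ g := by
  rw [nrm, nrm, ← lintegral_const_mul' _ _ ENNReal.ofReal_ne_top]
  refine lintegral_mono fun q => ?_
  rw [← ENNReal.ofReal_mul hc]
  exact ENNReal.ofReal_le_ofReal (hpt q)

theorem nrm_add (θ : Data C) {ι : Type} [Fintype ι] (h g : ι → RR' θ.d) :
    nrm θ (h + g) ≤ 2 * nrm θ h + 2 * nrm θ g := by
  rw [← mul_add, nrm, nrm, nrm, ← lintegral_add_left (meas_sq θ h),
    ← lintegral_const_mul' _ _ ENNReal.ofNat_ne_top]
  refine lintegral_mono fun q => ?_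
  have e : ∀ a : ℝ, 2 * ENNReal.ofReal a = ENNReal.ofReal (2 * a) := fun a => by
    rw [ENNReal.ofReal_mul (by norm_num), ENNReal.ofReal_ofNat]
  rw [← ENNReal.ofReal_add (by positivity) (by positivity), e, ← Finset.sum_add_distrib,
    Finset.mul_sum]
  refine ENNReal.ofReal_le_ofReal (Finset.sum_le_sum fun i _ => ?_)
  rw [Pi.add_apply, map_add]
  nlinarith [sq_nonneg (ev (θ.s, q) (h i) - ev (θ.s, q) (g i))]

theorem nrm_prod (θ : Data C) {ι κ : Type} [Fintype ι] [Fintype κ] (h : ι × κ → RR' θ.d) :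
    nrm θ h = ∑ i, nrm θ fun k => h (i, k) := by
  simp only [nrm]
  rw [← lintegral_finsetSum _ fun i _ => meas_sq θ fun k => h (i, k)]
  refine lintegral_congr fun q => ?_
  rw [Fintype.sum_prod_type, ENNReal.ofReal_sum_of_nonneg fun i _ => by positivity]

theorem nrm_eq_sum (θ : Data C) {ι : Type} [Fintype ι] (h : ι → RR' θ.d) :
    nrm θ h = ∑ i, ∫⁻ q, ENNReal.ofReal (ev (θ.s, q) (h i) ^ 2) ∂(muS θ.Φ θ.s) := by
  rw [nrm, ← lintegral_finsetSum]
  · refine lintegral_congr fun q => ?_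
    rw [ENNReal.ofReal_sum_of_nonneg fun i _ => by positivity]
  · intro i _
    simpa using meas_sq θ fun _ : Unit => h i

section Fam

variable {ι κ : Data C → Type} [∀ θ, Fintype (ι θ)] [∀ θ, Fintype (κ θ)]
  {w w' : Data C → ℝ≥0∞}

/-- uniform L2 bound with weight w -/
def Bd (w : Data C → ℝ≥0∞) (h : Fam ι) : Prop :=
  ∃ c : ℝ≥0∞, c ≠ ⊤ ∧ ∀ θ, nrm θ (h θ) ≤ c * w θ

noncomputable def fdy (h : Fam ι) : Fam (PP ι FD) := fun θ p => dy p.2 (h θ p.1)

noncomputable def fde (h : Fam ι) : Fam (PP ι FD) := fun θ p => de p.2 (h θ p.1)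

noncomputable def fd0 (h : Fam ι) : Fam ι := fun θ i => d0 θ.ph (h θ i)

noncomputable def cy (h : Fam (PP ι FD)) : Fam ι := fun θ i => ∑ l, del θ.ph l (h θ (i, l))

noncomputable def ce (h : Fam (PP ι FD)) : Fam ι := fun θ i => ∑ l, eel l (h θ (i, l))

theorem Bd.of_pt {h : Fam ι} {g : Fam κ} (hg : Bd w g) {c : ℝ} (hc : 0 ≤ c)
    (hpt : ∀ θ q, ∑ i, ev (θ.s, q) (h θ i) ^ 2 ≤ c * ∑ k, ev (θ.s, q) (g θ k) ^ 2) : Bd w h := by
  obtain ⟨a, ha, hg⟩ := hg
  refine ⟨ENNReal.ofReal c * a, ENNReal.mul_ne_top ENNReal.ofReal_ne_top ha, fun θ => ?_⟩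
  refine (nrm_le_of_pt θ hc (hpt θ)).trans ?_
  rw [mul_assoc]
  gcongr
  exact hg θ

theorem Bd.add {h g : Fam ι} (hh : Bd w h) (hg : Bd w g) : Bd w (h + g) := by
  obtain ⟨a, ha, hh⟩ := hh
  obtain ⟨b, hb, hg⟩ := hg
  refine ⟨2 * a + 2 * b, by finiteness, fun θ => (nrm_add θ _ _).trans ?_⟩
  rw [add_mul, mul_assoc, mul_assoc]
  gcongr
  · exact hh θ
  · exact hg θ

theorem Bd.mono {h : Fam ι} (hh : Bd w h) {c : ℝ≥0∞} (hc : c ≠ ⊤) (hw : ∀ θ, w θ ≤ c * w' θ) :
    Bd w' h := by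
  obtain ⟨a, ha, hh⟩ := hh
  refine ⟨a * c, by finiteness, fun θ => (hh θ).trans ?_⟩
  rw [mul_assoc]
  gcongr
  exact hw θ

theorem Bd.smul {h : Fam ι} (hh : Bd w h) (c : Data C → ℝ) :
    Bd (fun θ => ENNReal.ofReal (c θ ^ 2) * w θ) (fun θ i => c θ • h θ i : Fam ι) := by
  obtain ⟨a, ha, hh⟩ := hh
  refine ⟨a, ha, fun θ => (nrm_le_of_pt θ (g := h θ) (sq_nonneg (c θ)) fun q => ?_).trans ?_⟩
  · simp only [map_smul, smul_eq_mul, mul_pow, Finset.mul_sum, le_refl]
  · rw [mul_left_comm]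
    gcongr
    exact hh θ

theorem Bd.tm {h : Fam ι} (hh : Bd w h) (φ : smA ℝ) :
    Bd w (fun θ i => tm φ * h θ i : Fam ι) := by
  obtain ⟨M, hM⟩ := (isCompact_Icc (a := (-(1 / 2) : ℝ)) (b := 1 / 2)).exists_bound_of_continuousOn
    (sm φ).continuous.continuousOn
  refine hh.of_pt (c := M ^ 2) (sq_nonneg M) fun θ q => ?_
  rw [Finset.mul_sum]
  refine Finset.sum_le_sum fun i _ => ?_
  rw [map_mul, mul_pow]
  have h1 : |φ.1 θ.s| ≤ M := hM θ.s (abs_le.1 θ.hs)
  have h2 : ev (θ.s, q) (Sob.tm φ : RR' θ.d) ^ 2 ≤ M ^ 2 := sq_le_sq' (abs_le.1 h1).1 (abs_le.1 h1).2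
  gcongr

theorem Bd.cy (hC : 0 ≤ C 0) {h : Fam (PP ι FD)} (h1 : Bd w h) (h2 : Bd w (fdy h)) :
    Bd w (cy h) := by
  obtain ⟨a, ha, h1⟩ := h1
  obtain ⟨b, hb, h2⟩ := h2
  refine ⟨ENNReal.ofReal (1 + C 0) * a + b, by finiteness, fun θ => ?_⟩
  calc nrm θ (Sob.cy h θ) ≤ ENNReal.ofReal (1 + C 0) * nrm θ (h θ) + nrm θ (fdy h θ) := by
        have e : nrm θ (fdy h θ) = ∑ i, nrm θ fun p : Fin θ.d × Fin θ.d => fdy h θ ((i, p.1), p.2) := by
          rw [← nrm_prod θ fun p : ι θ × Fin θ.d × Fin θ.d => fdy h θ ((p.1, p.2.1), p.2.2)]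
          simp only [nrm, Fintype.sum_prod_type]
        rw [e, nrm_prod θ (h θ), nrm_eq_sum, Finset.mul_sum, ← Finset.sum_add_distrib]
        refine Finset.sum_le_sum fun i _ => ?_
        have := θ.pkg.lintegral_cre_y θ.h0 θ.h1 hC θ.hs (fun l => (h θ (i, l)).1)
          fun l => sm _
        simp only [nrm, Fintype.sum_prod_type, Sob.cy, map_sum]
        exact this
    _ ≤ _ := by
        rw [add_mul, mul_assoc]
        gcongr
        · exact h1 θ
        · exact h2 θ

theorem Bd.ce {h : Fam (PP ι FD)} (h1 : Bd w h) (h2 : Bd w (fde h)) : Bd w (ce h) := by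
  obtain ⟨a, ha, h1⟩ := h1
  obtain ⟨b, hb, h2⟩ := h2
  refine ⟨a + b, by finiteness, fun θ => ?_⟩
  calc nrm θ (Sob.ce h θ) ≤ nrm θ (h θ) + nrm θ (fde h θ) := by
        have e : nrm θ (fde h θ) = ∑ i, nrm θ fun p : Fin θ.d × Fin θ.d => fde h θ ((i, p.1), p.2) := by
          rw [← nrm_prod θ fun p : ι θ × Fin θ.d × Fin θ.d => fde h θ ((p.1, p.2.1), p.2.2)]
          simp only [nrm, Fintype.sum_prod_type]
        rw [e, nrm_prod θ (h θ), nrm_eq_sum, ← Finset.sum_add_distrib]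
        refine Finset.sum_le_sum fun i _ => ?_
        have := lintegral_cre_e θ.pkg.smooth θ.s (fun l => (h θ (i, l)).1) fun l => sm _
        simp only [nrm, Fintype.sum_prod_type, Sob.ce, map_sum]
        exact this
    _ ≤ _ := by
        rw [add_mul]
        gcongr
        · exact h1 θ
        · exact h2 θ

end Fam

/-- uniform bounds for parabolic derivatives up to a level -/
def Good (w : Data C → ℝ≥0∞) :
    ℕ → {ι : Data C → Type} → [∀ θ, Fintype (ι θ)] → Fam ι → Prop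
  | 0, _, _, _ => True
  | 1, _, _, h => Bd w h
  | n + 2, _, _, h => Bd w h ∧ Good w (n + 1) (fdy h) ∧ Good w (n + 1) (fde h) ∧ Good w n (fd0 h)

variable {ι κ : Data C → Type} [∀ θ, Fintype (ι θ)] [∀ θ, Fintype (κ θ)]
  {w w' : Data C → ℝ≥0∞} {n : ℕ}

theorem good_zero (h : Fam ι) : Good w 0 h := by rw [Good]; trivial

theorem good_succ {h : Fam ι} : Good w (n + 1) h ↔
    Bd w h ∧ Good w n (fdy h) ∧ Good w n (fde h) ∧ Good w (n - 1) (fd0 h) := by
  cases n with
  | zero => simp [Good]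
  | succ n => rw [Good]; rfl

theorem Good.pred {h : Fam ι} (hh : Good w n h) : Good w (n - 1) h := by
  induction n using Nat.strong_induction_on generalizing ι with
  | _ n ih =>
    match n, ih, hh with
    | 0, _, hh => exact hh
    | 1, _, _ => exact good_zero h
    | n + 2, ih, hh =>
      obtain ⟨h1, h2, h3, h4⟩ := good_succ.1 hh
      exact good_succ.2 ⟨h1, ih (n + 1) (by omega) h2, ih (n + 1) (by omega) h3,
        ih n (by omega) h4⟩

theorem Good.of_succ {h : Fam ι} (hh : Good w (n + 1) h) : Good w n h := hh.pred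

theorem Good.re {h : Fam ι} (hh : Good w n h) (e : ∀ θ, κ θ ≃ ι θ) :
    Good w n (fun θ k => h θ (e θ k) : Fam κ) := by
  induction n using Nat.strong_induction_on generalizing ι κ with
  | _ n ih =>
    match n, ih, hh with
    | 0, _, _ => exact good_zero _
    | n + 1, ih, hh =>
      obtain ⟨h1, h2, h3, h4⟩ := good_succ.1 hh
      refine good_succ.2 ⟨h1.of_pt zero_le_one fun θ q => ?_,
        ih n (by omega) h2 fun θ => (e θ).prodCongr (Equiv.refl _),
        ih n (by omega) h3 fun θ => (e θ).prodCongr (Equiv.refl _), ih (n - 1) (by omega) h4 e⟩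
      rw [one_mul, Equiv.sum_comp (e θ) fun i => ev (θ.s, q) (h θ i) ^ 2]

theorem Good.of_eq {h : Fam ι} {g : Fam κ} (hh : Good w n h) (e : ∀ θ, κ θ ≃ ι θ)
    (he : ∀ θ k, g θ k = h θ (e θ k)) : Good w n g := by
  have : g = fun θ k => h θ (e θ k) := funext fun θ => funext fun k => he θ k
  rw [this]
  exact hh.re e

theorem Good.congr {h g : Fam ι} (hh : Good w n h) (he : ∀ θ k, g θ k = h θ k) : Good w n g :=
  hh.of_eq (fun _ => Equiv.refl _) he

theorem Good.add {h g : Fam ι} (hh : Good w n h) (hg : Good w n g) : Good w n (h + g) := by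
  induction n using Nat.strong_induction_on generalizing ι with
  | _ n ih =>
    match n, ih, hh, hg with
    | 0, _, _, _ => exact good_zero _
    | n + 1, ih, hh, hg =>
      obtain ⟨h1, h2, h3, h4⟩ := good_succ.1 hh
      obtain ⟨g1, g2, g3, g4⟩ := good_succ.1 hg
      exact good_succ.2 ⟨h1.add g1, (ih n (by omega) h2 g2).congr fun θ k => map_add _ _ _,
        (ih n (by omega) h3 g3).congr fun θ k => map_add _ _ _,
        (ih (n - 1) (by omega) h4 g4).congr fun θ k => map_add _ _ _⟩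

theorem Good.mono {h : Fam ι} (hh : Good w n h) {c : ℝ≥0∞} (hc : c ≠ ⊤)
    (hw : ∀ θ, w θ ≤ c * w' θ) : Good w' n h := by
  induction n using Nat.strong_induction_on generalizing ι with
  | _ n ih =>
    match n, ih, hh with
    | 0, _, _ => exact good_zero _
    | n + 1, ih, hh =>
      obtain ⟨h1, h2, h3, h4⟩ := good_succ.1 hh
      exact good_succ.2 ⟨h1.mono hc hw, ih n (by omega) h2, ih n (by omega) h3,
        ih (n - 1) (by omega) h4⟩

theorem Good.smul {h : Fam ι} (hh : Good w n h) (c : Data C → ℝ) :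
    Good (fun θ => ENNReal.ofReal (c θ ^ 2) * w θ) n (fun θ i => c θ • h θ i : Fam ι) := by
  induction n using Nat.strong_induction_on generalizing ι with
  | _ n ih =>
    match n, ih, hh with
    | 0, _, _ => exact good_zero _
    | n + 1, ih, hh =>
      obtain ⟨h1, h2, h3, h4⟩ := good_succ.1 hh
      exact good_succ.2 ⟨h1.smul c, (ih n (by omega) h2).congr fun θ k => map_smul _ _ _,
        (ih n (by omega) h3).congr fun θ k => map_smul _ _ _,
        (ih (n - 1) (by omega) h4).congr fun θ k => map_smul _ _ _⟩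

theorem Good.tm {h : Fam ι} (hh : Good w n h) (φ : smA ℝ) :
    Good w n (fun θ i => tm φ * h θ i : Fam ι) := by
  induction n using Nat.strong_induction_on generalizing ι φ with
  | _ n ih =>
    match n, ih, hh with
    | 0, _, _ => exact good_zero _
    | n + 1, ih, hh =>
      obtain ⟨h1, h2, h3, h4⟩ := good_succ.1 hh
      refine good_succ.2 ⟨h1.tm φ, (ih n (by omega) h2 φ).congr fun θ k => ?_,
        (ih n (by omega) h3 φ).congr fun θ k => ?_,
        ((ih (n - 1) (by omega) hh.of_succ.pred (dc 1 φ)).add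
          (ih (n - 1) (by omega) h4 φ)).congr fun θ k => ?_⟩
      · simp only [fdy, dy_mul, dy_tm, zero_mul, zero_add]
      · simp only [fde, de_mul, de_tm, zero_mul, zero_add]
      · simp only [fd0, d0_mul, d0_tm, Pi.add_apply]

theorem Good.sub {h g : Fam ι} (hh : Good w n h) (hg : Good w n g) : Good w n (h - g) :=
  (hh.add (hg.tm (-1))).congr fun θ k => by
    simp only [Pi.sub_apply, Pi.add_apply, map_neg, map_one]; ring

theorem good_zero_fam : Good w n (0 : Fam ι) := by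
  induction n using Nat.strong_induction_on generalizing ι with
  | _ n ih =>
    match n, ih with
    | 0, _ => exact good_zero _
    | n + 1, ih =>
      exact good_succ.2 ⟨⟨0, by simp, fun θ => by simp [nrm]⟩,
        (ih n (by omega)).congr fun θ k => map_zero _,
        (ih n (by omega)).congr fun θ k => map_zero _,
        (ih (n - 1) (by omega)).congr fun θ k => map_zero _⟩

theorem Good.ce {h : Fam (PP ι FD)} (hh : Good w (n + 1) h) : Good w n (ce h) := by
  induction n using Nat.strong_induction_on generalizing ι with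
  | _ n ih =>
    match n, ih, hh with
    | 0, _, _ => exact good_zero _
    | n + 1, ih, hh =>
      obtain ⟨h1, h2, h3, h4⟩ := good_succ.1 hh
      let e : ∀ θ, PP (PP ι FD) FD θ ≃ PP (PP ι FD) FD θ := fun θ =>
        ⟨fun p => ((p.1.1, p.2), p.1.2), fun p => ((p.1.1, p.2), p.1.2), fun _ => rfl,
          fun _ => rfl⟩
      refine good_succ.2 ⟨h1.ce (good_succ.1 h3).1, (ih n (by omega) (h2.re e)).congr
        fun θ k => ?_, ((ih n (by omega) (h3.re e)).add hh.of_succ.of_succ).congr fun θ k => ?_,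
        ?_⟩
      · simp only [fdy, Sob.ce, map_sum, dy_eel]; rfl
      · simp only [fde, Sob.ce, map_sum, de_eel, Finset.sum_add_distrib, Finset.sum_ite_eq,
          Finset.mem_univ, if_true, Pi.add_apply]
        rfl
      · match n, ih, h4 with
        | 0, _, _ => exact good_zero _
        | n + 1, ih, h4 =>
          refine (ih n (by omega) h4).congr fun θ k => ?_
          simp only [fd0, Sob.ce, map_sum, d0_eel]

end Vale.Agent.P347.Sob
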