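import Vale.Agent.P347.Sobolev2

open MeasureTheory ProbabilityTheory Filter Set
open scoped ENNReal ContDiff RealInnerProductSpace

namespace Vale.Agent.P347.Sob

variable {C : ℕ → ℝ}

abbrev Mu (α β : Data C → Type) : Type := (θ : Data C) → α θ → β θ → SS θ.d

noncomputable def Km : Mu (C := C) FD FD := fun θ a b => dz a (dz b θ.ph)

noncomputable def mout {α β : Data C → Type} (M : Mu α β) : Mu (PP α FD) β :=
  fun θ a b => dz a.2 (M θ a.1 b)

noncomputable def minn {α β : Data C → Type} (M : Mu α β) : Mu α (PP β FD) :=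
  fun θ a b => dz b.2 (M θ a b.1)

noncomputable def mEE {α β : Data C → Type} (M : Mu α β) : Mu α β :=
  fun θ a b => EE θ.ph (M θ a b)

noncomputable def mix {α β γ δ ζ : Data C → Type} [∀ θ, Fintype (δ θ)] (N : Mu γ (PP δ ζ))
    (M : Mu (PP α δ) β) : Mu (PP α γ) (PP β ζ) :=
  fun θ a b => ∑ e, N θ a.2 (e, b.2) * M θ (a.1, e) b.1

/-- matricizations of the derivatives of the potential -/
inductive Word : {α β : Data C → Type} → [∀ θ, Fintype (α θ)] → [∀ θ, Fintype (β θ)] →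
    Mu α β → Prop
  | base : Word Km
  | out {α β : Data C → Type} [∀ θ, Fintype (α θ)] [∀ θ, Fintype (β θ)] {M : Mu α β} :
      Word M → Word (mout M)
  | inn {α β : Data C → Type} [∀ θ, Fintype (α θ)] [∀ θ, Fintype (β θ)] {M : Mu α β} :
      Word M → Word (minn M)

/-- the class of multipliers generated by the words -/
inductive Alg : {α β : Data C → Type} → [∀ θ, Fintype (α θ)] → [∀ θ, Fintype (β θ)] →
    Mu α β → Prop
  | word {α β : Data C → Type} [∀ θ, Fintype (α θ)] [∀ θ, Fintype (β θ)] {M : Mu α β} :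
      Word M → Alg M
  | add {α β : Data C → Type} [∀ θ, Fintype (α θ)] [∀ θ, Fintype (β θ)] {M N : Mu α β} :
      Alg M → Alg N → Alg (M + N)
  | scal {α β : Data C → Type} [∀ θ, Fintype (α θ)] [∀ θ, Fintype (β θ)] {M : Mu α β}
      (φ : smA ℝ) : Alg M → Alg (fun θ a b => sc φ * M θ a b : Mu α β)
  | re {α β α' β' : Data C → Type} [∀ θ, Fintype (α θ)] [∀ θ, Fintype (β θ)]
      [∀ θ, Fintype (α' θ)] [∀ θ, Fintype (β' θ)] {M : Mu α β}
      (e : ∀ θ, α' θ ≃ α θ) (f : ∀ θ, β' θ ≃ β θ) :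
      Alg M → Alg (fun θ a b => M θ (e θ a) (f θ b) : Mu α' β')
  | mix {α β γ δ ζ : Data C → Type} [∀ θ, Fintype (α θ)] [∀ θ, Fintype (β θ)]
      [∀ θ, Fintype (γ θ)] [∀ θ, Fintype (δ θ)] [∀ θ, Fintype (ζ θ)] {N : Mu γ (PP δ ζ)}
      {M : Mu (PP α δ) β} : Alg N → Alg M → Alg (mix N M)

section
variable {α β α' β' : Data C → Type} [∀ θ, Fintype (α θ)] [∀ θ, Fintype (β θ)]
  [∀ θ, Fintype (α' θ)] [∀ θ, Fintype (β' θ)]

theorem Alg.of_eq {M : Mu α β} {N : Mu α' β'} (h : Alg M) (e : ∀ θ, α' θ ≃ α θ)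
    (f : ∀ θ, β' θ ≃ β θ) (he : ∀ θ a b, N θ a b = M θ (e θ a) (f θ b)) : Alg N := by
  have : N = fun θ a b => M θ (e θ a) (f θ b) :=
    funext fun θ => funext fun a => funext fun b => he θ a b
  rw [this]
  exact h.re e f

theorem Alg.congr {M N : Mu α β} (h : Alg M) (he : ∀ θ a b, N θ a b = M θ a b) : Alg N :=
  h.of_eq (fun _ => Equiv.refl _) (fun _ => Equiv.refl _) he

/-- exchange of the two last factors -/
def sw3 (A B D : Type) : (A × B) × D ≃ (A × D) × B :=
  ⟨fun p => ((p.1.1, p.2), p.1.2), fun p => ((p.1.1, p.2), p.1.2), fun _ => rfl, fun _ => rfl⟩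

theorem Alg.out {M : Mu α β} (h : Alg M) : Alg (mout M) := by
  induction h with
  | word h => exact Alg.word h.out
  | add _ _ ih1 ih2 => exact (ih1.add ih2).congr fun θ a b => map_add _ _ _
  | scal φ _ ih =>
    exact (ih.scal φ).congr fun θ a b => by simp only [mout, dz_mul, dz_sc, zero_mul, zero_add]
  | re e f _ ih => exact ih.of_eq (fun θ => (e θ).prodCongr (Equiv.refl _)) f fun θ a b => rfl
  | mix hN hM ihN ihM =>
    refine (((ihN.mix hM).re (fun θ => Equiv.prodAssoc _ _ _) fun θ => Equiv.refl _).add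
      ((hN.mix (ihM.re (fun θ => sw3 _ _ _) fun θ => Equiv.refl _)).re (fun θ => sw3 _ _ _)
        fun θ => Equiv.refl _)).congr fun θ a b => ?_
    simp only [mout, Sob.mix, map_sum, dz_mul, Finset.sum_add_distrib, Pi.add_apply]
    rfl

theorem Alg.inn {M : Mu α β} (h : Alg M) : Alg (minn M) := by
  induction h with
  | word h => exact Alg.word h.inn
  | add _ _ ih1 ih2 => exact (ih1.add ih2).congr fun θ a b => map_add _ _ _
  | scal φ _ ih =>
    exact (ih.scal φ).congr fun θ a b => by simp only [minn, dz_mul, dz_sc, zero_mul, zero_add]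
  | re e f _ ih => exact ih.of_eq e (fun θ => (f θ).prodCongr (Equiv.refl _)) fun θ a b => rfl
  | mix hN hM ihN ihM =>
    refine ((((ihN.re (fun θ => Equiv.refl _) fun θ => (Equiv.prodAssoc _ _ _).symm).mix hM).re
      (fun θ => Equiv.refl _) fun θ => Equiv.prodAssoc _ _ _).add
      ((hN.mix ihM).re (fun θ => Equiv.refl _) fun θ => sw3 _ _ _)).congr fun θ a b => ?_
    simp only [minn, Sob.mix, map_sum, dz_mul, Finset.sum_add_distrib, Pi.add_apply]
    rfl

theorem EE_grad (θ : Data C) (i : Fin θ.d) : EE θ.ph (dz i θ.ph) = 0 :=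
  ext_ev fun p => by
    have h := θ.pkg.Dt_Dz i p
    simp only [EE, map_add, map_mul, map_sub, map_sum, map_ofNat, map_zero]
    have e1 : ev p (dt (dz i θ.ph)) = Dt (Dz i θ.Φ) p := rfl
    have e2 : ∀ l, ev p (dz l (dz l (dz i θ.ph))) = Dz l (Dz l (Dz i θ.Φ)) p := fun l => rfl
    have e3 : ∀ l, ev p (dz l (dz i θ.ph)) = Dz l (Dz i θ.Φ) p := fun l => rfl
    have e4 : ∀ l, ev p (dz l θ.ph) = Dz l θ.Φ p := fun l => rfl
    have e5 : ev p (sc U) = uu p.1 := rfl
    have e6 : ev p (sc U') = deriv uu p.1 := rfl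
    simp only [e1, e2, e3, e4, e5, e6, h]
    ring

theorem Word.alg_EE {M : Mu α β} (h : Word M) : Alg (mEE M) := by
  have hK : Alg (Km (C := C)) := Alg.word Word.base
  induction h with
  | base =>
    refine ((((hK.re (fun θ => Equiv.refl _) (β' := PP FD UU) fun θ => Equiv.prodPUnit _).mix
      (hK.re (α' := PP UU FD) (fun θ => Equiv.punitProd _) fun θ => Equiv.refl _)).re
      (fun θ => (Equiv.punitProd _).symm) fun θ => (Equiv.prodPUnit _).symm).scal
      (2 * U * U')).congr fun θ a b => ?_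
    rw [mEE, Km, EE_dz, EE_grad, map_zero, zero_add]
    rfl
  | out h ih =>
    refine (ih.out.add ((((hK.re (fun θ => Equiv.refl _) (β' := PP FD UU)
      fun θ => Equiv.prodPUnit _).mix (Alg.word h.out)).re (fun θ => Equiv.refl _)
      fun θ => (Equiv.prodPUnit _).symm).scal (2 * U * U'))).congr fun θ a b => ?_
    simp only [mEE, mout, EE_dz]
    rfl
  | inn h ih =>
    refine (ih.inn.add (((((Alg.word h.inn).re (fun θ => Equiv.refl _)
      fun θ => Equiv.prodComm _ _).mix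
      (hK.re (α' := PP UU FD) (fun θ => Equiv.punitProd _) fun θ => Equiv.refl _)).re
      (fun θ => (Equiv.punitProd _).symm) fun θ => Equiv.prodComm _ _).scal
      (2 * U * U'))).congr fun θ a b => ?_
    simp only [mEE, minn, EE_dz, Pi.add_apply, Sob.mix]
    congr 2
    refine Finset.sum_congr rfl fun m _ => ?_
    rw [mul_comm, dz_comm]
    rfl

/-- iterated derivative of the potential along a list -/
noncomputable def word (θ : Data C) (l : List (Fin θ.d)) : SS θ.d :=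
  l.foldr (fun i F => dz i F) θ.ph

theorem word_val (θ : Data C) (l : List (Fin θ.d)) : (word θ l).1 = l.foldr Dz θ.Φ := by
  induction l with
  | nil => rfl
  | cons i l ih => rw [List.foldr_cons, ← ih]; rfl

theorem dz_word (θ : Data C) (i : Fin θ.d) (A B : List (Fin θ.d)) :
    dz i (word θ (A ++ B)) = word θ (A ++ i :: B) := by
  induction A with
  | nil => rfl
  | cons j A ih =>
    have e : ∀ l, word θ (j :: l) = dz j (word θ l) := fun l => rfl
    rw [List.cons_append, List.cons_append, e, e, dz_comm, ih]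

theorem Word.exists_list {M : Mu α β} (h : Word M) : ∃ (p q : ℕ)
    (e : ∀ θ, α θ ≃ (Fin (p + 1) → Fin θ.d)) (f : ∀ θ, β θ ≃ (Fin (q + 1) → Fin θ.d)),
    ∀ θ a b, M θ a b = word θ (List.ofFn (e θ a) ++ List.ofFn (f θ b)) := by
  induction h with
  | base =>
    exact ⟨0, 0, fun θ => (Equiv.funUnique (Fin 1) _).symm,
      fun θ => (Equiv.funUnique (Fin 1) _).symm, fun θ a b => by simp [Km, word]⟩
  | out h ih =>
    obtain ⟨p, q, e, f, he⟩ := ih
    refine ⟨p + 1, q, fun θ => ((e θ).prodCongr (Equiv.refl _)).trans ((Equiv.prodComm _ _).trans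
      (Fin.consEquiv fun _ => Fin θ.d)), f, fun θ a b => ?_⟩
    rw [mout, he, List.ofFn_succ (n := p + 1)]
    rfl
  | inn h ih =>
    obtain ⟨p, q, e, f, he⟩ := ih
    refine ⟨p, q + 1, e, fun θ => ((f θ).prodCongr (Equiv.refl _)).trans
      ((Equiv.prodComm _ _).trans (Fin.consEquiv fun _ => Fin θ.d)), fun θ a b => ?_⟩
    rw [minn, he, List.ofFn_succ (n := q + 1), dz_word]
    rfl

theorem Word.op_bound (hC : ∀ k, 0 ≤ C k) {M : Mu α β} (h : Word M) : ∃ c : ℝ, 0 ≤ c ∧
    ∀ (θ : Data C) (z : E θ.d) (B : β θ → ℝ),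
      ∑ a, (∑ b, ev (θ.s, z) (M θ a b) * B b) ^ 2 ≤ c * θ.ε ^ 2 * ∑ b, B b ^ 2 := by
  obtain ⟨p, q, e, f, he⟩ := h.exists_list
  refine ⟨C (p + q) ^ 2, sq_nonneg _, fun θ z B => ?_⟩
  set A : α θ → ℝ := fun a => ∑ b, ev (θ.s, z) (M θ a b) * B b with hA
  have h1 := θ.pkg.tens θ.s θ.hs p q z (fun a => A ((e θ).symm a)) fun b => B ((f θ).symm b)
  rw [← Equiv.sum_comp (e θ), ← Equiv.sum_comp (e θ), ← Equiv.sum_comp (f θ)] at h1
  simp only [Equiv.symm_apply_apply] at h1
  have h2 : ∀ a, ∑ b, A a * B ((f θ).symm b) *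
      D1L (List.ofFn (e θ a) ++ List.ofFn b) (fun z => θ.Φ (θ.s, z)) z = A a ^ 2 := by
    intro a
    rw [← Equiv.sum_comp (f θ), sq]
    nth_rewrite 3 [hA]
    simp only [Equiv.symm_apply_apply, Finset.mul_sum]
    refine Finset.sum_congr rfl fun b _ => ?_
    rw [← foldr_Dz_apply θ.pkg.smooth, ← word_val, he, ev_apply]
    ring
  simp only [h2] at h1
  have hS : 0 ≤ ∑ a, A a ^ 2 := by positivity
  have hT : 0 ≤ ∑ b, B b ^ 2 := by positivity
  rw [abs_of_nonneg hS] at h1
  have h3 : 0 ≤ C (p + q) * θ.ε * √(∑ b, B b ^ 2) := by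
    have := hC (p + q)
    have := θ.h0
    positivity
  have h4 : ∑ a, A a ^ 2 ≤ (C (p + q) * θ.ε * √(∑ b, B b ^ 2)) ^ 2 := by
    have h5 := Real.sq_sqrt hS
    rcases (Real.sqrt_nonneg (∑ a, A a ^ 2)).eq_or_lt with h0 | h0
    · rw [← h5, ← h0]; simpa using sq_nonneg _
    · have h6 : √(∑ a, A a ^ 2) ≤ C (p + q) * θ.ε * √(∑ b, B b ^ 2) := by
        apply le_of_mul_le_mul_left _ h0
        nlinarith
      rw [← h5]
      gcongr
  rwa [mul_pow, mul_pow, Real.sq_sqrt hT] at h4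

/-- action of a multiplier on a family -/
noncomputable def act {ι : Data C → Type} (M : Mu α β) (h : Fam (PP ι β)) : Fam (PP ι α) :=
  fun θ p => ∑ b, lf (M θ p.2 b) * h θ (p.1, b)

/-- the weight after one multiplication -/
noncomputable def sw (w : Data C → ℝ≥0∞) : Data C → ℝ≥0∞ :=
  fun θ => ENNReal.ofReal (θ.ε ^ 2) * w θ

theorem sw_le (w : Data C → ℝ≥0∞) (θ : Data C) : sw w θ ≤ 1 * w θ := by
  unfold sw
  gcongr
  exact ENNReal.ofReal_le_one.2 (pow_le_one₀ θ.h0 θ.h1)

theorem Word.bd (hC : ∀ k, 0 ≤ C k) {M : Mu α β} (hM : Word M) {ι : Data C → Type}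
    [∀ θ, Fintype (ι θ)] {w : Data C → ℝ≥0∞} {h : Fam (PP ι β)} (hh : Bd w h) :
    Bd (sw w) (act M h) := by
  obtain ⟨c, hc, hop⟩ := hM.op_bound hC
  refine (hh.smul fun θ => θ.ε).of_pt hc fun θ q => ?_
  rw [Fintype.sum_prod_type, Fintype.sum_prod_type, Finset.mul_sum]
  refine Finset.sum_le_sum fun i _ => ?_
  have := hop θ (uu θ.s • q.1) fun b => ev (θ.s, q) (h θ (i, b))
  simp only [act, map_sum, map_mul, map_smul, smul_eq_mul, mul_pow, ← Finset.mul_sum, ← mul_assoc]
  exact this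

/-- the multiplier property at level n -/
def Mult (n : ℕ) (M : Mu α β) : Prop :=
  ∀ (w : Data C → ℝ≥0∞) {ι : Data C → Type} [∀ θ, Fintype (ι θ)] (h : Fam (PP ι β)),
    Good w n h → Good (sw w) n (act M h)

theorem Alg.mult {n : ℕ} (hW : ∀ {α β : Data C → Type} [∀ θ, Fintype (α θ)]
    [∀ θ, Fintype (β θ)] {M : Mu α β}, Word M → Mult n M) {M : Mu α β} (h : Alg M) :
    Mult n M := by
  induction h with
  | word h => exact hW h
  | add _ _ ih1 ih2 =>
    intro w ι _ h hh
    refine ((ih1 w h hh).add (ih2 w h hh)).congr fun θ k => ?_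
    simp only [act, Pi.add_apply, map_add, add_mul, Finset.sum_add_distrib]
  | scal φ _ ih =>
    intro w ι _ h hh
    refine ((ih w h hh).tm φ).congr fun θ k => ?_
    simp only [act, map_mul, lf_sc, mul_assoc, Finset.mul_sum]
  | re e f _ ih =>
    intro w ι _ h hh
    refine (ih w _ (hh.re fun θ => (Equiv.refl _).prodCongr (f θ).symm)).of_eq
      (fun θ => (Equiv.refl _).prodCongr (e θ)) fun θ k => ?_
    simp only [act]
    rw [← Equiv.sum_comp (f θ)]
    simp
  | mix _ _ ihN ihM =>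
    intro w ι _ h hh
    have h1 := ihM w _ (hh.re fun θ => (sw3 _ _ _).trans (Equiv.prodAssoc _ _ _))
    have h2 := ihN _ _ (h1.re fun θ =>
      ((Equiv.prodAssoc _ _ _).symm.trans ((Equiv.prodAssoc _ _ _).prodCongr (Equiv.refl _))).trans
        ((sw3 _ _ _)))
    refine (h2.mono ENNReal.one_ne_top (sw_le _)).of_eq
      (fun θ => (Equiv.prodAssoc _ _ _).symm) fun θ k => ?_
    simp only [act, Sob.mix, map_sum, map_mul, Fintype.sum_prod_type, Finset.sum_mul,
      Finset.mul_sum, mul_assoc]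
    rw [Finset.sum_comm]
    simp only [Finset.sum_comm (f := fun (b : _) (e : _) => _ * (_ * h θ (k.1, b, _)))]
    rw [Finset.sum_comm]
    rfl

end

end Vale.Agent.P347.Sob
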