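import Vale.Agent.P347.Heat
import Vale.Agent.P347.Tensor3

open MeasureTheory ProbabilityTheory Filter Set
open scoped ENNReal ContDiff RealInnerProductSpace

namespace Vale.Agent.P347

variable {d : ℕ}

namespace Tens

theorem gradient_apply (f : E d → ℝ) (x : E d) (k : Fin d) : gradient f x k = D1 k f x := by
  have h := InnerProductSpace.toDual_symm_apply (𝕜 := ℝ) (x := ee k) (y := fderiv ℝ f x)
  rw [D1, ← h, gradient, EuclideanSpace.inner_single_right]
  simp

theorem norm_gradient_sq (f : E d → ℝ) (x : E d) : ‖gradient f x‖ ^ 2 = ∑ k, D1 k f x ^ 2 := by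
  rw [EuclideanSpace.real_norm_sq_eq]
  simp only [gradient_apply]

theorem norm_gradient_le (f : E d → ℝ) (x : E d) : ‖gradient f x‖ ≤ ∑ k, |D1 k f x| := by
  refine abs_le_of_sq_le_sq' ?_ (Finset.sum_nonneg fun _ _ => abs_nonneg _) |>.2
  rw [norm_gradient_sq]
  simpa only [sq_abs] using
    Finset.sum_sq_le_sq_sum_of_nonneg (s := Finset.univ) (f := fun k => |D1 k f x|)
      fun _ _ => abs_nonneg _

theorem good_post {ε : ℝ} {W : E d → ℝ} (hW : Conv ε W) {t : ℝ} (ht : 0 < t) (ht1 : t ≤ 1)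
    (z : E d) : Good (post W t z) := by
  have hS := hW.sconv_post ht z
  have hκ := inv_pos.2 ht
  have hint : ∀ P, EG P → Integrable P (post W t z) := fun P ⟨h1, A, B, _, h2⟩ =>
    hS.integrable_gibbs hκ h1.aestronglyMeasurable (A := A) (B := B) h2
  refine ⟨hS.gibbs_prob hκ, hint, fun f hf h0 => ?_⟩
  obtain ⟨-, A, B, -, hb⟩ := hf.2.1.abs.add (EG.sum Finset.univ fun k _ => (hf.2.2 k).abs)
  have h1 : ∀ x, 0 ≤ ∑ k, |D1 k f x| := fun x => Finset.sum_nonneg fun _ _ => abs_nonneg _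
  have := hS.poincare hκ hf.1 (A := A) (B := B)
    (fun x => le_trans (by linarith [h1 x]) ((le_abs_self _).trans (hb x)))
    (fun x => (norm_gradient_le f x).trans
      (le_trans (by linarith [abs_nonneg (f x)]) ((le_abs_self _).trans (hb x))))
  change ∫ x, (f x - ∫ y, f y ∂(post W t z)) ^ 2 ∂(post W t z) ≤
    t⁻¹⁻¹ * ∫ x, ‖gradient f x‖ ^ 2 ∂(post W t z) at this
  simp only [h0, sub_zero, inv_inv, norm_gradient_sq] at this
  rw [integral_finsetSum _ fun k _ => hint _ (hf.2.2 k).sq] at this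
  refine this.trans (mul_le_of_le_one_left ?_ ht1)
  exact Finset.sum_nonneg fun _ _ => integral_nonneg fun _ => sq_nonneg _

theorem D1_contDiff {n : ℕ∞} {f : E d → ℝ} (hf : ContDiff ℝ (n + 1 : ℕ∞) f) (k : Fin d) :
    ContDiff ℝ n (D1 k f) :=
  (hf.fderiv_right (m := n) (by simp)).clm_apply contDiff_const

theorem hess_OB {ε : ℝ} {W : E d → ℝ} (hW : Conv ε W) (hε : 0 ≤ ε) (x : E d) :
    OB (fun i k => D1 k (D1 i W) x) (ε ^ 2) := by
  intro A
  have hd : ∀ i, Differentiable ℝ (D1 i W) := fun i =>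
    (D1_contDiff (n := 1) hW.1 i).differentiable (by simp)
  set v : E d := WithLp.toLp 2 A with hv
  have h1 : ∀ y, ∑ i, A i * D1 i W y = ⟪gradient W y, v⟫ := fun y => by
    rw [PiLp.inner_apply]
    simp [gradient_apply, hv]
  have h2 : ‖fderiv ℝ (fun y => ∑ i, A i * D1 i W y) x‖ ≤ ε * ‖v‖ := by
    refine norm_fderiv_le_of_lip' ℝ (by positivity) (Eventually.of_forall fun y => ?_)
    rw [h1, h1, ← inner_sub_left]
    calc _ ≤ ‖gradient W y - gradient W x‖ * ‖v‖ := norm_inner_le_norm _ _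
      _ ≤ (ε * ‖y - x‖) * ‖v‖ := by gcongr; exact hW.norm_gradient_sub_le hε y x
      _ = _ := by ring
  have h3 : ‖gradient (fun y => ∑ i, A i * D1 i W y) x‖ ≤ ε * ‖v‖ := by
    rwa [gradient, LinearIsometryEquiv.norm_map]
  have h4 := pow_le_pow_left₀ (norm_nonneg _) h3 2
  rw [norm_gradient_sq, mul_pow, EuclideanSpace.real_norm_sq_eq] at h4
  refine le_trans (le_of_eq (Finset.sum_congr rfl fun k _ => ?_)) h4
  rw [D1_sum _ fun i _ => (hd i).const_mul _]
  simp only [D1_mul (differentiable_const _) (hd _), D1_const, zero_mul, zero_add]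

theorem OB.entry_le {I J : Type} [Fintype I] [Fintype J] {M : I → J → ℝ} {C : ℝ} (hC : 0 ≤ C)
    (h : OB M (C ^ 2)) (i : I) (j : J) : |M i j| ≤ C := by
  classical
  have := h.bilin hC (Pi.single i 1) (Pi.single j 1)
  simpa [Pi.single_apply] using this

theorem eg_hess {ε : ℝ} {W : E d → ℝ} (hW : Conv ε W) (hε : 0 ≤ ε) (i k : Fin d) :
    EG (D1 k (D1 i W)) :=
  EG.of_bound (D1_contDiff (n := 0) (D1_contDiff (n := 1) hW.1 i) k).continuous
    fun x => (hess_OB hW hε x).entry_le hε i k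

theorem norm_grad_le {ε : ℝ} {W : E d → ℝ} (hW : Conv ε W) (hε : 0 ≤ ε) (x : E d) :
    ‖gradient W x‖ ≤ ‖gradient W 0‖ + ε * ‖x‖ := by
  have := hW.norm_gradient_sub_le hε x 0
  rw [sub_zero] at this
  linarith [norm_sub_norm_le (gradient W x) (gradient W 0)]

theorem eg1_grad {ε : ℝ} {W : E d → ℝ} (hW : Conv ε W) (hε : 0 ≤ ε) (i : Fin d) :
    EG1 (D1 i W) := by
  refine ⟨D1_contDiff (n := 1) hW.1 i, ?_, eg_hess hW hε i⟩
  refine EG.of_le (D1_contDiff (n := 1) hW.1 i).continuous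
    ((EG.const ‖gradient W 0‖).add ((EG.const ε).mul EG.norm)) fun x => ?_
  rw [← gradient_apply]
  exact (PiLp.norm_apply_le (gradient W x) i).trans (norm_grad_le hW hε x)

theorem D1_Wt_eq {ε : ℝ} {W : E d → ℝ} (hW : Conv ε W) (hε : 0 ≤ ε) {t : ℝ} (ht : 0 < t)
    (z : E d) (i : Fin d) : D1 i (Wt W t) z = ∫ x, D1 i W x ∂(post W t z) := by
  have hc : Continuous (gradient W) :=
    (InnerProductSpace.toDual ℝ (E d)).symm.continuous.comp (hW.1.continuous_fderiv (by simp))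
  obtain ⟨-, A, B, -, hb⟩ := (EG.const (d := d) ‖gradient W 0‖).add ((EG.const ε).mul EG.norm)
  have hint : Integrable (gradient W) (post W t z) :=
    (hW.sconv_post ht z).integrable_gibbs (inv_pos.2 ht) hc.aestronglyMeasurable (A := A) (B := B)
      fun x => (norm_grad_le hW hε x).trans ((le_abs_self _).trans (hb x))
  rw [← gradient_apply]
  change mm W t z i = _
  rw [hW.mm_eq ht]
  have := (EuclideanSpace.proj i : E d →L[ℝ] ℝ).integral_comp_comm hint
  simp only [EuclideanSpace.coe_proj, gradient_apply] at this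
  exact this.symm

theorem D1L_smooth {f : E d → ℝ} (hf : ContDiff ℝ ∞ f) (l : List (Fin d)) :
    ContDiff ℝ ∞ (D1L l f) := by
  induction l with
  | nil => exact hf
  | cons k l ih => exact contDiff_fderiv_apply ih _

theorem hasFDerivAt_sum2 {f : E d → ℝ} (hf : ContDiff ℝ ∞ f) (z : E d) (p : E d × E d) :
    HasFDerivAt (fun p : E d × E d => f (z + (p.1 + p.2)))
      ((fderiv ℝ f (z + (p.1 + p.2))).comp
        (ContinuousLinearMap.fst ℝ _ _ + ContinuousLinearMap.snd ℝ _ _)) p :=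
  (hf.differentiable (by simp) _).hasFDerivAt.comp p
    ((hasFDerivAt_fst.add hasFDerivAt_snd).const_add z)

theorem hasFDerivAt_snd2 {f : E d → ℝ} (hf : ContDiff ℝ ∞ f) (z : E d) (p : E d × E d) :
    HasFDerivAt (fun p : E d × E d => f (z + p.2))
      ((fderiv ℝ f (z + p.2)).comp (ContinuousLinearMap.snd ℝ _ _)) p :=
  (hf.differentiable (by simp) _).hasFDerivAt.comp p (hasFDerivAt_snd.const_add z)

/-- increments -/
def Inc (z : E d) (f : E d → ℝ) : E d × E d → ℝ := fun p => f (z + (p.1 + p.2)) - f (z + p.2)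

/-- values at the sum -/
def Sm (z : E d) (f : E d → ℝ) : E d × E d → ℝ := fun p => f (z + (p.1 + p.2))

theorem Dp_Inc_right {f : E d → ℝ} (hf : ContDiff ℝ ∞ f) (z : E d) (l : Fin d) :
    Dp (0, ee l) (Inc z f) = Inc z (D1 l f) := by
  funext p
  have := ((hasFDerivAt_sum2 hf z p).fun_sub (hasFDerivAt_snd2 hf z p)).fderiv
  simp only [Dp, Inc, D1]
  unfold Inc
  rw [this]
  simp

theorem Dp_Inc_left {f : E d → ℝ} (hf : ContDiff ℝ ∞ f) (z : E d) (l : Fin d) :
    Dp (ee l, 0) (Inc z f) = Sm z (D1 l f) := by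
  funext p
  have := ((hasFDerivAt_sum2 hf z p).fun_sub (hasFDerivAt_snd2 hf z p)).fderiv
  simp only [Dp, Sm, D1]
  unfold Inc
  rw [this]
  simp

theorem Dp_Sm_left {f : E d → ℝ} (hf : ContDiff ℝ ∞ f) (z : E d) (l : Fin d) :
    Dp (ee l, 0) (Sm z f) = Sm z (D1 l f) := by
  funext p
  have := (hasFDerivAt_sum2 hf z p).fderiv
  simp only [Dp, Sm, D1]
  unfold Sm
  rw [this]
  simp

/-- split off the first letter of a word -/
def hd (n : ℕ) : (Fin (n + 1) → Fin d) ≃ (Fin n → Fin d) × Fin d :=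
  (Fin.consEquiv fun _ => Fin d).symm.trans (Equiv.prodComm _ _)

theorem extract_right {f : E d → ℝ} (hf : ContDiff ℝ ∞ f) (z : E d) {K : ℝ} (q : ℕ) :
    ∀ r, PN (r + q) Unit (Fin d) (fun _ j => Inc z (D1 j f)) K →
      PN r Unit (Fin (q + 1) → Fin d) (fun _ b => Inc z (D1L (List.ofFn b) f)) K := by
  induction q with
  | zero =>
    intro r h
    exact PN.congr (Equiv.refl _) (Equiv.funUnique (Fin 1) (Fin d)) h fun _ b => by
      simp [D1L]
  | succ q ih =>
    intro r h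
    have := (ih (r + 1) (by rwa [show r + 1 + q = r + (q + 1) by ring])).2.2
    refine PN.congr (Equiv.refl _) (hd (q + 1)) this fun _ b => ?_
    rw [Dp_Inc_right (D1L_smooth hf _), List.ofFn_succ]
    rfl

theorem extract_left {J : Type} [Fintype J] {f : J → E d → ℝ} (hf : ∀ j, ContDiff ℝ ∞ (f j))
    (z : E d) {K : ℝ} (p : ℕ) :
    ∀ r, PN (r + p + 1) Unit J (fun _ j => Inc z (f j)) K →
      PN r (Fin (p + 1) → Fin d) J (fun a j => Sm z (D1L (List.ofFn a) (f j))) K := by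
  induction p with
  | zero =>
    intro r h
    refine PN.congr ((Equiv.funUnique (Fin 1) (Fin d)).trans (Equiv.punitProd _).symm) (Equiv.refl _) h.2.1
      fun a j => ?_
    rw [Dp_Inc_left (hf _)]
    simp [D1L]
  | succ p ih =>
    intro r h
    have := (ih (r + 1) (by rwa [show r + 1 + p = r + (p + 1) by ring])).2.1
    refine PN.congr (hd (p + 1)) (Equiv.refl _) this fun a j => ?_
    rw [Dp_Sm_left (D1L_smooth (hf _) _), List.ofFn_succ]
    rfl

/-- the final squared constants -/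
def Kf : ℕ → ℝ := Ku (fun r => Ke r * Kr r) fun r => Ke r * Ke r

theorem Kf_nonneg (r : ℕ) : 0 ≤ Kf r :=
  Ku_nonneg (fun r => mul_nonneg (zero_le_one.trans (one_le_Ke r)) (Kr_nonneg r))
    (fun _ => mul_self_nonneg _) r

theorem PN_Inc {ε : ℝ} {W : E d → ℝ} (hW : Conv ε W) (hε : 0 ≤ ε) {t : ℝ} (ht : 3 / 4 ≤ t)
    (ht1 : t ≤ 1) (z : E d) (r : ℕ) :
    PN r Unit (Fin d) (fun _ j => Inc z (D1 j (Wt W t))) (ε ^ 2 * Kf r) := by
  have ht0 : 0 < t := by linarith
  have hν := good_post hW ht0 ht1 z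
  set ν := post W t z with hνd
  have := hν.prob
  set π : E d →L[ℝ] E d := t⁻¹ • ContinuousLinearMap.id ℝ (E d) with hπ
  have hπa : ∀ a x : E d, ⟪π a, x⟫ = ⟪a, x⟫ / t := fun a x => by
    simp [hπ, inner_smul_left, div_eq_inv_mul]
  have hc : t⁻¹ ^ 2 ≤ 4 := by
    have : t⁻¹ ≤ 2 := by rw [inv_le_comm₀ ht0 (by norm_num)]; linarith
    have h0 := inv_pos.2 ht0
    nlinarith
  set Z : E d → ℝ := fun a => Lap ν (fun _ => 1) (π a) with hZ
  have hZpos : ∀ a, 0 < Z a := fun a => by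
    simp only [hZ, Lap, one_mul]
    exact integral_exp_pos (hν.integ _ (EG.exp_inner _))
  have hZs : ContDiff ℝ ∞ Z := (hν.lap_smooth (EG.const 1)).comp π.contDiff
  have hZi : ContDiff ℝ ∞ fun a => (Z a)⁻¹ := hZs.inv fun a => (hZpos a).ne'
  have hZ0 : Z 0 = 1 := by simp [hZ, Lap]
  have hF := hW.contDiff_Wt ht0
  set G : Fin d → E d → ℝ := fun j a => D1 j (Wt W t) (z + a) with hG
  have hGs : ∀ j, ContDiff ℝ ∞ (G j) := fun j =>
    (contDiff_fderiv_apply hF (ee j)).comp (contDiff_const.add contDiff_id)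
  have hGL : ∀ j a, Lap ν (D1 j W) (π a) = G j a * Z a := fun j a => by
    have h1 := hW.integral_post_add ht0 z a (D1 j W)
    rw [← D1_Wt_eq hW hε ht0] at h1
    have h2 := hZpos a
    simp only [hG, hZ, Lap, hπa, one_mul] at h2 ⊢
    rw [h1, div_mul_cancel₀ _ h2.ne']
  set e : E d → E d → ℝ := fun a x => (Z a)⁻¹ * ((fun _ => (1 : ℝ)) x * Real.exp ⟪π a, x⟫) with he
  have hecl : Cl π EG1 e := Cl.base _ _ hZi (EG1.const 1)
  have hπk : ∀ (a : E d) k, π a k = t⁻¹ * a k := fun a k => by simp [hπ]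
  have hVe := VN_exp hν hecl (fun x => by simp [he, hZ0]) (fun a => by
      simp only [he]
      rw [integral_const_mul]
      exact inv_mul_cancel₀ (hZpos a).ne') hc
    (fun k => by
      rw [he, Xd_base _ (EG1.const 1), D1_const]
      funext a x
      simp only [hπk]
      ring)
  set R : Fin d → E d → E d → ℝ := fun j a x => (Z a)⁻¹ * (D1 j W x * Real.exp ⟪π a, x⟫) +
    (-G j a * (Z a)⁻¹) * ((fun _ => (1 : ℝ)) x * Real.exp ⟪π a, x⟫) with hR
  have hR1 : ∀ j, Cl π EG1 fun a x => (Z a)⁻¹ * (D1 j W x * Real.exp ⟪π a, x⟫) := fun j =>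
    Cl.base _ _ hZi (eg1_grad hW hε j)
  have hR2 : ∀ j, Cl π EG1 fun a x =>
      (-G j a * (Z a)⁻¹) * ((fun _ => (1 : ℝ)) x * Real.exp ⟪π a, x⟫) := fun j =>
    Cl.base _ _ ((hGs j).neg.mul hZi) (EG1.const 1)
  have hRcl : ∀ j, Cl π EG1 (R j) := fun j => Cl.add _ _ (hR1 j) (hR2 j)
  have hVR := VN_grad hν hecl.zero_of_one hVe hRcl (fun j a => by
      simp only [hR]
      rw [integral_add (hν.integ _ ((hR1 j).zero_of_one.eg a))
        (hν.integ _ ((hR2 j).zero_of_one.eg a)), integral_const_mul, integral_const_mul]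
      change (Z a)⁻¹ * Lap ν (D1 j W) (π a) + -G j a * (Z a)⁻¹ * Z a = 0
      rw [hGL]
      ring) hc (sq_nonneg ε) (eg_hess hW hε) (hess_OB hW hε)
    (fun j k => by
      simp only [hR]
      rw [Xd_add (fun a => ((hR1 j).eg1 a).diff) (fun a => ((hR2 j).eg1 a).diff),
        Xd_base _ (eg1_grad hW hε j), Xd_base _ (EG1.const 1), D1_const]
      funext a x
      simp only [hπk, he]
      ring)
  have hKe : ∀ r, 0 ≤ Ke r := fun r => zero_le_one.trans (one_le_Ke r)
  have hM : ∀ p, BB ν e e p = (Z p.1)⁻¹ * (Z p.2)⁻¹ * Z (p.1 + p.2) := fun p => by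
    simp only [BB, he, hZ, Lap, ← integral_const_mul, map_add, inner_add_left, Real.exp_add]
    refine integral_congr_ae (ae_of_all _ fun x => ?_)
    simp only
    ring
  refine PN_quot (U := fun j => Inc z (D1 j (Wt W t))) (N := fun j => BB ν e (R j))
    (M := BB ν e e)
    (fun r => mul_nonneg (hKe r) (Kr_nonneg r)) (fun r => mul_self_nonneg _) (sq_nonneg ε)
    (fun j => ((hGs j).comp (contDiff_fst.add contDiff_snd)).sub ((hGs j).comp contDiff_snd))
    (fun j => hν.BB_smooth hecl.zero_of_one (hRcl j).zero_of_one)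
    (hν.BB_smooth hecl.zero_of_one hecl.zero_of_one) (by simp [hM, hZ0]) (fun j p => ?_)
    (fun r => ?_) (fun r => ?_) r
  · have h1 : BB ν e (R j) p = (Z p.1)⁻¹ * (Z p.2)⁻¹ * Lap ν (D1 j W) (π (p.1 + p.2)) +
        -G j p.2 * ((Z p.1)⁻¹ * (Z p.2)⁻¹) * Z (p.1 + p.2) := by
      simp only [hZ, Lap]
      rw [← integral_const_mul, ← integral_const_mul, ← integral_add
        (hν.integ _ ((EG.const _).mul ((eg1_grad hW hε j).2.1.mul (EG.exp_inner _))))
        (hν.integ _ ((EG.const _).mul ((EG.const _).mul (EG.exp_inner _))))]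
      refine integral_congr_ae (ae_of_all _ fun x => ?_)
      simp only [he, hR, hZ, Lap, map_add, inner_add_left, Real.exp_add]
      ring
    rw [h1, hM, hGL]
    simp only [Inc, hG]
    ring
  · refine PN.mono (PN_BB hν (hKe r) (mul_nonneg (sq_nonneg ε) (Kr_nonneg r))
      (fun _ => hecl.zero_of_one) (fun j => (hRcl j).zero_of_one) (hVe r) (hVR r)) (le_of_eq ?_)
    ring
  · exact PN_BB hν (hKe r) (hKe r) (fun _ => hecl.zero_of_one) (fun _ => hecl.zero_of_one)
      (hVe r) (hVe r)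

end Tens

theorem exists_tensBound : ∃ C : ℕ → ℝ, (∀ k, 0 ≤ C k) ∧
    ∀ (d : ℕ) (ε : ℝ) (W : E d → ℝ), 0 ≤ ε → ε ≤ 1 → Conv ε W →
      ∀ t : ℝ, 3 / 4 ≤ t → t ≤ 1 → TensBound C ε (Wt W t) := by
  refine ⟨fun k => √(Tens.Kf (k + 2)), fun k => Real.sqrt_nonneg _, ?_⟩
  intro d ε W hε _ hW t ht ht1 p q z A B
  have hF := hW.contDiff_Wt (show 0 < t by linarith)
  have h1 := Tens.PN_Inc hW hε ht ht1 z (p + q + 2)
  have h2 := Tens.extract_right hF z q (1 + p + 1)
    (by rwa [show 1 + p + 1 + q = p + q + 2 by ring])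
  have h3 := (Tens.extract_left (fun b => Tens.D1L_smooth hF _) z p 1 h2).1
  have h4 : ε ^ 2 * Tens.Kf (p + q + 2) = (√(Tens.Kf (p + q + 2)) * ε) ^ 2 := by
    rw [mul_pow, Real.sq_sqrt (Tens.Kf_nonneg _), mul_comm]
  rw [h4] at h3
  have h5 := h3.bilin (by positivity) A B
  simpa only [Tens.Sm, Prod.fst_zero, Prod.snd_zero, add_zero, D1L, List.foldr_append] using h5

theorem exists_pkg : ∃ C : ℕ → ℝ, (∀ k, 0 ≤ C k) ∧
    ∀ (d : ℕ) (ε : ℝ) (W : E d → ℝ), 0 ≤ ε → ε ≤ 1 → Conv ε W → Pkg C ε (PhiOf W) := by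
  obtain ⟨C, hC, h⟩ := exists_tensBound
  refine ⟨C, hC, fun d ε W hε hε1 hW => ⟨hW.contDiff_PhiOf, hW.pde_PhiOf, fun s hs => ?_⟩⟩
  have h1 : uu s = s := uu_eq (hs.trans (by norm_num))
  have h2 : s ^ 2 ≤ 1 / 4 := by
    have := pow_le_pow_left₀ (abs_nonneg s) hs 2
    rw [sq_abs] at this
    linarith
  have h3 := h d ε W hε hε1 hW (1 - s ^ 2) (by linarith) (by nlinarith [sq_nonneg s])
  simpa only [PhiOf, h1] using h3

end Vale.Agent.P347
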